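import Vale.Agent.P153.R2.RINS.Loc

/-!
# P153-R2, block RINS: extremal extensions of bounded data

`Sm V η m`: the configurations with the exact data `η` off `V` and `|h| ≤ m` on `V`. It is a finite
lattice; its least element `l` is the lowest extension which is bounded below by `-m`.
-/

namespace Vale.Agent.P153.R2.RINS

open Set Relation
open Vale.Agent.P153
open Vale.Agent.P153.Topo (Conn)

/-- Configurations with `|h| ≤ m` on `V`. -/
def Sm (V : Set Pt) (η : Hg) (m : ℤ) : Set Hg := {h | h ∈ XC V η ∧ ∀ x ∈ V, |h x| ≤ m}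

variable {V D : Set Pt} {η g h l l' : Hg} {m m' : ℤ}

theorem Sm_finite (hV : V.Finite) (η : Hg) (m : ℤ) : (Sm V η m).Finite :=
  (XC_finite hV η).subset fun _ h => h.1

theorem XC_inf (hh : h ∈ XC V η) (hg : g ∈ XC V η) : h ⊓ g ∈ XC V η :=
  Cfg.inf_mem (fun _ => min_mem_self _) hh hg

theorem XC_sup (hh : h ∈ XC V η) (hg : g ∈ XC V η) : h ⊔ g ∈ XC V η :=
  Cfg.sup_mem (fun _ => max_mem_self _) hh hg

theorem Sm_inf (hh : h ∈ Sm V η m) (hg : g ∈ Sm V η m) : h ⊓ g ∈ Sm V η m := by
  refine ⟨XC_inf hh.1 hg.1, fun x hx => ?_⟩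
  rcases min_choice (h x) (g x) with h1 | h1
  · simpa only [Pi.inf_apply, h1] using hh.2 x hx
  · simpa only [Pi.inf_apply, h1] using hg.2 x hx

theorem Sm_mono (hm : m ≤ m') : Sm V η m ⊆ Sm V η m' :=
  fun _ h => ⟨h.1, fun x hx => (h.2 x hx).trans hm⟩

/-- The least element exists. -/
theorem exists_least (hV : V.Finite) (hne : (Sm V η m).Nonempty) : ∃ l, IsLeast (Sm V η m) l := by
  classical
  have hf := Sm_finite hV η m
  have hn : hf.toFinset.Nonempty := by simpa using hne
  refine ⟨hf.toFinset.inf' hn id, ?_, ?_⟩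
  · exact Finset.inf'_mem (Sm V η m) (fun x hx y hy => Sm_inf hx hy) _ hn id
      (fun i hi => by simpa using hi)
  · intro h hh
    exact Finset.inf'_le id (by simpa using hh)

theorem lip_min {a b c d : ℤ} (h1 : |a - c| ≤ 2) (h2 : |b - d| ≤ 2) :
    |min a b - min c d| ≤ 2 :=
  (abs_min_sub_min_le_max a b c d).trans (max_le h1 h2)

theorem lip_max {a b c d : ℤ} (h1 : |a - c| ≤ 2) (h2 : |b - d| ≤ 2) :
    |max a b - max c d| ≤ 2 :=
  (abs_max_sub_max_le_max a b c d).trans (max_le h1 h2)

theorem odd_min {a b : ℤ} (ha : Odd a) (hb : Odd b) : Odd (min a b) := by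
  rcases min_choice a b with h | h <;> rw [h] <;> assumption

theorem odd_max {a b : ℤ} (ha : Odd a) (hb : Odd b) : Odd (max a b) := by
  rcases max_choice a b with h | h <;> rw [h] <;> assumption

/-- Clamping. -/
theorem clamp_mem (hm : Odd m) (hm0 : 0 ≤ m) (hη : ∀ x ∈ ebd V, |η x| ≤ m) (hh : h ∈ XC V η) :
    ∃ g ∈ Sm V η m, (∀ x ∈ V, g x = max (-m) (min m (h x))) := by
  classical
  rw [mem_XC] at hh
  have key : ∀ x y, x ∈ V → Adj x y →
      |(if x ∈ V then max (-m) (min m (h x)) else h x) -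
        (if y ∈ V then max (-m) (min m (h y)) else h y)| ≤ 2 := by
    intro x y hx hxy
    rw [if_pos hx]
    have h1 := hh.2.2 x y ⟨hxy, Or.inl hx⟩
    have h0 : |(-m : ℤ) - -m| ≤ 2 := by simp
    have h0' : |(m : ℤ) - m| ≤ 2 := by simp
    have h2 : |max (-m) (min m (h x)) - max (-m) (min m (h y))| ≤ 2 :=
      lip_max h0 (lip_min h0' h1)
    split_ifs with hy
    · exact h2
    · have h3 := hη y (adj_mem_ebd hx hy hxy)
      rw [← hh.2.1 y hy] at h3
      have h4 := abs_le.1 h3
      have h5 : max (-m) (min m (h y)) = h y := by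
        rw [min_eq_right h4.2, max_eq_right h4.1]
      rwa [h5] at h2
  refine ⟨fun x => if x ∈ V then max (-m) (min m (h x)) else h x, ⟨?_, fun x hx => ?_⟩,
    fun x hx => if_pos hx⟩
  · rw [mem_XC]
    refine ⟨fun x => ?_, fun x hx => ?_, fun x y hxy => ?_⟩
    · split_ifs
      · exact odd_max hm.neg (odd_min hm (hh.1 x))
      · exact hh.1 x
    · rw [if_neg hx]
      exact hh.2.1 x hx
    · rcases hxy.2 with h4 | h4
      · exact key x y h4 hxy.1
      · rw [abs_sub_comm]
        exact key y x h4 (Topo.adj_symm hxy.1)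
  · dsimp only
    rw [if_pos hx, abs_le]
    exact ⟨le_max_left _ _, max_le (by linarith) (min_le_left _ _)⟩

theorem Sm_nonempty (hm : Odd m) (hm0 : 0 ≤ m) (hη : ∀ x ∈ ebd V, |η x| ≤ m)
    (hne : (XC V η).Nonempty) : (Sm V η m).Nonempty := by
  obtain ⟨h, hh⟩ := hne
  obtain ⟨g, hg, _⟩ := clamp_mem hm hm0 hη hh
  exact ⟨g, hg⟩

theorem IsLeast.off (hl : IsLeast (Sm V η m) l) {x : Pt} (hx : x ∉ V) : l x = η x :=
  (mem_XC.1 hl.1.1).2.1 x hx

theorem IsLeast.odd (hl : IsLeast (Sm V η m) l) (x : Pt) : Odd (l x) := (mem_XC.1 hl.1.1).1 x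

theorem IsLeast.lip (hl : IsLeast (Sm V η m) l) : LipV V l := (mem_XC.1 hl.1.1).2.2

theorem IsLeast.ge (hl : IsLeast (Sm V η m) l) {x : Pt} (hx : x ∈ V) : -m ≤ l x :=
  (abs_le.1 (hl.1.2 x hx)).1

theorem IsLeast.le (hl : IsLeast (Sm V η m) l) {x : Pt} (hx : x ∈ V) : l x ≤ m :=
  (abs_le.1 (hl.1.2 x hx)).2

/-- The extremal configuration belongs to the laws of all smaller domains. -/
theorem IsLeast.mem_XC (hl : IsLeast (Sm V η m) l) (hD : D ⊆ V) : l ∈ XC D l :=
  RINS.mem_XC.2 ⟨IsLeast.odd hl, fun _ _ => rfl, (IsLeast.lip hl).mono hD⟩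

/-- The least extension for the larger bound is lower. -/
theorem least_anti (hl : IsLeast (Sm V η m) l) (hl' : IsLeast (Sm V η m') l') (hm : m ≤ m') :
    l' ≤ l := hl'.2 (Sm_mono hm hl.1)

/-- The least extension for the bound `m` is the maximum of `-m` and the one for `m'`. -/
theorem least_eq (hmo : Odd m) (hm0 : 0 ≤ m) (hη : ∀ x ∈ ebd V, |η x| ≤ m)
    (hl : IsLeast (Sm V η m) l) (hl' : IsLeast (Sm V η m') l') (hm : m ≤ m') {x : Pt}
    (hx : x ∈ V) : l x = max (-m) (l' x) := by
  obtain ⟨g, hg, hgx⟩ := clamp_mem hmo hm0 hη hl'.1.1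
  have h1 := hl.2 hg x
  rw [hgx x hx] at h1
  have h2 := least_anti hl hl' hm x
  have h3 := IsLeast.ge hl hx
  have h4 := IsLeast.le hl hx
  rw [min_eq_right (h2.trans h4)] at h1
  exact le_antisymm h1 (max_le h3 h2)

open Classical in
/-- Configurations of a smaller domain whose boundary values are above `l` are above `l`, as far as
they are above `-m`. -/
theorem least_le (hmo : Odd m) (hl : IsLeast (Sm V η m) l) (hD : D ⊆ V)
    (ho : ∀ x, Odd (h x)) (hL : LipV D h) (hb : ∀ y ∈ ebd D, l y ≤ h y) {x : Pt} (hx : x ∈ D) :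
    l x ≤ max (h x) (-m) := by
  have hlL := IsLeast.lip hl
  have hl0 := mem_XC.1 hl.1.1
  set f : Hg := fun x => if x ∈ D then min (l x) (max (h x) (-m)) else l x with hf
  have fin : ∀ x, x ∈ D → f x = min (l x) (max (h x) (-m)) := fun x hx => if_pos hx
  have fout : ∀ x, x ∉ D → f x = l x := fun x hx => if_neg hx
  have key : ∀ x y, x ∈ D → Adj x y → |f x - f y| ≤ 2 := by
    intro x y hx hxy
    have h1 := hlL x y ⟨hxy, Or.inl (hD hx)⟩
    have h2 := hL x y ⟨hxy, Or.inl hx⟩
    have h0 : |(-m : ℤ) - -m| ≤ 2 := by simp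
    by_cases hy : y ∈ D
    · rw [fin x hx, fin y hy]
      exact lip_min h1 (lip_max h2 h0)
    · rw [fin x hx, fout y hy]
      have h3 := hb y (adj_mem_ebd hx hy hxy)
      rw [abs_le] at *
      constructor
      · have a1 : l y - 2 ≤ l x := by linarith [h1.1]
        have a2 : l y - 2 ≤ max (h x) (-m) := le_max_of_le_left (by linarith [h2.1])
        have := le_min a1 a2
        linarith
      · have : min (l x) (max (h x) (-m)) ≤ l x := min_le_left _ _
        linarith [h1.2]
  have hfm : f ∈ Sm V η m := by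
    refine ⟨mem_XC.2 ⟨fun x => ?_, fun x hx => ?_, fun x y hxy => ?_⟩, fun x hx => ?_⟩
    · by_cases hx : x ∈ D
      · rw [fin x hx]
        exact odd_min (hl0.1 x) (odd_max (ho x) hmo.neg)
      · rw [fout x hx]; exact hl0.1 x
    · rw [fout x fun h1 => hx (hD h1)]
      exact hl0.2.1 x hx
    · by_cases hx : x ∈ D
      · exact key x y hx hxy.1
      · by_cases hy : y ∈ D
        · rw [abs_sub_comm]
          exact key y x hy (Topo.adj_symm hxy.1)
        · rw [fout x hx, fout y hy]
          exact hlL x y hxy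
    · have h1 := IsLeast.ge hl hx
      have h2 := IsLeast.le hl hx
      rw [abs_le]
      by_cases hxD : x ∈ D
      · rw [fin x hxD]
        exact ⟨le_min h1 (le_max_right _ _), (min_le_left _ _).trans h2⟩
      · rw [fout x hxD]
        exact ⟨h1, h2⟩
  have := hl.2 hfm x
  rw [fin x hx] at this
  exact this.trans (min_le_right _ _)

/-- The reflected data `2 w - l'` (bound `m'`) are above the highest extension (bound `m`), at the
vertices `x` such that all the walls within distance `r` of `x` have the height `w`. Here `dist` is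
any function with `dist x = 0` which changes by at most one along the edges. -/
theorem least_add {w : ℤ} (hmo : Odd m') (hl : IsLeast (Sm V η m') l')
    (hh : h ∈ XC V η) (hhm : ∀ x ∈ V, h x ≤ m) (hm : m + 2 ≤ m') (hw1 : -1 ≤ w)
    (d : Pt → ℕ) (hd : ∀ x y, Adj x y → d y ≤ d x + 1) {x : Pt} (hx : d x = 0)
    (hxV : x ∈ V) (hwall : ∀ y ∈ ebd V, (d y : ℤ) < m' → η y = w) : l' x + h x ≤ 2 * w := by
  classical
  have hlL := IsLeast.lip hl
  have hl0 := mem_XC.1 hl.1.1
  have hh0 := mem_XC.1 hh
  set f : Hg := fun z => if z ∈ V then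
    min (l' z) (max (2 * w - h z) (2 * d z - m')) else l' z with hf
  have fin : ∀ x, x ∈ V → f x = min (l' x) (max (2 * w - h x) (2 * d x - m')) :=
    fun x hx => if_pos hx
  have fout : ∀ x, x ∉ V → f x = l' x := fun x hx => if_neg hx
  have key : ∀ x y, x ∈ V → Adj x y → |f x - f y| ≤ 2 := by
    intro x y hx hxy
    have h1 := hlL x y ⟨hxy, Or.inl hx⟩
    have h2 : |(2 * w - h x) - (2 * w - h y)| ≤ 2 := by
      have := hh0.2.2 x y ⟨hxy, Or.inl hx⟩
      rw [abs_le] at *
      constructor <;> linarith [this.1, this.2]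
    have h3 : |(2 * (d x : ℤ) - m') - (2 * d y - m')| ≤ 2 := by
      have a1 := hd x y hxy
      have a2 := hd y x (Topo.adj_symm hxy)
      rw [abs_le]
      constructor <;> omega
    have h4 := lip_min h1 (lip_max h2 h3)
    by_cases hy : y ∈ V
    · rw [fin x hx, fin y hy]
      exact h4
    · rw [fin x hx, fout y hy]
      have h5 : min (l' y) (max (2 * w - h y) (2 * d y - m')) = l' y := by
        apply min_eq_left
        rw [hl0.2.1 y hy, hh0.2.1 y hy]
        by_cases h6 : (d y : ℤ) < m'
        · rw [hwall y (adj_mem_ebd hx hy hxy) h6]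
          exact le_max_of_le_left (by linarith)
        · apply le_max_of_le_right
          have h7 := hlL x y ⟨hxy, Or.inl hx⟩
          -- `l' x ≤ m'`, hence `η y ≤ m' + 2`; use oddness and the bound
          have h8 := IsLeast.le hl hx
          have h9 := hd y x (Topo.adj_symm hxy)
          have h10 := abs_le.1 h7
          rw [hl0.2.1 y hy] at h10
          push Not at h6
          by_cases h11 : (d y : ℤ) = m'
          · -- parity: `d y = m'`
            have h12 : η y ≤ m' := by
              by_contra hcon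
              push Not at hcon
              have o1 := hl0.1 y
              rw [hl0.2.1 y hy] at o1
              obtain ⟨a, ha⟩ := o1
              obtain ⟨b, hb⟩ := hmo
              -- here `η y = m' + 2`, `l' x = m'`, and `h` is within two as well
              have h13 := hhm x hx
              have h14 := abs_le.1 (hh0.2.2 x y ⟨hxy, Or.inl hx⟩)
              rw [hh0.2.1 y hy] at h14
              linarith [h14.1, h14.2]
            linarith
          · have : m' + 1 ≤ d y := by omega
            linarith [h10.1, h10.2]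
      rw [h5] at h4
      exact h4
  have hfm : f ∈ Sm V η m' := by
    refine ⟨mem_XC.2 ⟨fun x => ?_, fun x hx => ?_, fun x y hxy => ?_⟩, fun x hx => ?_⟩
    · by_cases hx : x ∈ V
      · rw [fin x hx]
        refine odd_min (hl0.1 x) (odd_max ?_ ?_)
        · obtain ⟨k, hk⟩ := hh0.1 x
          exact ⟨w - k - 1, by rw [hk]; ring⟩
        · obtain ⟨k, hk⟩ := hmo
          exact ⟨d x - k - 1, by rw [hk]; ring⟩
      · rw [fout x hx]; exact hl0.1 x
    · rw [fout x hx]
      exact hl0.2.1 x hx
    · by_cases hx : x ∈ V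
      · exact key x y hx hxy.1
      · by_cases hy : y ∈ V
        · rw [abs_sub_comm]
          exact key y x hy (Topo.adj_symm hxy.1)
        · exact absurd hxy.2 (by tauto)
    · have h1 := IsLeast.ge hl hx
      have h2 := IsLeast.le hl hx
      rw [fin x hx, abs_le]
      refine ⟨le_min h1 (le_max_of_le_left ?_), (min_le_left _ _).trans h2⟩
      linarith [hhm x hx]
  have h1 := hl.2 hfm x
  rw [fin x hxV, hx] at h1
  have h2 := h1.trans (min_le_right _ _)
  rcases le_max_iff.1 h2 with h3 | h3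
  · linarith
  · push_cast at h3
    linarith [hhm x hxV]

end Vale.Agent.P153.R2.RINS
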