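import Mathlib

/-!
# P153-R2, block RINS: truncated products
-/

namespace Vale.Agent.P153.R2.RINS

open Finset

/-- Truncation at `K`. -/
noncomputable def cl (K y : ℝ) : ℝ := max (-K) (min K y)

theorem abs_cl {K : ℝ} (hK : 0 ≤ K) (y : ℝ) : |cl K y| ≤ K := by
  unfold cl
  rw [abs_le]
  exact ⟨le_max_left _ _, max_le (by linarith) (min_le_left _ _)⟩

theorem cl_lip (K y z : ℝ) : |cl K y - cl K z| ≤ |y - z| := by
  unfold cl
  refine (abs_max_sub_max_le_max _ _ _ _).trans ?_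
  refine max_le (by simp) ((abs_min_sub_min_le_max _ _ _ _).trans (max_le (by simp) le_rfl))

theorem cl_eq {K y : ℝ} (h : |y| ≤ K) : cl K y = y := by
  unfold cl
  have := abs_le.1 h
  rw [min_eq_right this.2, max_eq_right this.1]

theorem cl_abs_le {K : ℝ} (hK : 0 ≤ K) (y : ℝ) : |cl K y| ≤ |y| := by
  have := cl_lip K y 0
  have h0 : cl K 0 = 0 := cl_eq (by simpa using hK)
  rwa [h0, sub_zero, sub_zero] at this

theorem prod_lip {ι : Type*} (s : Finset ι) {K : ℝ} (hK : 1 ≤ K) (a b : ι → ℝ)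
    (ha : ∀ i ∈ s, |a i| ≤ K) (hb : ∀ i ∈ s, |b i| ≤ K) :
    |∏ i ∈ s, a i - ∏ i ∈ s, b i| ≤ K ^ s.card * ∑ i ∈ s, |a i - b i| := by
  classical
  induction s using Finset.induction_on with
  | empty => simp
  | insert i s hi ih =>
    rw [prod_insert hi, prod_insert hi, sum_insert hi, card_insert_of_notMem hi]
    have ih' := ih (fun j hj => ha j (mem_insert_of_mem hj)) (fun j hj => hb j (mem_insert_of_mem hj))
    have hai := ha i (mem_insert_self i s)
    have hP : |∏ j ∈ s, b j| ≤ K ^ s.card := by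
      rw [abs_prod]
      calc ∏ j ∈ s, |b j| ≤ ∏ _j ∈ s, K :=
            prod_le_prod (fun _ _ => abs_nonneg _) fun j hj => hb j (mem_insert_of_mem hj)
        _ = K ^ s.card := by rw [prod_const]
    have e : a i * ∏ j ∈ s, a j - b i * ∏ j ∈ s, b j =
        a i * (∏ j ∈ s, a j - ∏ j ∈ s, b j) + (a i - b i) * ∏ j ∈ s, b j := by ring
    rw [e]
    refine (abs_add_le _ _).trans ?_
    rw [abs_mul, abs_mul]
    have hKs : 0 ≤ K ^ s.card := by positivity
    have hS : 0 ≤ ∑ j ∈ s, |a j - b j| := sum_nonneg fun _ _ => abs_nonneg _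
    have h1 : |a i| * |∏ j ∈ s, a j - ∏ j ∈ s, b j| ≤ K * (K ^ s.card * ∑ j ∈ s, |a j - b j|) :=
      mul_le_mul hai ih' (abs_nonneg _) (by linarith)
    have h2 : |a i - b i| * |∏ j ∈ s, b j| ≤ |a i - b i| * K ^ s.card :=
      mul_le_mul_of_nonneg_left hP (abs_nonneg _)
    have h3 : |a i - b i| * K ^ s.card ≤ |a i - b i| * (K ^ (s.card + 1)) := by
      apply mul_le_mul_of_nonneg_left _ (abs_nonneg _)
      exact pow_le_pow_right₀ hK (Nat.le_succ _)
    calc _ ≤ K * (K ^ s.card * ∑ j ∈ s, |a j - b j|) + |a i - b i| * (K ^ (s.card + 1)) := by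
          linarith
      _ = _ := by ring

variable {k : ℕ}

/-- `1 + Σ |y i|`. -/
noncomputable def Wt (y : Fin k → ℝ) : ℝ := 1 + ∑ i, |y i|

/-- Truncated product. -/
noncomputable def tp (K : ℝ) (y : Fin k → ℝ) : ℝ := ∏ i, cl K (y i)

theorem one_le_Wt (y : Fin k → ℝ) : 1 ≤ Wt y := by
  unfold Wt
  have : 0 ≤ ∑ i, |y i| := sum_nonneg fun _ _ => abs_nonneg _
  linarith

theorem abs_le_Wt (y : Fin k → ℝ) (i : Fin k) : |y i| ≤ Wt y := by
  unfold Wt
  have : |y i| ≤ ∑ i, |y i| := single_le_sum (f := fun i => |y i|) (fun _ _ => abs_nonneg _)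
    (mem_univ i)
  linarith

theorem abs_prod_le (y : Fin k → ℝ) : |∏ i, y i| ≤ Wt y ^ k := by
  rw [abs_prod]
  calc ∏ i, |y i| ≤ ∏ _i : Fin k, Wt y :=
        prod_le_prod (fun _ _ => abs_nonneg _) fun i _ => abs_le_Wt y i
    _ = Wt y ^ k := by rw [prod_const, card_univ, Fintype.card_fin]

theorem abs_tp_le {K : ℝ} (hK : 0 ≤ K) (y : Fin k → ℝ) : |tp K y| ≤ Wt y ^ k := by
  unfold tp
  rw [abs_prod]
  calc ∏ i, |cl K (y i)| ≤ ∏ _i : Fin k, Wt y :=
        prod_le_prod (fun _ _ => abs_nonneg _) fun i _ => (cl_abs_le hK _).trans (abs_le_Wt y i)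
    _ = Wt y ^ k := by rw [prod_const, card_univ, Fintype.card_fin]

theorem abs_tp_le' {K : ℝ} (hK : 0 ≤ K) (y : Fin k → ℝ) : |tp K y| ≤ K ^ k := by
  unfold tp
  rw [abs_prod]
  calc ∏ i, |cl K (y i)| ≤ ∏ _i : Fin k, K :=
        prod_le_prod (fun _ _ => abs_nonneg _) fun i _ => abs_cl hK _
    _ = K ^ k := by rw [prod_const, card_univ, Fintype.card_fin]

theorem tp_lip {K : ℝ} (hK : 1 ≤ K) (y z : Fin k → ℝ) :
    |tp K y - tp K z| ≤ K ^ k * ∑ i, |y i - z i| := by
  have h := prod_lip (univ : Finset (Fin k)) hK (fun i => cl K (y i)) (fun i => cl K (z i))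
    (fun i _ => abs_cl (by linarith) _) (fun i _ => abs_cl (by linarith) _)
  rw [card_univ, Fintype.card_fin] at h
  refine h.trans ?_
  apply mul_le_mul_of_nonneg_left _ (by positivity)
  exact sum_le_sum fun i _ => cl_lip K _ _

/-- Truncation error. -/
theorem tp_err {K : ℝ} (hK : 1 ≤ K) (y : Fin k → ℝ) :
    |∏ i, y i - tp K y| ≤ 2 * Wt y ^ (k + 1) / K := by
  have hK0 : 0 < K := by linarith
  have hW := one_le_Wt y
  by_cases h : ∀ i, |y i| ≤ K
  · have : tp K y = ∏ i, y i := prod_congr rfl fun i _ => cl_eq (h i)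
    rw [this, sub_self, abs_zero]
    positivity
  · push Not at h
    obtain ⟨i, hi⟩ := h
    have h1 : K ≤ Wt y := hi.le.trans (abs_le_Wt y i)
    have h2 := abs_prod_le y
    have h3 := abs_tp_le hK0.le y
    rw [le_div_iff₀ hK0]
    have h4 : |∏ i, y i - tp K y| ≤ 2 * Wt y ^ k := by
      refine (abs_sub _ _).trans ?_
      linarith
    have h5 : 0 ≤ Wt y ^ k := by positivity
    calc |∏ i, y i - tp K y| * K ≤ (2 * Wt y ^ k) * Wt y :=
          mul_le_mul h4 h1 hK0.le (by positivity)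
      _ = 2 * Wt y ^ (k + 1) := by ring

theorem cl_err {K : ℝ} (hK : 0 < K) (y : ℝ) : |y - cl K y| ≤ y ^ 2 / K := by
  by_cases h : |y| ≤ K
  · rw [cl_eq h, sub_self, abs_zero]
    positivity
  · push Not at h
    rw [le_div_iff₀ hK]
    have h1 : |y - cl K y| ≤ |y| := by
      unfold cl
      rcases abs_cases y with ⟨h2, h3⟩ | ⟨h2, h3⟩
      · rw [h2] at h ⊢
        rw [min_eq_left h.le, max_eq_right (by linarith), abs_of_nonneg (by linarith)]
        linarith
      · rw [h2] at h ⊢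
        rw [min_eq_right (by linarith), max_eq_left (by linarith), abs_of_nonpos (by linarith)]
        linarith
    calc |y - cl K y| * K ≤ |y| * |y| := mul_le_mul h1 h.le hK.le (abs_nonneg _)
      _ = y ^ 2 := by rw [← sq, sq_abs]

end Vale.Agent.P153.R2.RINS
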