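import Vale.Agent.P153.R2.RINS.Loc
import Vale.Agent.P153.R2.RINS.Prod
import Vale.Agent.P153.R2.FKGK.Lev

/-!
# P153-R2, block RINS: linear functionals; closeness of ordered laws
-/

namespace Vale.Agent.P153.R2.RINS

open Set Relation MeasureTheory
open Vale.Agent.P153
open Vale.Agent.P153.Topo (Conn)

variable {k : ℕ} {Z : Finset Pt} {φ : Fin k → Pt → ℝ} {s : ℤ}

/-- Nonnegative linear functionals of `h - s`. -/
noncomputable def Yv (s : ℤ) (Z : Finset Pt) (φ : Fin k → Pt → ℝ) (h : Hg) : Fin k → ℝ :=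
  fun i => ∑ x ∈ Z, φ i x * ((h x - s : ℤ) : ℝ)

theorem pm_eq (h : Hg) : pm s 1 Z φ h = ∏ i, Yv s Z φ h i := by
  unfold pm Yv
  simp only [one_mul]

theorem Yv_mono (hφ : ∀ i, ∀ x ∈ Z, 0 ≤ φ i x) (i : Fin k) : Monotone fun h => Yv s Z φ h i := by
  intro h g hg
  unfold Yv
  refine Finset.sum_le_sum fun x hx => mul_le_mul_of_nonneg_left ?_ (hφ i x hx)
  have := hg x
  exact_mod_cast (by linarith : h x - s ≤ g x - s)

theorem Yv_dep : DepOn (Z : Set Pt) (Yv s Z φ) := by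
  intro h g hh
  funext i
  unfold Yv
  refine Finset.sum_congr rfl fun x hx => ?_
  rw [hh x hx]

theorem Yv_dep_comp {β : Type*} (F : (Fin k → ℝ) → β) :
    DepOn (Z : Set Pt) (fun h => F (Yv s Z φ h)) := by
  intro h g hh
  show F _ = F _
  rw [Yv_dep h g hh]

/-- The dominated pair: `K ^ k Σ Y ± tp`. -/
theorem tp_mono (hφ : ∀ i, ∀ x ∈ Z, 0 ≤ φ i x) {K : ℝ} (hK : 1 ≤ K) {σ : ℝ} (hσ : |σ| ≤ 1) :
    Monotone fun h => K ^ k * ∑ i, Yv s Z φ h i + σ * tp K (Yv s Z φ h) := by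
  intro h g hg
  have h1 := tp_lip hK (Yv s Z φ h) (Yv s Z φ g)
  have h2 : ∑ i, |Yv s Z φ h i - Yv s Z φ g i| = ∑ i, (Yv s Z φ g i - Yv s Z φ h i) := by
    refine Finset.sum_congr rfl fun i _ => ?_
    rw [abs_sub_comm]
    exact abs_of_nonneg (sub_nonneg.2 (Yv_mono hφ i hg))
  rw [h2, Finset.sum_sub_distrib, mul_sub] at h1
  have h3 : |σ * (tp K (Yv s Z φ h) - tp K (Yv s Z φ g))| ≤
      |tp K (Yv s Z φ h) - tp K (Yv s Z φ g)| := by
    rw [abs_mul]
    exact mul_le_of_le_one_left (abs_nonneg _) hσ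
  have h4 := (abs_le.1 (h3.trans h1)).2
  show _ ≤ _
  dsimp only
  nlinarith [h4]

/-- Closeness of the truncated products for ordered laws. -/
theorem Ex_close {S T : Set Hg} (hφ : ∀ i, ∀ x ∈ Z, 0 ≤ φ i x) {K : ℝ} (hK : 1 ≤ K)
    (h : ∀ F : Hg → ℝ, Monotone F → DepOn (Z : Set Pt) F → Ex S F ≤ Ex T F) :
    |Ex S (fun h => tp K (Yv s Z φ h)) - Ex T (fun h => tp K (Yv s Z φ h))| ≤
      K ^ k * ∑ i, (Ex T (fun h => Yv s Z φ h i) - Ex S (fun h => Yv s Z φ h i)) := by
  have h1 := h _ (tp_mono (s := s) hφ hK (σ := 1) (by simp)) (Yv_dep_comp (fun y =>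
    K ^ k * ∑ i, y i + 1 * tp K y))
  have h2 := h _ (tp_mono (s := s) hφ hK (σ := -1) (by simp)) (Yv_dep_comp (fun y =>
    K ^ k * ∑ i, y i + -1 * tp K y))
  simp only [Ex_add, Ex_const_mul, Ex_sum] at h1 h2
  rw [Finset.sum_sub_distrib, mul_sub, abs_le]
  constructor <;> linarith

/-! ### Splitting the weight into monotone parts -/

/-- `1 + Σ ((y⁺)^n + (y⁻)^n)`. -/
noncomputable def Xi (n : ℕ) (y : Fin k → ℝ) : ℝ := 1 + ∑ i, (max (y i) 0 ^ n + max (-y i) 0 ^ n)

theorem Xi_one_le (n : ℕ) (y : Fin k → ℝ) : 1 ≤ Xi n y := by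
  unfold Xi
  have : 0 ≤ ∑ i, (max (y i) 0 ^ n + max (-y i) 0 ^ n) :=
    Finset.sum_nonneg fun i _ => add_nonneg (pow_nonneg (le_max_right _ _) _)
      (pow_nonneg (le_max_right _ _) _)
  linarith

theorem abs_pow_eq (n : ℕ) (hn : n ≠ 0) (y : ℝ) : |y| ^ n = max y 0 ^ n + max (-y) 0 ^ n := by
  rcases le_total 0 y with h | h
  · rw [abs_of_nonneg h, max_eq_left h, max_eq_right (by linarith), zero_pow hn, add_zero]
  · rw [abs_of_nonpos h, max_eq_right h, max_eq_left (by linarith), zero_pow hn, zero_add]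

theorem Wt_pow_le (n : ℕ) (y : Fin k → ℝ) :
    Wt y ^ (n + 1) ≤ ((k : ℝ) + 1) ^ n * Xi (n + 1) y := by
  have h := pow_sum_le_card_mul_sum_pow (s := (Finset.univ : Finset (Option (Fin k))))
    (f := fun o => o.elim (1 : ℝ) fun i => |y i|) (fun o _ => by
      cases o with
      | none => exact zero_le_one
      | some i => exact abs_nonneg _) n
  rw [Fintype.sum_option, Fintype.sum_option, Finset.card_univ, Fintype.card_option,
    Fintype.card_fin] at h
  simp only [Option.elim_none, Option.elim_some, one_pow] at h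
  have e : ∑ i, |y i| ^ (n + 1) = ∑ i, (max (y i) 0 ^ (n + 1) + max (-y i) 0 ^ (n + 1)) :=
    Finset.sum_congr rfl fun i _ => abs_pow_eq _ (Nat.succ_ne_zero n) _
  rw [e] at h
  unfold Wt Xi
  push_cast at h
  exact h

/-- Splitting of `Xi` for a law between two others. -/
theorem Ex_Xi_le {S T S' : Set Hg} (hS : S.Finite) (hSn : S.Nonempty)
    (hφ : ∀ i, ∀ x ∈ Z, 0 ≤ φ i x) {C : ℝ} (n : ℕ)
    (hlo : ∀ F : Hg → ℝ, Monotone F → DepOn (Z : Set Pt) F → Ex T F ≤ Ex S F)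
    (hhi : ∀ F : Hg → ℝ, Monotone F → DepOn (Z : Set Pt) F → Ex S F ≤ Ex S' F)
    (hT : Ex T (fun h => Wt (Yv s Z φ h) ^ n) ≤ C) (hS' : Ex S' (fun h => Wt (Yv s Z φ h) ^ n) ≤ C) :
    Ex S (fun h => Xi n (Yv s Z φ h)) ≤ 1 + 2 * k * C := by
  unfold Xi
  rw [Ex_add, Ex_const hS hSn, Ex_sum]
  have hp : ∀ i, Ex S (fun h => max (Yv s Z φ h i) 0 ^ n) ≤ C := by
    intro i
    refine (hhi _ ?_ (Yv_dep_comp fun y => max (y i) 0 ^ n)).trans ?_
    · intro h g hg
      have := Yv_mono (s := s) hφ i hg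
      exact pow_le_pow_left₀ (le_max_right _ _) (max_le_max this le_rfl) n
    · refine (Ex_mono fun h _ => ?_).trans hS'
      refine pow_le_pow_left₀ (le_max_right _ _) (max_le ?_ ?_) n
      · exact (le_abs_self _).trans (abs_le_Wt _ i)
      · linarith [one_le_Wt (Yv s Z φ h)]
  have hm : ∀ i, Ex S (fun h => max (-Yv s Z φ h i) 0 ^ n) ≤ C := by
    intro i
    have h1 := hlo (fun h => -(max (-Yv s Z φ h i) 0 ^ n)) ?_
      (Yv_dep_comp fun y => -(max (-y i) 0 ^ n))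
    · rw [Ex_neg, Ex_neg] at h1
      have h2 : Ex T (fun h => max (-Yv s Z φ h i) 0 ^ n) ≤ C := by
        refine (Ex_mono fun h _ => ?_).trans hT
        refine pow_le_pow_left₀ (le_max_right _ _) (max_le ?_ ?_) n
        · exact (neg_le_abs _).trans (abs_le_Wt _ i)
        · linarith [one_le_Wt (Yv s Z φ h)]
      linarith
    · intro h g hg
      have := Yv_mono (s := s) hφ i hg
      apply neg_le_neg
      exact pow_le_pow_left₀ (le_max_right _ _) (max_le_max (neg_le_neg this) le_rfl) n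
  have : ∑ i, Ex S (fun h => max (Yv s Z φ h i) 0 ^ n + max (-Yv s Z φ h i) 0 ^ n) ≤
      ∑ _i : Fin k, (C + C) := by
    refine Finset.sum_le_sum fun i _ => ?_
    rw [Ex_add]
    exact add_le_add (hp i) (hm i)
  rw [Finset.sum_const, Finset.card_univ, Fintype.card_fin, nsmul_eq_mul] at this
  linarith

/-! ### Measurability of local functions -/

open Classical in
/-- Extension by zero. -/
noncomputable def ext0 (U : Set Pt) (f : U → ℤ) : Hg := fun x => if h : x ∈ U then f ⟨x, h⟩ else 0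

theorem DepOn.measurable {β : Type*} [MeasurableSpace β] {U : Set Pt} (hU : U.Finite)
    {F : Hg → β} (hF : DepOn U F) : Measurable F := by
  classical
  have : Finite U := hU
  have e : F = (fun f : U → ℤ => F (ext0 U f)) ∘ fun (h : Hg) (x : U) => h x := by
    funext h
    show F h = F _
    apply hF
    intro x hx
    unfold ext0
    rw [dif_pos hx]
  rw [e]
  have h1 : Measurable fun (h : Hg) (x : U) => h x :=
    measurable_pi_iff.2 fun x => measurable_pi_apply (x : Pt)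
  have hc : Countable (U → ℤ) := inferInstance
  have h2 : Measurable fun f : U → ℤ => F (ext0 U f) := Measurable.of_discrete
  exact h2.comp h1

end Vale.Agent.P153.R2.RINS
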