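import Vale.Agent.P153.R2.RINS.InsY

/-!
# P153-R2, block RINS: `S_rins`
-/

namespace Vale.Agent.P153.R2.RINS

open Set Relation MeasureTheory
open Vale.Agent.P153
open Vale.Agent.P153.Topo (Conn adj_symm)
open Vale.Agent.P153.F.X (S_mom S_emom S_rsw S_loc S_conf)
open Vale.Agent.P153.F.SD (Lf)
open Vale.Agent.P153.F.Top (dp c1 c2)
open Vale.Agent.P153.R2.SDAR (put ts ls sbx ov Dmn OneBad Un NT FF S_rins)
open Vale.Agent.P153.R2.Gp (Zf ph ph_nonneg mem_Zf wt_closed yv_eq mass_wd lf_xu)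

variable {P : Measure (Pt → ℤ)} {K : Set (ℝ × ℝ)} {Rb Rr : ℝ} {σ : ℤ}

theorem Gd.sub_mul {F G : ℝ → Hg → ℝ} (hF : Gd K Rb Rr σ F) (hG : Gd K Rb Rr σ G) {c : ℝ → ℝ}
    {C : ℝ} (hC : 0 ≤ C) (hc : ∀ δ : ℝ, 0 < δ → δ ≤ 1 / 2 → 0 ≤ c δ ∧ c δ ≤ C) :
    Gd K Rb Rr σ fun δ h => F δ h - c δ * G δ h := by
  intro ε hε
  obtain ⟨r₁, hr₁, h1⟩ := hF (ε / 2) (by positivity)
  obtain ⟨r₂, hr₂, h2⟩ := hG (ε / (2 * (C + 1))) (by positivity)
  refine ⟨min r₁ r₂, lt_min hr₁ hr₂, fun r hr hrr => ?_⟩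
  obtain ⟨d₁, hd₁, g1⟩ := h1 r hr (hrr.trans (min_le_left _ _))
  obtain ⟨d₂, hd₂, g2⟩ := h2 r hr (hrr.trans (min_le_right _ _))
  refine ⟨min (1 / 2) (min d₁ d₂), by positivity, fun δ hδ hδd V η i t l₁ a cd => ?_⟩
  have e1 := g1 δ hδ (hδd.trans_le ((min_le_right _ _).trans (min_le_left _ _))) V η i t l₁ a cd
  have e2 := g2 δ hδ (hδd.trans_le ((min_le_right _ _).trans (min_le_right _ _))) V η i t l₁ a cd
  obtain ⟨c0, cC⟩ := hc δ hδ (hδd.le.trans (min_le_left _ _))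
  rw [Ex_sub, Ex_sub, Ex_const_mul, Ex_const_mul]
  set A := Ex (XC V η) (F δ)
  set A' := Ex (XC V η) (G δ)
  set B := Ex (XC (V \ Nb V δ i t l₁ r a) (put η (Nb V δ i t l₁ r a) σ)) (F δ)
  set B' := Ex (XC (V \ Nb V δ i t l₁ r a) (put η (Nb V δ i t l₁ r a) σ)) (G δ)
  have e3 : |c δ * A' - c δ * B'| ≤ ε / 2 := by
    rw [← mul_sub, abs_mul, abs_of_nonneg c0]
    calc c δ * |A' - B'| ≤ C * (ε / (2 * (C + 1))) := by gcongr
      _ ≤ (C + 1) * (ε / (2 * (C + 1))) := by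
        apply mul_le_mul_of_nonneg_right (by linarith) (by positivity)
      _ = ε / 2 := by field_simp
  have e4 : A - c δ * A' - (B - c δ * B') = (A - B) - (c δ * A' - c δ * B') := by ring
  rw [e4]
  refine (abs_sub _ _).trans ?_
  linarith

/-- The factor `Y`. -/
noncomputable def yf (δ : ℝ) (f : ℝ × ℝ → ℝ) (h : Hg) : ℝ :=
  Lf δ f h + 2 * Gp.mass (F.SD.Wd δ f 0)

theorem gd_list (hP : GFF.Plane P) (hMom : S_mom P) (hE : S_emom P) (hR : S_rsw P)
    (hL : S_loc) (hF : S_conf) (hS : LOC.S_land 4) (hK : IsOpen K) (hRr : 0 < Rr)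
    (l : List (ℝ × ℝ → ℝ)) (hl : NT K l) : ∀ l' : List (ℝ × ℝ → ℝ), NT K l' →
    Gd K Rb Rr 1 fun δ h => FF δ l h * (l'.map fun f => yf δ f h).prod := by
  induction l with
  | nil =>
    intro l' hl'
    have key := ins_Y (Rb := Rb) hP hMom hE hR hL hF hS hK hRr (k := l'.length)
      (f := fun i => l'[i]) (fun i => (hl' _ (List.getElem_mem _)).1)
      (fun i => (hl' _ (List.getElem_mem _)).2.1) (fun i => (hl' _ (List.getElem_mem _)).2.2.1)
      (fun i => (hl' _ (List.getElem_mem _)).2.2.2)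
    have e : (fun (δ : ℝ) (h : Hg) => FF δ [] h * (l'.map fun f => yf δ f h).prod) =
        fun δ h => ∏ i, Yv (-2) (Zf δ fun i : Fin l'.length => l'[i])
          (ph δ fun i : Fin l'.length => l'[i]) h i := by
      funext δ h
      unfold FF
      rw [List.map_nil, List.prod_nil, one_mul, ← Fin.prod_univ_fun_getElem]
      refine Finset.prod_congr rfl fun i _ => ?_
      rw [yv_eq]
      unfold yf
      simp only [Fin.getElem_fin]
      push_cast
      ring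
    rw [e]
    exact key
  | cons f l ih =>
    intro l' hl'
    have hf := hl f (List.mem_cons_self)
    have hl2 : NT K l := fun g hg => hl g (List.mem_cons_of_mem _ hg)
    have hfl' : NT K (f :: l') := fun g hg => by
      rcases List.mem_cons.1 hg with rfl | h
      · exact hf
      · exact hl' g h
    obtain ⟨C, hC, hm⟩ := mass_wd hf.1 hf.2.1 hf.2.2.2
    have key := (ih hl2 (f :: l') hfl').sub_mul (ih hl2 l' hl')
      (c := fun δ => 2 * Gp.mass (F.SD.Wd δ f 0)) (C := 2 * C) (by positivity)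
      (fun δ hδ hδ1 => by
        obtain ⟨m1, m2⟩ := hm δ hδ hδ1
        constructor <;> linarith)
    have e : (fun (δ : ℝ) (h : Hg) => FF δ (f :: l) h * (l'.map fun f => yf δ f h).prod) =
        fun δ h => FF δ l h * ((f :: l').map fun f => yf δ f h).prod -
          2 * Gp.mass (F.SD.Wd δ f 0) * (FF δ l h * (l'.map fun f => yf δ f h).prod) := by
      funext δ h
      unfold FF yf
      simp only [List.map_cons, List.prod_cons]
      ring
    rw [e]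
    exact key

theorem lf_neg (δ : ℝ) (f : ℝ × ℝ → ℝ) (h : Hg) : Lf δ f (-h) = -Lf δ f h := by
  have e1 : ∀ h : Hg, Lf δ f h =
      ∑ x ∈ (F.SD.Wd δ f 0).support, F.SD.Wd δ f 0 x * (h x : ℝ) := fun _ => rfl
  rw [e1, e1, ← Finset.sum_neg_distrib]
  refine Finset.sum_congr rfl fun x _ => ?_
  rw [Pi.neg_apply]
  push_cast
  ring

theorem ff_neg (δ : ℝ) (l : List (ℝ × ℝ → ℝ)) (h : Hg) :
    FF δ l (-h) = (-1) ^ l.length * FF δ l h := by
  unfold FF
  induction l with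
  | nil => simp
  | cons f l ih =>
    rw [List.map_cons, List.prod_cons, ih, List.map_cons, List.prod_cons, List.length_cons, lf_neg,
      pow_succ]
    ring

theorem Gd.neg {l : List (ℝ × ℝ → ℝ)} (hG : Gd K Rb Rr 1 fun δ h => FF δ l h) :
    Gd K Rb Rr (-1) fun δ h => FF δ l h := by
  classical
  intro ε hε
  obtain ⟨r₀, hr₀, h1⟩ := hG ε hε
  refine ⟨r₀, hr₀, fun r hr hrr => ?_⟩
  obtain ⟨δ₀, hδ₀, h2⟩ := h1 r hr hrr
  refine ⟨δ₀, hδ₀, fun δ hδ hδd V η i t l₁ a cd => ?_⟩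
  have cd' : Cnd K Rb Rr r δ V (-η) i t l₁ a 1 := by
    obtain ⟨Z, O, q1, q2, q3, q4, q5, q6, q7⟩ := cd.ob
    refine ⟨cd.dm, fun x => ?_, cd.dj, cd.wl, cd.aV, cd.ab, fun x hx y hy hxy => ?_,
      Z, O, q1, q2, q3, q4, q5, q6, fun x hx y hy hxy => ⟨fun h => ?_, fun h => ?_⟩⟩
    · rw [Pi.neg_apply]
      rcases cd.pm x with h | h <;> rw [h] <;> norm_num
    · rw [Pi.neg_apply, cd.vis x hx y hy hxy, neg_neg]
    · rw [Pi.neg_apply] at h
      exact (q7 x hx y hy hxy).1 fun h' => h (by rw [h', neg_neg])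
    · rw [Pi.neg_apply] at h
      exact (q7 x hx y hy hxy).2 (by linarith)
  have key := h2 δ hδ hδd V (-η) i t l₁ a cd'
  have e1 : ∀ (D : Set Pt) (g : Hg), Ex (XC D g) (fun h => FF δ l h) =
      (-1) ^ l.length * Ex (XC D (-g)) (fun h => FF δ l h) := by
    intro D g
    conv_lhs => rw [← neg_neg g]
    rw [XC_neg, ← Ex_const_mul]
    exact Ex_congr fun h _ => ff_neg δ l h
  have e2 : -put η (Nb V δ i t l₁ r a) (-1) = put (-η) (Nb V δ i t l₁ r a) 1 := by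
    funext x
    unfold put
    rw [Pi.neg_apply]
    split_ifs
    · norm_num
    · rfl
  rw [e1 V η, e1 _ (put η (Nb V δ i t l₁ r a) (-1)), e2, ← mul_sub, abs_mul, abs_pow, abs_neg,
    abs_one, one_pow, one_mul]
  exact key

/-- **S_rins.** -/
theorem s_rins (hP : GFF.Plane P) (hMom : S_mom P) (hE : S_emom P) (hR : S_rsw P)
    (hL : S_loc) (hF : S_conf) (hS : LOC.S_land 4) : S_rins := by
  intro K Rb R₀ l hUn hl hR₀ ε hε
  have hK : IsOpen K := by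
    obtain ⟨k, C, hC, rfl⟩ := hUn
    exact isOpen_iUnion fun m => (hC m).1
  have hg1 : Gd K Rb R₀ 1 fun δ h => FF δ l h := by
    have := gd_list (Rb := Rb) hP hMom hE hR hL hF hS hK hR₀ l hl []
      (fun f hf => absurd hf (List.not_mem_nil))
    simpa using this
  obtain ⟨r₁, hr₁, h1⟩ := hg1 ε hε
  obtain ⟨r₂, hr₂, h2⟩ := hg1.neg ε hε
  refine ⟨min r₁ r₂, lt_min hr₁ hr₂, fun r hr hrr => ?_⟩
  obtain ⟨d₁, hd₁, g1⟩ := h1 r hr (hrr.trans (min_le_left _ _))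
  obtain ⟨d₂, hd₂, g2⟩ := h2 r hr (hrr.trans (min_le_right _ _))
  refine ⟨min d₁ d₂, lt_min hd₁ hd₂, fun δ hδ hδd V η i t l₁ a σ q1 q2 q3 q4 q5 q6 q7 q8 q9 => ?_⟩
  rcases q3 with rfl | rfl
  · exact g1 δ hδ (hδd.trans_le (min_le_left _ _)) V η i t l₁ a ⟨q1, q2, q4, q5, q6, q7, q8, q9⟩
  · exact g2 δ hδ (hδd.trans_le (min_le_right _ _)) V η i t l₁ a ⟨q1, q2, q4, q5, q6, q7, q8, q9⟩

end Vale.Agent.P153.R2.RINS
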