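import Vale.Agent.P153.R2.RINS.Loc

/-!
# P153-R2, block RINS: reflection of the cluster of a hull

`clu (w - 2) V N h`: the vertices joined to the hull `N` by vertices of `V` with height at most
`w - 2`. If this cluster avoids the set `T` and the exact data next to it (off `N`) are `w`,
reflection of its heights about `w` changes the data on `N` from `g` to `2 w - g` and is bijective.
So the laws with the data `g` and `2 w - g` on `N` are close in total variation on `T`.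
-/

namespace Vale.Agent.P153.R2.RINS

open Set Relation
open Vale.Agent.P153
open Vale.Agent.P153.Topo (Conn)

/-- The vertices joined to `N` by vertices of `V` with height at most `ℓ` (including `N`). -/
def clu (ℓ : ℤ) (V N : Set Pt) (h : Hg) : Set Pt := Cl (N ∪ (V ∩ dn h ℓ)) N

theorem sub_clu {ℓ : ℤ} {V N : Set Pt} {h : Hg} : N ⊆ clu ℓ V N h :=
  fun x hx => ⟨x, hx, Conn.refl (Or.inl hx)⟩

theorem clu_sub {ℓ : ℤ} {V N : Set Pt} {h : Hg} : clu ℓ V N h ⊆ N ∪ (V ∩ dn h ℓ) := by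
  rintro y ⟨x, _, hxy⟩
  exact hxy.right_mem

theorem clu_step {ℓ : ℤ} {V N : Set Pt} {h : Hg} {x y : Pt} (hx : x ∈ clu ℓ V N h)
    (hxy : Adj x y) (hy : y ∈ V) (hhy : h y ≤ ℓ) : y ∈ clu ℓ V N h := by
  obtain ⟨z, hz, hzx⟩ := hx
  exact ⟨z, hz, hzx.tail hxy (Or.inr ⟨hy, hhy⟩)⟩

/-- Two configurations which agree on the cluster of `h` and around it have the same cluster. -/
theorem clu_congr {ℓ : ℤ} {V N : Set Pt} {h k : Hg}
    (h1 : ∀ x ∈ V, x ∈ clu ℓ V N h → k x ≤ ℓ ∨ x ∈ N)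
    (h2 : ∀ x ∈ clu ℓ V N h, ∀ y ∈ V, Adj x y → k y ≤ ℓ → h y ≤ ℓ) :
    clu ℓ V N k = clu ℓ V N h := by
  apply Subset.antisymm
  · rintro y ⟨x, hx, hxy⟩
    obtain ⟨hx0, hr⟩ := hxy
    induction hr with
    | refl => exact sub_clu hx
    | tail hab hbc ih =>
      rename_i b c
      rcases hbc.2 with h3 | h3
      · exact sub_clu h3
      · exact clu_step ih hbc.1 h3.1 (h2 _ ih _ h3.1 hbc.1 h3.2)
  · rintro y ⟨x, hx, hxy⟩
    obtain ⟨hx0, hr⟩ := hxy
    have key : y ∈ clu ℓ V N h ∧ y ∈ clu ℓ V N k := by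
      induction hr with
      | refl => exact ⟨sub_clu hx, sub_clu hx⟩
      | tail hab hbc ih =>
        rename_i b c
        rcases hbc.2 with h3 | h3
        · exact ⟨sub_clu h3, sub_clu h3⟩
        · have h4 : c ∈ clu ℓ V N h := clu_step ih.1 hbc.1 h3.1 h3.2
          refine ⟨h4, ?_⟩
          rcases h1 c h3.1 h4 with h5 | h5
          · exact clu_step ih.2 hbc.1 h3.1 h5
          · exact sub_clu h5
    exact key.2

open Classical in
/-- Reflection off the cluster. -/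
noncomputable def Sr (w : ℤ) (V N : Set Pt) (h : Hg) : Hg := fun x =>
  if x ∈ clu (w - 2) V N h then h x else 2 * w - h x

theorem Sr_in {w : ℤ} {V N : Set Pt} {h : Hg} {x : Pt} (hx : x ∈ clu (w - 2) V N h) :
    Sr w V N h x = h x := if_pos hx

theorem Sr_out {w : ℤ} {V N : Set Pt} {h : Hg} {x : Pt} (hx : x ∉ clu (w - 2) V N h) :
    Sr w V N h x = 2 * w - h x := if_neg hx

/-- Reflected height. -/
def rf (w : ℤ) (h : Hg) : Hg := fun x => 2 * w - h x

theorem rf_rf (w : ℤ) (h : Hg) : rf w (rf w h) = h := by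
  funext x
  unfold rf
  ring

theorem rf_odd {w : ℤ} {h : Hg} (hh : ∀ x, Odd (h x)) (x : Pt) : Odd (rf w h x) := by
  obtain ⟨k, hk⟩ := hh x
  unfold rf
  exact ⟨w - k - 1, by rw [hk]; ring⟩

theorem rf_mem {w : ℤ} {V : Set Pt} {g h : Hg} (hh : h ∈ XC V g) : rf w h ∈ XC V (rf w g) := by
  rw [mem_XC] at *
  refine ⟨rf_odd hh.1, fun x hx => ?_, fun x y hxy => ?_⟩
  · unfold rf
    rw [hh.2.1 x hx]
  · have := hh.2.2 x y hxy
    unfold rf
    rw [abs_le] at *
    constructor <;> linarith [this.1, this.2]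

theorem rf_bij (w : ℤ) (V : Set Pt) (g : Hg) : BijOn (rf w) (XC V g) (XC V (rf w g)) := by
  refine ⟨fun h hh => rf_mem hh, ?_, ?_⟩
  · intro h _ k _ e
    rw [← rf_rf w h, e, rf_rf]
  · intro k hk
    refine ⟨rf w k, ?_, rf_rf w k⟩
    have := rf_mem (w := w) hk
    rwa [rf_rf] at this

theorem XC_rf (w : ℤ) (V : Set Pt) (g : Hg) (F : Hg → ℝ) :
    Ex (XC V (rf w g)) F = Ex (XC V g) (fun h => F (rf w h)) := Ex_bij _ (rf_bij w V g) F

/-- The data of a hull for the reflection. -/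
structure Hull (w : ℤ) (V N : Set Pt) (g : Hg) : Prop where
  odd : ∀ x, Odd (g x)
  wodd : Odd w
  off : Disjoint V N
  dat : ∀ x ∈ N, g x ≤ w - 2

open Classical in
/-- Data reflected off `N`. -/
noncomputable def rfo (w : ℤ) (N : Set Pt) (g : Hg) : Hg := fun x =>
  if x ∈ N then g x else 2 * w - g x

theorem rfo_in {w : ℤ} {N : Set Pt} {g : Hg} {x : Pt} (hx : x ∈ N) : rfo w N g x = g x := if_pos hx

theorem rfo_out {w : ℤ} {N : Set Pt} {g : Hg} {x : Pt} (hx : x ∉ N) :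
    rfo w N g x = 2 * w - g x := if_neg hx

theorem rfo_rfo (w : ℤ) (N : Set Pt) (g : Hg) : rfo w N (rfo w N g) = g := by
  funext x
  by_cases hx : x ∈ N
  · rw [rfo_in hx, rfo_in hx]
  · rw [rfo_out hx, rfo_out hx]
    ring

theorem Hull.rfo {w : ℤ} {V N : Set Pt} {g : Hg} (H : Hull w V N g) :
    Hull w V N (rfo w N g) := by
  refine ⟨fun x => ?_, H.wodd, H.off, fun x hx => ?_⟩
  · by_cases hx : x ∈ N
    · rw [rfo_in hx]; exact H.odd x
    · rw [rfo_out hx]
      obtain ⟨k, hk⟩ := H.odd x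
      exact ⟨w - k - 1, by rw [hk]; ring⟩
  · rw [rfo_in hx]; exact H.dat x hx

/-- The cluster avoids `T`, and the data next to it (off `N`) are `w`. -/
def good (w : ℤ) (V N T : Set Pt) (g : Hg) : Set Hg := {h |
  (∀ x ∈ clu (w - 2) V N h, x ∈ V → ∀ y, Adj x y → y ∉ V → y ∉ N → g y = w) ∧
    ∀ x ∈ clu (w - 2) V N h, x ∉ T}

theorem good_rfo {w : ℤ} {V N T : Set Pt} {g : Hg} : good w V N T (rfo w N g) = good w V N T g := by
  ext h
  unfold good
  constructor
  · rintro ⟨h1, h2⟩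
    refine ⟨fun x hx hxV y hxy hy hyN => ?_, h2⟩
    have := h1 x hx hxV y hxy hy hyN
    rw [rfo_out hyN] at this
    linarith
  · rintro ⟨h1, h2⟩
    refine ⟨fun x hx hxV y hxy hy hyN => ?_, h2⟩
    rw [rfo_out hyN, h1 x hx hxV y hxy hy hyN]
    ring

section
variable {w : ℤ} {V N T : Set Pt} {g h : Hg}

theorem clu_bd (H : Hull w V N g) (hh : h ∈ XC V g) (hg : h ∈ good w V N T g) {x y : Pt}
    (hx : x ∈ clu (w - 2) V N h) (hy : y ∉ clu (w - 2) V N h) (hxy : Adj x y)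
    (hV : x ∈ V ∨ y ∈ V) : h y = w ∧ h x = w - 2 := by
  rw [mem_XC] at hh
  have hyN : y ∉ N := fun h1 => hy (sub_clu h1)
  have hx2 : h x ≤ w - 2 := by
    rcases clu_sub hx with h1 | h1
    · have : x ∉ V := fun h2 => (Set.disjoint_left.1 H.off) h2 h1
      rw [hh.2.1 x this]
      exact H.dat x h1
    · exact h1.2
  have hl := abs_le.1 (hh.2.2 x y ⟨hxy, hV⟩)
  have key : w ≤ h y := by
    by_cases hyV : y ∈ V
    · by_contra hcon
      push Not at hcon
      have : h y ≤ w - 2 := by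
        obtain ⟨k, hk⟩ := hh.1 y
        obtain ⟨l, hl⟩ := H.wodd
        omega
      exact hy (clu_step hx hxy hyV this)
    · have hxV : x ∈ V := hV.resolve_right hyV
      rw [hh.2.1 y hyV, hg.1 x hx hxV y hxy hyV hyN]
  constructor <;> linarith [hl.1, hl.2]

theorem Sr_mem (H : Hull w V N g) (hh : h ∈ XC V g) (hg : h ∈ good w V N T g) :
    Sr w V N h ∈ XC V (rfo w N g) := by
  have hh' := mem_XC.1 hh
  rw [mem_XC]
  refine ⟨fun x => ?_, fun x hx => ?_, fun x y hxy => ?_⟩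
  · by_cases hx : x ∈ clu (w - 2) V N h
    · rw [Sr_in hx]; exact hh'.1 x
    · rw [Sr_out hx]; exact rf_odd hh'.1 x
  · by_cases hxN : x ∈ N
    · rw [Sr_in (sub_clu hxN), rfo_in hxN, hh'.2.1 x hx]
    · have : x ∉ clu (w - 2) V N h := fun h1 => by
        rcases clu_sub h1 with h2 | h2
        · exact hxN h2
        · exact hx h2.1
      rw [Sr_out this, rfo_out hxN, hh'.2.1 x hx]
  · have hl := hh'.2.2 x y hxy
    by_cases hx : x ∈ clu (w - 2) V N h
    · by_cases hy : y ∈ clu (w - 2) V N h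
      · rw [Sr_in hx, Sr_in hy]; exact hl
      · have := clu_bd H hh hg hx hy hxy.1 hxy.2
        rw [Sr_in hx, Sr_out hy, this.1, this.2]
        rw [abs_le]
        constructor <;> linarith
    · by_cases hy : y ∈ clu (w - 2) V N h
      · have := clu_bd H hh hg hy hx (Topo.adj_symm hxy.1) hxy.2.symm
        rw [Sr_out hx, Sr_in hy, this.1, this.2]
        rw [abs_le]
        constructor <;> linarith
      · rw [Sr_out hx, Sr_out hy]
        rw [abs_le] at *
        constructor <;> linarith [hl.1, hl.2]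

theorem Sr_clu (H : Hull w V N g) (hh : h ∈ XC V g) (hg : h ∈ good w V N T g) :
    clu (w - 2) V N (Sr w V N h) = clu (w - 2) V N h := by
  apply clu_congr
  · intro x hxV hx
    left
    rw [Sr_in hx]
    rcases clu_sub hx with h1 | h1
    · exact absurd h1 ((Set.disjoint_left.1 H.off) hxV)
    · exact h1.2
  · intro x hx y hyV hxy hk
    by_contra hcon
    have hy : y ∉ clu (w - 2) V N h := fun h1 => by
      rcases clu_sub h1 with h2 | h2
      · exact (Set.disjoint_left.1 H.off) hyV h2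
      · exact hcon h2.2
    have := clu_bd H hh hg hx hy hxy (Or.inr hyV)
    rw [Sr_out hy, this.1] at hk
    linarith

theorem Sr_Sr (H : Hull w V N g) (hh : h ∈ XC V g) (hg : h ∈ good w V N T g) :
    Sr w V N (Sr w V N h) = h := by
  have e := Sr_clu H hh hg
  funext x
  by_cases hx : x ∈ clu (w - 2) V N h
  · rw [Sr_in (by rw [e]; exact hx), Sr_in hx]
  · rw [Sr_out (by rw [e]; exact hx), Sr_out hx]
    ring

theorem Sr_good (H : Hull w V N g) (hh : h ∈ XC V g) (hg : h ∈ good w V N T g) :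
    Sr w V N h ∈ good w V N T g := by
  have e := Sr_clu H hh hg
  unfold good at *
  refine ⟨fun x hx => ?_, fun x hx => ?_⟩
  · rw [e] at hx; exact hg.1 x hx
  · rw [e] at hx; exact hg.2 x hx

theorem Sr_bij (H : Hull w V N g) :
    BijOn (Sr w V N) (XC V g ∩ good w V N T g) (XC V (rfo w N g) ∩ good w V N T g) := by
  refine ⟨fun h hh => ⟨Sr_mem H hh.1 hh.2, Sr_good H hh.1 hh.2⟩, ?_, ?_⟩
  · intro h hh k hk e
    rw [← Sr_Sr H hh.1 hh.2, e, Sr_Sr H hk.1 hk.2]
  · intro k hk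
    have H' := H.rfo
    have hk2 : k ∈ good w V N T (rfo w N g) := by rw [good_rfo]; exact hk.2
    refine ⟨Sr w V N k, ⟨?_, ?_⟩, Sr_Sr H' hk.1 hk2⟩
    · have := Sr_mem H' hk.1 hk2
      rwa [rfo_rfo] at this
    · have := Sr_good H' hk.1 hk2
      rwa [good_rfo] at this

end

/-- Splitting an average. -/
theorem Ex_split {α : Type*} {S : Set α} (hS : S.Finite) (A : Set α) (F : α → ℝ) :
    Ex S F = Pr S A * Ex (S ∩ A) F + Ex S (fun a => ind Aᶜ a * F a) := by
  classical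
  rw [Ex_inter_mul hS, ← Ex_add]
  refine Ex_congr fun a _ => ?_
  by_cases ha : a ∈ A <;> simp [ind, ha]

theorem abs_Ex_ind_le {α : Type*} {S : Set α} (hS : S.Finite) (A : Set α) {F : α → ℝ}
    (hF : ∀ a ∈ S, |F a| ≤ 1) : |Ex S (fun a => ind A a * F a)| ≤ Pr S A := by
  classical
  rw [Pr_eq_Ex hS]
  refine (abs_Ex_le _).trans (Ex_mono fun a ha => ?_)
  rw [abs_mul]
  by_cases h : a ∈ A
  · simp [ind, h, hF a ha]
  · simp [ind, h]

/-- TOTAL VARIATION: the laws with the data `g` and `2 w - g` on the hull `N` (and the same data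
off `N`) are close on `T`. -/
theorem tv_le {w : ℤ} {V N T : Set Pt} {g g' : Hg} (hV : V.Finite) (H : Hull w V N g)
    (hg' : ∀ x, g' x = 2 * w - rfo w N g x) (hne : (XC V g).Nonempty) (hne' : (XC V g').Nonempty)
    {Ψ : Hg → ℝ} (hΨ : DepOn T Ψ) (h1 : ∀ h, |Ψ h| ≤ 1) :
    |Ex (XC V g') Ψ - Ex (XC V g) Ψ| ≤ 2 * (Pr (XC V g) (good w V N T g)ᶜ +
      Pr (XC V g') {h | rf w h ∈ (good w V N T g)ᶜ}) := by
  classical
  have e' : g' = rf w (rfo w N g) := by
    funext x
    exact hg' x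
  have hfin := XC_finite hV g
  have hfin1 := XC_finite hV (rfo w N g)
  have hfin' := XC_finite hV g'
  -- transfer to `rfo`
  have t1 : Ex (XC V g') Ψ = Ex (XC V (rfo w N g)) (fun h => Ψ (rf w h)) := by
    rw [e', XC_rf]
  have t2 : Pr (XC V g') {h | rf w h ∈ (good w V N T g)ᶜ} =
      Pr (XC V (rfo w N g)) (good w V N T g)ᶜ := by
    rw [Pr_eq_Ex hfin', Pr_eq_Ex hfin1, e', XC_rf]
    refine Ex_congr fun h _ => ?_
    have : (rf w h ∈ {h | rf w h ∈ (good w V N T g)ᶜ}) = (h ∈ (good w V N T g)ᶜ) := by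
      rw [Set.mem_ofPred_eq, rf_rf]
    simp only [ind, this]
    congr
  have hne1 : (XC V (rfo w N g)).Nonempty := by
    obtain ⟨k, hk⟩ := hne'
    rw [e'] at hk
    refine ⟨rf w k, ?_⟩
    have := rf_mem (w := w) hk
    rwa [rf_rf] at this
  rw [t1, t2]
  set G := good w V N T g with hG
  have s1 := Ex_split hfin G Ψ
  have s2 := Ex_split hfin1 G (fun h => Ψ (rf w h))
  have b1 := abs_Ex_ind_le hfin Gᶜ (F := Ψ) (fun a _ => h1 a)
  have b2 := abs_Ex_ind_le hfin1 Gᶜ (F := fun h => Ψ (rf w h)) (fun a _ => h1 _)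
  have p1 := Pr_add_compl hfin hne G
  have p2 := Pr_add_compl hfin1 hne1 G
  -- the two conditional averages agree
  have ebij : Ex (XC V (rfo w N g) ∩ G) (fun h => Ψ (rf w h)) = Ex (XC V g ∩ G) Ψ := by
    rw [Ex_bij _ (Sr_bij H)]
    refine Ex_congr fun h hh => hΨ _ _ fun x hx => ?_
    have : x ∉ clu (w - 2) V N h := fun h2 => hh.2.2 x h2 hx
    unfold rf
    rw [Sr_out this]
    ring
  set a := Ex (XC V g ∩ G) Ψ with ha
  have ha1 : |a| ≤ 1 := by
    refine (abs_Ex_le _).trans (Ex_le_const zero_le_one fun b _ => h1 b)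
  rw [ebij] at s2
  have n1 := Pr_nonneg (XC V g) Gᶜ
  have n2 := Pr_nonneg (XC V (rfo w N g)) Gᶜ
  rw [s1, s2]
  rw [abs_le] at *
  constructor
  · nlinarith [ha1.1, ha1.2, b1.1, b1.2, b2.1, b2.2]
  · nlinarith [ha1.1, ha1.2, b1.1, b1.2, b2.1, b2.2]

end Vale.Agent.P153.R2.RINS
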