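import Vale.Agent.P153.R2.RINS.Tend

/-!
# P153-R2, block RINS: the comparison theorem

The mixed moment of a law `Q` with the Gibbs property in `D₁` is close to the mixed moment of the
law with the extremal data `l` on `D₃`, which does not depend on `Q`.
-/

namespace Vale.Agent.P153.R2.RINS

open Set Relation MeasureTheory
open Vale.Agent.P153
open Vale.Agent.P153.Topo (Conn)

variable {V D D' D₁ D₂ D₃ D₄ D₅ : Set Pt} {η g h l l' l'' u u' u'' : Hg} {m ℓ : ℤ} {k : ℕ}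
  {Z : Finset Pt} {φ : Fin k → Pt → ℝ} {Q : Measure Hg} {F : Hg → ℝ} {C γ ε K L : ℝ}

/-- The Gibbs property of the exact laws. -/
theorem Ex_dlr (hD : D.Finite) (hD₁ : D₁ ⊆ D) (g : Hg) (F : Hg → ℝ) :
    Ex (XC D g) F = Ex (XC D g) (fun ω => Ex (XC D₁ ω) F) := by
  classical
  have hfin := XC_finite hD g
  let φ : Hg → Hg := fun h x => if x ∈ D₁ then 0 else h x
  have hφ : ∀ h k : Hg, φ h = φ k ↔ ∀ x, x ∉ D₁ → h x = k x := by
    intro h k
    constructor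
    · intro e x hx
      have := congrFun e x
      simpa [φ, hx] using this
    · intro e
      funext x
      by_cases hx : x ∈ D₁
      · simp [φ, hx]
      · simpa [φ, hx] using e x hx
  have hXC : ∀ a b : Hg, φ a = φ b → XC D₁ a = XC D₁ b := by
    intro a b hab
    ext k
    rw [mem_XC, mem_XC]
    constructor
    · rintro ⟨h1, h2, h3⟩
      exact ⟨h1, fun x hx => by rw [h2 x hx, (hφ a b).1 hab x hx], h3⟩
    · rintro ⟨h1, h2, h3⟩
      exact ⟨h1, fun x hx => by rw [h2 x hx, (hφ a b).1 hab x hx], h3⟩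
  refine Ex_eq_of_fiber hfin φ F (fun ω => Ex (XC D₁ ω) F)
    (fun a _ b _ hab => by rw [hXC a b hab]) fun a ha => ?_
  have e : XC D g ∩ {b | φ b = φ a} = XC D₁ a := by
    rw [← XC_sub_fiber ha hD₁]
    congr 1
    ext b
    exact hφ b a
  rw [e]

/-- The uniform law on `XC D g` has the Gibbs property on `D₁ ⊆ D`. -/
theorem gib_ulaw (hD : D.Finite) (hD₁ : D₁ ⊆ D) {g : Hg} [hQ : IsProbabilityMeasure Q]
    (hae : ∀ᵐ ω ∂Q, ω ∈ XC D g)
    (hint : ∀ F : Hg → ℝ, Integrable F Q ∧ ∫ h, F h ∂Q = Ex (XC D g) F)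
    (hb : ∀ ω ∈ XC D g, Bdy V D₁ η m l u ω) : Gib V D₁ η m l u Q := by
  refine ⟨hQ, hae.mono hb, fun F _ _ => (hint _).1, fun F _ _ => ?_⟩
  rw [(hint F).2, (hint _).2]
  exact Ex_dlr hD hD₁ g F

/-- Typical boundary values of the law with the data `l`. -/
theorem bdy_l (E1 : Env V η m l l') (U1 : Env V (-η) m (-u) (-u')) (hD : D ⊆ V) (hD' : D' ⊆ D)
    (hlu : l ≤ u) {ω : Hg} (hω : ω ∈ XC D l) : Bdy V D' η m l u ω := by
  have h1 := mem_XC.1 hω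
  refine ⟨h1.1, h1.2.2.mono hD', fun y hy hyV => ?_, fun y hy => ?_, fun y hy => ?_⟩
  · rw [h1.2.1 y fun h => hyV (hD h), IsLeast.off E1.hl hyV]
  · by_cases hyD : y ∈ D
    · exact least_le E1.mo E1.hl hD h1.1 h1.2.2 (fun z hz => le_of_eq (h1.2.1 z hz.1).symm) hyD
    · rw [h1.2.1 y hyD]
      exact le_max_left _ _
  · by_cases hyD : y ∈ D
    · have h2 := least_le (h := -ω) U1.mo U1.hl hD (fun x => (h1.1 x).neg) h1.2.2.neg
        (fun z hz => by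
          rw [Pi.neg_apply, Pi.neg_apply, h1.2.1 z hz.1]
          exact neg_le_neg (hlu z)) hyD
      rw [Pi.neg_apply, Pi.neg_apply, max_neg_neg] at h2
      linarith
    · rw [h1.2.1 y hyD]
      exact (min_le_left _ _).trans (hlu y)

/-- The law with the data `l` on `D₁` as a measure. -/
theorem exists_Ql (p1 : Pk V η m l l' l'' u u' D₁ D₂ D₃ Z φ C γ)
    (hlow : Pr (XC D₁ l) {h | h ∉ gd (-(m + 2)) V D₃ D₄} ≤ ε)
    (hup : Pr (XC D₁ l) {h | -h ∉ gd (-(m + 2)) V D₃ D₄} ≤ ε) :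
    ∃ Q : Measure Hg, Qk V η m l u D₃ D₄ Z φ C ε Q ∧
      ∫ h, ∏ i, Yv (-(m + 1)) Z φ h i ∂Q =
        Ex (XC D₁ l) (fun h => ∏ i, Yv (-(m + 1)) Z φ h i) := by
  have hfin : D₁.Finite := p1.E1.fin.subset p1.H.s1
  obtain ⟨Q, hQ, hae, hint, hPr⟩ := exists_ulaw (XC_finite hfin l) (l_ne p1.E1 p1.H.s1)
  refine ⟨Q, ⟨?_, (hint _).1, ?_, ?_, ?_⟩, (hint _).2⟩
  · exact gib_ulaw hfin p1.dsub hae hint fun ω hω =>
      bdy_l p1.E1 p1.U1 p1.H.s1 p1.dsub p1.l_le_u hω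
  · rw [(hint _).2]
    exact p1.ml D₁ p1.dsub subset_rfl
  · rw [hPr _ (Pk.meas_gd p1.E1.fin p1.hD3)]
    exact hlow
  · rw [hPr _ (Pk.meas_gdU p1.E1.fin p1.hD3)]
    exact hup

/-- **COMPARISON.** -/
theorem compare (p1 : Pk V η m l l' l'' u u' D₁ D₂ D₃ Z φ C γ)
    (p2 : Pk V η m l l' l'' u u' D₃ D₄ D₅ Z φ C γ)
    (hlow : Pr (XC D₁ l) {h | h ∉ gd (-(m + 2)) V D₃ D₄} ≤ ε)
    (hup : Pr (XC D₁ l) {h | -h ∉ gd (-(m + 2)) V D₃ D₄} ≤ ε)
    (q : Qk V η m l u D₁ D₂ Z φ C ε Q) (hγ : 0 ≤ γ) (hK : 1 ≤ K) (hL : 0 < L) :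
    |∫ h, ∏ i, Yv (-(m + 1)) Z φ h i ∂Q -
      Ex (XC D₃ l) (fun h => ∏ i, Yv (-(m + 1)) Z φ h i)| ≤ 2 * er k C K L γ ε := by
  obtain ⟨Q', q', e'⟩ := exists_Ql p1 hlow hup
  have h1 := p1.T1_low q hγ hK hL
  have h2 := p1.T1_up q hγ hK hL
  have h3 := p2.T1_up q' hγ hK hL
  rw [e'] at h3
  have he : 0 ≤ er k C K L γ ε := by
    have hC1 := p1.C1
    have hK0 : 0 < K := by linarith
    have hε := Pk.eps_nonneg q
    have := kS_nonneg (k := k) (C := C) (by linarith) hK hγ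
    unfold er be
    positivity
  rw [abs_le]
  constructor <;> linarith

/-- The error tends to zero. -/
theorem er_small (k : ℕ) {C : ℝ} (hC : 0 ≤ C) {e : ℝ} (he : 0 < e) :
    ∃ K L t : ℝ, 1 ≤ K ∧ 0 < L ∧ 0 < t ∧ ∀ γ ε : ℝ, 0 ≤ γ → γ ≤ t → 0 ≤ ε → ε ≤ t →
      2 * er k C K L γ ε ≤ e := by
  have hCf := Cf_nonneg k hC
  obtain ⟨K, hK1, hK⟩ : ∃ K : ℝ, 1 ≤ K ∧ (6 * C + 2 * Cf k C) / K ≤ e / 6 := by
    refine ⟨max 1 ((6 * C + 2 * Cf k C) / (e / 6)), le_max_left _ _, ?_⟩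
    rw [div_le_iff₀ (lt_of_lt_of_le one_pos (le_max_left _ _))]
    have := le_max_right 1 ((6 * C + 2 * Cf k C) / (e / 6))
    rw [div_le_iff₀ (by linarith)] at this
    linarith
  have hK0 : 0 < K := by linarith
  have hKk : 0 < K ^ k := by positivity
  obtain ⟨L, hL0, hL⟩ : ∃ L : ℝ, 0 < L ∧ K ^ k * (k * (2 * (C / L))) ≤ e / 6 := by
    refine ⟨max 1 (K ^ k * (k * (2 * C)) / (e / 6)), lt_of_lt_of_le one_pos (le_max_left _ _), ?_⟩
    have h1 := le_max_right 1 (K ^ k * (k * (2 * C)) / (e / 6))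
    have h0 : 0 < max 1 (K ^ k * (k * (2 * C)) / (e / 6)) :=
      lt_of_lt_of_le one_pos (le_max_left _ _)
    have e1 : K ^ k * (k * (2 * (C / max 1 (K ^ k * (k * (2 * C)) / (e / 6))))) =
        K ^ k * (k * (2 * C)) / max 1 (K ^ k * (k * (2 * C)) / (e / 6)) := by ring
    rw [e1, div_le_iff₀ h0]
    rw [div_le_iff₀ (by linarith)] at h1
    linarith
  set M : ℝ := 3 * (K ^ k * k) + K ^ k * (k * (2 * (L + C))) + (C + K ^ k) + 1 with hM
  have hM0 : 0 < M := by positivity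
  refine ⟨K, L, e / 6 / M, hK1, hL0, by positivity, fun γ ε hγ hγt hε hεt => ?_⟩
  have h1 : er k C K L γ ε = 3 * (K ^ k * k) * γ + K ^ k * (k * (2 * (L + C))) * ε +
      (C + K ^ k) * ε + K ^ k * (k * (2 * (C / L))) + (6 * C + 2 * Cf k C) / K := by
    unfold er be kS
    ring
  have h2 : 3 * (K ^ k * k) * γ ≤ 3 * (K ^ k * k) * (e / 6 / M) :=
    mul_le_mul_of_nonneg_left hγt (by positivity)
  have h3 : K ^ k * (k * (2 * (L + C))) * ε ≤ K ^ k * (k * (2 * (L + C))) * (e / 6 / M) :=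
    mul_le_mul_of_nonneg_left hεt (by positivity)
  have h4 : (C + K ^ k) * ε ≤ (C + K ^ k) * (e / 6 / M) :=
    mul_le_mul_of_nonneg_left hεt (by positivity)
  have h5 : 3 * (K ^ k * k) * (e / 6 / M) + K ^ k * (k * (2 * (L + C))) * (e / 6 / M) +
      (C + K ^ k) * (e / 6 / M) ≤ e / 6 := by
    have h6 : (3 * (K ^ k * k) + K ^ k * (k * (2 * (L + C))) + (C + K ^ k)) * (e / 6 / M) ≤
        M * (e / 6 / M) := by
      apply mul_le_mul_of_nonneg_right _ (by positivity)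
      rw [hM]
      linarith
    have h7 : M * (e / 6 / M) = e / 6 := by field_simp
    linarith
  rw [h1]
  linarith

end Vale.Agent.P153.R2.RINS
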