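import Vale.Agent.P153.R2.RINS.Cross

/-!
# P153-R2, block RINS: the bad events are crossings
-/

namespace Vale.Agent.P153.R2.RINS

open Set Relation
open Vale.Agent.P153
open Vale.Agent.P153.Topo (Conn adj_symm)
open Vale.Agent.P153.R2.PLAN (Ring outer inner bx_mono)

variable {n : ℕ} {V F D E T : Set Pt} {η g h : Hg} {x₀ a x y z w p : Pt} {X : Fin n → Set Pt}
  {r r' r'' R r₀ R₀ ℓ : ℤ} {i : Fin n}

/-- A vertex of the cluster is joined to a neighbour of the hull. -/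
theorem clu_path (hx : x ∈ clu ℓ D E h) (hxD : x ∉ E) :
    ∃ y ∈ D, (∃ e ∈ E, Adj e y) ∧ Conn (D ∩ dn h ℓ) y x := by
  obtain ⟨e, he, hex⟩ := hx
  have key : x ∈ E ∨ ∃ y ∈ D, (∃ e ∈ E, Adj e y) ∧ Conn (D ∩ dn h ℓ) y x := by
    refine Conn.ind (S := E ∪ (D ∩ dn h ℓ)) (fun z => z ∈ E ∨ ∃ y ∈ D, (∃ e ∈ E, Adj e y) ∧
      Conn (D ∩ dn h ℓ) y z) (Or.inl he) ?_ hex
    intro u v _ huv hv ih
    rcases hv with hv | hv
    · exact Or.inl hv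
    · right
      rcases ih with ih | ⟨y, hy, hye, hyu⟩
      · exact ⟨v, hv.1, ⟨u, ih, huv⟩, Conn.refl hv⟩
      · exact ⟨y, hy, hye, hyu.tail huv hv⟩
  exact key.resolve_left hxD

namespace Geo

variable (G : Geo V η x₀ a X r₀ R₀)

set_option linter.unusedSectionVars false

include G

/-- A vertex of `A0` joined to `a` belongs to a target. -/
theorem mem_X (hx : x ∈ A0 V a X) (hxa : x ∈ Cl V {a}) : ∃ i, x ∈ X i := by
  rcases hx with hx | hx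
  · exact mem_iUnion.1 hx
  · exact absurd hxa hx.2

/-- Vertices joined in `V` to the neighbours of `Wr`. -/
theorem mem_Va (hw : w ∈ Wr V x₀ a r) (hwy : Adj w y) (hyx : Conn V y x) : x ∈ Cl V {a} :=
  Cl_conn (Cl_step (G.Wr_sub_Va hw) hwy hyx.left_mem) hyx

theorem hull_sub : ebd (Dr V x₀ a X r) ∩ V ⊆ Wr V x₀ a r := by
  rintro y ⟨⟨hy, x, hx, hxy⟩, hyV⟩
  exact ebd_Dr hx hxy hyV hy

theorem X_not_Wr (hr : r ≤ R₀) (hx : x ∈ X i) (hw : x ∈ Wr V x₀ a r) : False :=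
  Set.disjoint_left.1 (G.XW i) hx (Wr_mono hr hw)

/-- The bad event of the reflection. -/
theorem good_bd (hrR : r ≤ R) (hR : R ≤ R₀) (hT : T ⊆ A0 V a X) (hg : ∀ y, y ∉ V → g y = η y)
    (hh : h ∉ RINS.good 1 (Dr V x₀ a X r) (ebd (Dr V x₀ a X r) ∩ V) T g) :
    h ∈ Bd V x₀ a X r r R := by
  have key : ∃ x ∈ clu (-1) (Dr V x₀ a X r) (ebd (Dr V x₀ a X r) ∩ V) h,
      x ∉ ebd (Dr V x₀ a X r) ∩ V ∧ x ∈ A0 V a X := by
    unfold RINS.good at hh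
    simp only [Set.mem_ofPred_eq, not_and_or, not_forall] at hh
    rcases hh with ⟨x, hx, hxD, y, hxy, hyD, hyN, hgy⟩ | ⟨x, hx, hxT⟩
    · have hyV : y ∉ V := fun h1 => hyN ⟨adj_mem_ebd hxD hyD hxy, h1⟩
      rw [hg y hyV] at hgy
      exact ⟨x, hx, fun h1 => h1.1.1 hxD, G.bad x (Dr_sub hxD).1 y hyV hxy hgy⟩
    · have hx0 : x ∈ A0 V a X := hT (not_not.1 hxT)
      refine ⟨x, hx, fun h1 => ?_, hx0⟩
      have h2 := G.hull_sub h1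
      obtain ⟨i, hi⟩ := G.mem_X hx0 (G.Wr_sub_Va h2)
      exact G.X_not_Wr (hrR.trans hR) hi h2
  obtain ⟨x, hx, hxE, hx0⟩ := key
  obtain ⟨y, hy, ⟨e, he, hey⟩, hyx⟩ := clu_path hx hxE
  have he' := G.hull_sub he
  obtain ⟨i, hi⟩ := G.mem_Ur_adj hy he' hey
  obtain ⟨j, hj⟩ := G.mem_X hx0 (G.mem_Va he' hey (hyx.mono fun z hz => (Dr_sub hz.1).1))
  exact ⟨i, y, hi, ⟨e, he', hey⟩, j, x, G.X_sub_Ur hR hj, hyx⟩

/-- The low cluster in the outer domain. -/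
theorem gd_path (hrR : r ≤ R) (hh : h ∉ gd ℓ V (Dr V x₀ a X r) (Dr V x₀ a X R)) :
    ∃ i, ∃ y ∈ Ur V x₀ a X r i, (∃ w ∈ Wr V x₀ a r, Adj w y) ∧ ∃ j, ∃ x ∈ Ur V x₀ a X R j,
      Conn (Dr V x₀ a X r ∩ dn h ℓ) y x := by
  unfold gd at hh
  simp only [Set.mem_ofPred_eq, not_forall, not_not] at hh
  obtain ⟨x, hx, hxR⟩ := hh
  have hxr : x ∉ V \ Dr V x₀ a X r := fun h1 => h1.2 (Dr_anti hrR hxR)
  obtain ⟨y, hy, ⟨e, he, hey⟩, hyx⟩ := clu_path hx hxr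
  have he' := ebd_Dr hy (adj_symm hey) he.1 he.2
  obtain ⟨i, hi⟩ := G.mem_Ur_adj hy he' hey
  have hxa := G.mem_Va he' hey (hyx.mono fun z hz => (Dr_sub hz.1).1)
  obtain ⟨j, hj⟩ := G.mem_Ur hxR hxa
  exact ⟨i, y, hi, ⟨e, he', hey⟩, j, x, hj, hyx⟩

/-- The low cluster in the outer domain. -/
theorem gd_bd (hrr : r ≤ r') (hrR : r' ≤ R)
    (hh : h ∉ gd (-3) V (Dr V x₀ a X r') (Dr V x₀ a X R)) : h ∈ Bd V x₀ a X r r' R := by
  obtain ⟨i, y, hi, he, j, x, hj, hyx⟩ := G.gd_path hrR hh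
  have hc : Conn (Dr V x₀ a X r ∩ dn h (-1)) y x := by
    refine hyx.mono ?_
    rintro z ⟨hz1, hz2⟩
    have : h z ≤ -3 := hz2
    refine ⟨Dr_anti hrr hz1, ?_⟩
    show h z ≤ -1
    linarith
  exact ⟨i, y, hi, he, j, x, hj, hc⟩

/-- The high cluster in the outer domain. -/
theorem gd_bd' (hrr : r ≤ r') (hrR : r' ≤ R)
    (hh : -h ∉ gd (-3) V (Dr V x₀ a X r') (Dr V x₀ a X R)) : rf 1 h ∈ Bd V x₀ a X r r' R := by
  obtain ⟨i, y, hi, he, j, x, hj, hyx⟩ := G.gd_path hrR hh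
  have hc : Conn (Dr V x₀ a X r ∩ dn (rf 1 h) (-1)) y x := by
    refine hyx.mono ?_
    rintro z ⟨hz1, hz2⟩
    have : -(h z) ≤ -3 := hz2
    refine ⟨Dr_anti hrr hz1, ?_⟩
    show 2 * 1 - h z ≤ -1
    linarith
  exact ⟨i, y, hi, he, j, x, hj, hc⟩

/-- The low cluster in `V`. -/
theorem gd_bdV (hrR : r' ≤ R)
    (hh : h ∉ gd (-3) V (Dr V x₀ a X r') (Dr V x₀ a X R)) : h ∈ BdV V x₀ a X r' R := by
  obtain ⟨i, y, hi, he, j, x, hj, hyx⟩ := G.gd_path hrR hh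
  have hc : Conn (V ∩ dn h (-1)) y x := by
    refine hyx.mono ?_
    rintro z ⟨hz1, hz2⟩
    have : h z ≤ -3 := hz2
    refine ⟨(Dr_sub hz1).1, ?_⟩
    show h z ≤ -1
    linarith
  exact ⟨y, (Ur_sub hi).1, he, j, x, hj, hc⟩

/-- The high cluster in `V`. -/
theorem gd_bdV' (hrR : r' ≤ R)
    (hh : -h ∉ gd (-3) V (Dr V x₀ a X r') (Dr V x₀ a X R)) : rf 1 h ∈ BdV V x₀ a X r' R := by
  obtain ⟨i, y, hi, he, j, x, hj, hyx⟩ := G.gd_path hrR hh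
  have hc : Conn (V ∩ dn (rf 1 h) (-1)) y x := by
    refine hyx.mono ?_
    rintro z ⟨hz1, hz2⟩
    have : -(h z) ≤ -3 := hz2
    refine ⟨(Dr_sub hz1).1, ?_⟩
    show 2 * 1 - h z ≤ -1
    linarith
  exact ⟨y, (Ur_sub hi).1, he, j, x, hj, hc⟩

end Geo

end Vale.Agent.P153.R2.RINS
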