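import Vale.Agent.P153.R2.RINS.Geo
import Vale.Agent.P153.R2.LOC.Mir

/-!
# P153-R2, block RINS: crossing estimates for the rough domain
-/

namespace Vale.Agent.P153.R2.RINS

open Set Relation
open Vale.Agent.P153
open Vale.Agent.P153.Topo (Conn adj_symm)
open Vale.Agent.P153.R2.PLAN (Ring outer inner bx_mono)
open Vale.Agent.P153.R2.LOC (ds Wat An Co NO TW mem_bx_iff multW_lo)

variable {n : ℕ} {V F : Set Pt} {η g h : Hg} {x₀ a x y z w p : Pt} {X : Fin n → Set Pt}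
  {r r' r'' R r₀ R₀ : ℤ} {i : Fin n}

theorem Co_eq : Co V x₀ R p = Wr V x₀ p R := by
  ext x
  exact mem_Cl_single.symm

/-- Finite union bound. -/
theorem Pr_exists_le {α ι : Type*} [Fintype ι] {S : Set α} (hS : S.Finite) (A : ι → Set α) {e : ℝ}
    (hA : ∀ i, Pr S (A i) ≤ e) : Pr S {h | ∃ i, h ∈ A i} ≤ Fintype.card ι * e := by
  classical
  rw [Pr_eq_Ex hS]
  have h1 : Ex S (ind {h | ∃ i, h ∈ A i}) ≤ Ex S (fun h => ∑ i, ind (A i) h) := by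
    refine Ex_mono fun h _ => ?_
    unfold ind
    split_ifs with h1
    · obtain ⟨i, hi⟩ := h1
      have h2 : (if h ∈ A i then (1 : ℝ) else 0) ≤ ∑ i, if h ∈ A i then (1 : ℝ) else 0 :=
        Finset.single_le_sum (f := fun i => if h ∈ A i then (1 : ℝ) else 0)
          (fun i _ => by split_ifs <;> norm_num) (Finset.mem_univ i)
      rwa [if_pos hi] at h2
    · exact Finset.sum_nonneg fun i _ => by split_ifs <;> norm_num
  refine h1.trans ?_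
  rw [Ex_sum]
  calc ∑ i, Ex S (fun h => ind (A i) h) ≤ ∑ _i : ι, e := by
        refine Finset.sum_le_sum fun i _ => ?_
        have := hA i
        rwa [Pr_eq_Ex hS] at this
    _ = Fintype.card ι * e := by rw [Finset.sum_const, Finset.card_univ, nsmul_eq_mul]

/-- A vertex next to `Wr r'` is joined to a target by `{h ≤ -1}` in the outer domain. -/
def Bd (V : Set Pt) (x₀ a : Pt) (X : Fin n → Set Pt) (r r' R : ℤ) : Set Hg :=
  {h | ∃ i, ∃ y ∈ Ur V x₀ a X r' i, (∃ w ∈ Wr V x₀ a r', Adj w y) ∧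
    ∃ j, ∃ q ∈ Ur V x₀ a X R j, Conn (Dr V x₀ a X r ∩ dn h (-1)) y q}

/-- The same in `V`. -/
def BdV (V : Set Pt) (x₀ a : Pt) (X : Fin n → Set Pt) (r' R : ℤ) : Set Hg :=
  {h | ∃ y ∈ V, (∃ w ∈ Wr V x₀ a r', Adj w y) ∧
    ∃ j, ∃ q ∈ Ur V x₀ a X R j, Conn (V ∩ dn h (-1)) y q}

namespace Geo

theorem Ur_disj (_ : Geo V η x₀ a X r₀ R₀) : Disjoint (Ur V x₀ a X R i) (Wr V x₀ a R) := by
  rw [Set.disjoint_left]
  exact fun x hx hx' => (Ur_sub hx).2 hx'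

/-- The component of `V`. -/
theorem comp_sub' (_ : Geo V η x₀ a X r₀ R₀) (hpR : p ∈ Wr V x₀ a R) :
    Wr V x₀ p R ⊆ Wr V x₀ a R := by
  intro x hx
  refine Conn.ind (S := V ∩ bx x₀ R) (fun z => z ∈ Wr V x₀ a R) hpR ?_ (mem_Cl_single.1 hx)
  intro u v _ huv hv' ih
  exact Wr_step ih huv hv'.1 hv'.2

end Geo

/-- CROSSING in the outer domains. -/
theorem crossD (hS : LOC.S_land 4) {ε : ℝ} (hε : 0 < ε) : ∃ t : ℤ, 1 ≤ t ∧ ∃ ρ₀ : ℤ, 1 ≤ ρ₀ ∧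
    ∀ (n : ℕ) (V : Set Pt) (η g : Hg) (x₀ a : Pt) (X : Fin n → Set Pt) (r₀ R₀ r r' R : ℤ),
      Geo V η x₀ a X r₀ R₀ → r₀ ≤ r → r ≤ r' → ρ₀ ≤ r' + 1 → t * (r' + 1) ≤ R → R ≤ R₀ →
      (XC (Dr V x₀ a X r) g).Nonempty → (∀ z ∈ ebd (Dr V x₀ a X r), -5 ≤ g z) →
      (∀ x ∈ Wr V x₀ a R₀, ∀ z, z ∉ V → Adj x z → 1 ≤ g z) →
      Pr (XC (Dr V x₀ a X r) g) (Bd V x₀ a X r r' R) ≤ (n : ℝ) ^ 2 * ε := by
  obtain ⟨t, ht, ρ₀, hρ₀, hm⟩ := multW_lo 2 hS ε hε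
  refine ⟨t, ht, ρ₀, hρ₀, fun n V η g x₀ a X r₀ R₀ r r' R G hr0 hrr hρ htR hRR hne hlow
    hwall => ?_⟩
  classical
  have hr'R : r' + 1 ≤ R := by nlinarith
  have hfin : (Dr V x₀ a X r).Finite := G.fin.subset fun x hx => (Dr_sub hx).1
  -- the event for one source and one target
  set A : Fin n × Fin n → Set Hg := fun io =>
    {h | ∃ y ∈ Ur V x₀ a X r' io.1, (∃ w ∈ Wr V x₀ a r', Adj w y) ∧
      ∃ q ∈ Ur V x₀ a X R io.2, Conn (Dr V x₀ a X r ∩ dn h (-1)) y q} with hA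
  have hsub : ∀ h ∈ Bd V x₀ a X r r' R, ∃ io, h ∈ A io := by
    rintro h ⟨i, y, hy, hw, o, q, hq, hc⟩
    exact ⟨(i, o), y, hy, hw, q, hq, hc⟩
  refine (Pr_mono fun h _ hh => (show h ∈ {h | ∃ io, h ∈ A io} from hsub h hh)).trans ?_
  refine (Pr_exists_le (XC_finite hfin g) A (e := ε) ?_).trans ?_
  · rintro ⟨i, o⟩
    by_cases hout : ∃ p, p ∈ outer (Wr V x₀ a r) (Ur V x₀ a X r i)
    · obtain ⟨p, hp⟩ := hout
      obtain ⟨hpU, w₁, hw₁, hwp⟩ := hp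
      have hpb : p ∈ bx x₀ (r + 1) := bx_adj (Wr_sub hw₁).2 hwp
      have hpD : p ∈ Dr V x₀ a X r := Ur_sub_Dr hpU
      have hpR : p ∈ Wr V x₀ a R := Wr_next hw₁ hwp (Ur_sub hpU).1 (by omega)
      set N : Set Pt := Cl (Dr V x₀ a X r ∩ bx x₀ (r' + 1)) {p} with hN
      have hpN : p ∈ N := mem_Cl_single.2 (Conn.refl ⟨hpD, bx_mono (by omega) hpb⟩)
      have hco : ∀ x ∈ Co (Dr V x₀ a X r) x₀ R p, x ∈ Dr V x₀ a X r ∩ Wr V x₀ a R :=
        fun x hx => G.comp_sub hpD hpR (by rw [← Co_eq]; exact hx)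
      have hUD : Ur V x₀ a X R o ⊆ Dr V x₀ a X r := fun x hx => Dr_anti (by omega) (Ur_sub_Dr hx)
      have key := hm 1 (Dr V x₀ a X r) (Dr V x₀ a X r) x₀ (r' + 1) R p g N
        (Ur V x₀ a X R o) odd_one
        ⟨hfin, G.cc_Dr hr0, subset_rfl, hne, fun x hx _ => (hco x hx).1⟩
        (fun z hz => by have := hlow z hz; push_cast; omega)
        (fun z hz x hx hxz hρz => by
          obtain ⟨hx1, hx2⟩ := hco x hx
          by_cases hzV : z ∈ V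
          · exfalso
            have h1 := ebd_Dr hx1 hxz hzV hz
            have h2 := mem_bx_iff.1 (Wr_sub h1).2
            omega
          · exact hwall x (Wr_mono hRR hx2) z hzV hxz)
        (fun h => G.x0V (Dr_sub h).1)
        hρ htR ⟨hpD, w₁, adj_symm hwp, fun h => (Dr_sub h).2 hw₁⟩ hpN
        (fun x hx => (Cl_sub hx).1) (fun x hx => (Cl_sub hx).2)
        (fun x hx => Cn_Cl_single p hpN x hx) hUD
        (G.Ur_disj.mono_right fun x hx => (hco x hx).2) (G.Cn_Ur hRR)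
      refine (Pr_mono fun h _ hh => ?_).trans key
      obtain ⟨y, hy, ⟨w, hw, hwy⟩, q, hq, hc⟩ := hh
      refine ⟨y, ?_, q, hq, hc.mono ?_⟩
      · obtain ⟨z, hz, hyz⟩ := G.to_mouth hr0 hrr hy hw hwy
        have h1 := G.Cn_outer (r := r) (i := i) (by omega) z hz p ⟨hpU, w₁, hw₁, hwp⟩
        have h2 : outer (Wr V x₀ a r) (Ur V x₀ a X r i) ⊆ Dr V x₀ a X r ∩ bx x₀ (r' + 1) := by
          rintro v ⟨hv, w₂, hw₂, hwv⟩
          exact ⟨Ur_sub_Dr hv, bx_mono (by omega) (bx_adj (Wr_sub hw₂).2 hwv)⟩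
        exact mem_Cl_single.2 (hyz.trans (h1.mono h2)).symm
      · rintro v ⟨hv1, hv2⟩
        refine ⟨hv1, fun hw => ?_⟩
        have h1 : 1 ≤ h v := (LOC.Wat_subset hw).2
        have h2 : h v ≤ -1 := hv2
        omega
    · have : Pr (XC (Dr V x₀ a X r) g) (A (i, o)) ≤ Pr (XC (Dr V x₀ a X r) g) ∅ := by
        refine Pr_mono fun h _ hh => ?_
        obtain ⟨y, hy, ⟨w, hw, hwy⟩, q, hq, hc⟩ := hh
        obtain ⟨z, hz, hyz⟩ := G.to_mouth hr0 hrr hy hw hwy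
        exact absurd ⟨z, hz⟩ hout
      refine this.trans ?_
      unfold Pr
      simp [hε.le]
  · rw [Fintype.card_prod, Fintype.card_fin]
    push_cast
    rw [sq]

/-- CROSSING in `V` (with a small hull removed). -/
theorem crossV (hS : LOC.S_land 4) {ε : ℝ} (hε : 0 < ε) : ∃ t : ℤ, 1 ≤ t ∧ ∃ ρ₀ : ℤ, 1 ≤ ρ₀ ∧
    ∀ (n : ℕ) (V F : Set Pt) (η g : Hg) (x₀ a : Pt) (X : Fin n → Set Pt) (r₀ R₀ r' R : ℤ),
      Geo V η x₀ a X r₀ R₀ → r₀ ≤ r' → ρ₀ ≤ r' + 1 → t * (r' + 1) ≤ R → R ≤ R₀ →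
      F ⊆ V → (∀ x ∈ V, x ∉ F → x ∈ bx x₀ r') →
      (XC F g).Nonempty → (∀ z ∈ ebd F, -5 ≤ g z) →
      (∀ x ∈ Wr V x₀ a R₀, ∀ z, z ∉ V → Adj x z → 1 ≤ g z) →
      Pr (XC F g) (BdV V x₀ a X r' R) ≤ (n : ℝ) * ε := by
  obtain ⟨t, ht, ρ₀, hρ₀, hm⟩ := multW_lo 2 hS ε hε
  refine ⟨t, ht, ρ₀, hρ₀, fun n V F η g x₀ a X r₀ R₀ r' R G hr0 hρ htR hRR hFV hFb hne hlow
    hwall => ?_⟩
  classical
  have hr'R : r' + 1 ≤ R := by nlinarith
  have hfin : F.Finite := G.fin.subset hFV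
  set A : Fin n → Set Hg := fun o =>
    {h | ∃ y ∈ V, (∃ w ∈ Wr V x₀ a r', Adj w y) ∧
      ∃ q ∈ Ur V x₀ a X R o, Conn (V ∩ dn h (-1)) y q} with hA
  have hsub : ∀ h ∈ BdV V x₀ a X r' R, ∃ o, h ∈ A o := by
    rintro h ⟨y, hy, hw, o, q, hq, hc⟩
    exact ⟨o, y, hy, hw, q, hq, hc⟩
  refine (Pr_mono fun h _ hh => (show h ∈ {h | ∃ o, h ∈ A o} from hsub h hh)).trans ?_
  refine (Pr_exists_le (XC_finite hfin g) A (e := ε) ?_).trans ?_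
  · intro o
    obtain ⟨p, hpW, hpx⟩ := G.uW hr0
    have hpR : p ∈ Wr V x₀ a R := Wr_mono (by omega) hpW
    have hco : ∀ x ∈ Co V x₀ R p, x ∈ Wr V x₀ a R :=
      fun x hx => G.comp_sub' hpR (by rw [← Co_eq]; exact hx)
    have hUV : Ur V x₀ a X R o ⊆ V := fun x hx => (Ur_sub hx).1
    have key := hm 1 V F x₀ (r' + 1) R p g (Wr V x₀ a (r' + 1))
      (Ur V x₀ a X R o) odd_one
      ⟨G.fin, G.cc, hFV, hne, fun x hx hds => by
        by_contra hxF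
        have h1 := mem_bx_iff.1 (hFb x (Wr_sub (hco x hx)).1 hxF)
        omega⟩
      (fun z hz => by have := hlow z hz; push_cast; omega)
      (fun z hz x hx hxz hρz => hwall x (Wr_mono hRR (hco x hx)) z hz hxz)
      G.x0V
      hρ htR ⟨(Wr_sub hpW).1, x₀, hpx, G.x0V⟩ (Wr_mono (by omega) hpW)
      (fun x hx => (Wr_sub hx).1) (fun x hx => (Wr_sub hx).2)
      (fun x hx => Cn_Wr p (Wr_mono (by omega) hpW) x hx) hUV
      (G.Ur_disj.mono_right fun x hx => hco x hx) (G.Cn_Ur hRR)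
    refine (Pr_mono fun h _ hh => ?_).trans key
    obtain ⟨y, hy, ⟨w, hw, hwy⟩, q, hq, hc⟩ := hh
    refine ⟨y, Wr_next hw hwy hy le_rfl, q, hq, hc.mono ?_⟩
    rintro v ⟨hv1, hv2⟩
    refine ⟨hv1, fun hw => ?_⟩
    have h1 : 1 ≤ h v := (LOC.Wat_subset hw).2
    have h2 : h v ≤ -1 := hv2
    omega
  · rw [Fintype.card_fin]

end Vale.Agent.P153.R2.RINS
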