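import Vale.Agent.P153.R2.Base.Basic

/-!
# P153-R2, block RINS: capped distance to a wall

`reach V A n`: the vertices at distance at most `n` from `A` along the edges which touch `V`;
`dcap V A M x`: the distance of `x` to `A`, capped at `M`.
-/

namespace Vale.Agent.P153.R2.RINS

open Set Relation
open Vale.Agent.P153
open Vale.Agent.P153.Topo (Conn)

/-- Adjacent, along an edge which touches `V`. -/
def AdjV (V : Set Pt) (x y : Pt) : Prop := Adj x y ∧ (x ∈ V ∨ y ∈ V)

theorem AdjV.symm {V : Set Pt} {x y : Pt} (h : AdjV V x y) : AdjV V y x :=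
  ⟨Topo.adj_symm h.1, h.2.symm⟩

/-- Steps at most two along the edges which touch `V`. -/
def LipV (V : Set Pt) (h : Hg) : Prop := ∀ x y, AdjV V x y → |h x - h y| ≤ 2

theorem Cfg.lipV {V : Set Pt} {I : Pt → Set ℤ} {h : Hg} (hh : h ∈ Cfg V I) : LipV V h := by
  intro x y hxy
  rcases hxy.2 with h1 | h1
  · exact Cfg.lip hh h1 hxy.1
  · exact Cfg.lip' hh h1 hxy.1

theorem LipV.mono {V V' : Set Pt} (hV : V' ⊆ V) {h : Hg} (hh : LipV V h) : LipV V' h :=
  fun x y hxy => hh x y ⟨hxy.1, hxy.2.imp (fun a => hV a) (fun a => hV a)⟩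

/-- Vertices at distance at most `n`. -/
def reach (V A : Set Pt) : ℕ → Set Pt
  | 0 => A
  | (n + 1) => reach V A n ∪ {y | ∃ x ∈ reach V A n, AdjV V x y}

theorem reach_mono {V A : Set Pt} {n m : ℕ} (h : n ≤ m) : reach V A n ⊆ reach V A m := by
  induction m, h using Nat.le_induction with
  | base => exact subset_rfl
  | succ m _ ih => exact ih.trans subset_union_left

theorem reach_step {V A : Set Pt} {n : ℕ} {x y : Pt} (hx : x ∈ reach V A n) (hxy : AdjV V x y) :
    y ∈ reach V A (n + 1) := Or.inr ⟨x, hx, hxy⟩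

/-- The wall value `w` is constant along the edges which touch `V`. -/
def Wc (V : Set Pt) (w : Hg) : Prop := ∀ x y, AdjV V x y → w x = w y

theorem reach_lip {V A : Set Pt} {w : Hg} {h : Hg} (hw : Wc V w) (hh : LipV V h)
    (hA : ∀ x ∈ A, h x = w x) : ∀ n : ℕ, ∀ x ∈ reach V A n, |h x - w x| ≤ 2 * n := by
  intro n
  induction n with
  | zero =>
    intro x hx
    rw [hA x hx]
    simp
  | succ n ih =>
    rintro x (hx | ⟨y, hy, hyx⟩)
    · have := ih x hx
      push_cast
      linarith
    · have h1 := ih y hy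
      have h2 := hh y x hyx
      rw [hw y x hyx] at h1
      push_cast
      rw [abs_le] at *
      constructor <;> linarith [h1.1, h1.2, h2.1, h2.2]

open Classical in
/-- Distance to `A`, capped at `M`. -/
noncomputable def dcap (V A : Set Pt) (M : ℕ) (x : Pt) : ℕ :=
  ((Finset.range M).filter (fun n => x ∉ reach V A n)).card

theorem dcap_le (V A : Set Pt) (M : ℕ) (x : Pt) : dcap V A M x ≤ M := by
  classical
  unfold dcap
  exact (Finset.card_filter_le _ _).trans (by simp)

/-- `x` is reached in `dcap` steps if `dcap` is less than the cap. -/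
theorem reach_dcap {V A : Set Pt} {M : ℕ} {x : Pt} (h : dcap V A M x < M) :
    x ∈ reach V A (dcap V A M x) := by
  classical
  by_contra hcon
  have hsub : Finset.range (dcap V A M x + 1) ⊆
      (Finset.range M).filter (fun n => x ∉ reach V A n) := by
    intro n hn
    simp only [Finset.mem_range, Finset.mem_filter] at hn ⊢
    exact ⟨by omega, fun hx => hcon (reach_mono (by omega) hx)⟩
  have := Finset.card_le_card hsub
  rw [Finset.card_range] at this
  unfold dcap at this
  omega

theorem dcap_step {V A : Set Pt} {M : ℕ} {x y : Pt} (hxy : AdjV V x y) :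
    dcap V A M y ≤ dcap V A M x + 1 := by
  by_cases h : dcap V A M x < M
  · by_contra hcon
    push Not at hcon
    classical
    have h1 := reach_step (reach_dcap h) hxy
    have hsub : (Finset.range M).filter (fun n => y ∉ reach V A n) ⊆
        Finset.range (dcap V A M x + 1) := by
      intro n hn
      simp only [Finset.mem_range, Finset.mem_filter] at hn ⊢
      by_contra h2
      exact hn.2 (reach_mono (by omega) h1)
    have := Finset.card_le_card hsub
    rw [Finset.card_range] at this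
    unfold dcap at this hcon
    omega
  · have := dcap_le V A M y
    omega

theorem dcap_zero {V A : Set Pt} {M : ℕ} {x : Pt} (hx : x ∈ A) : dcap V A M x = 0 := by
  classical
  unfold dcap
  rw [Finset.card_eq_zero, Finset.filter_eq_empty_iff]
  intro n _ h
  exact h (reach_mono (Nat.zero_le n) (show x ∈ reach V A 0 from hx))

theorem dcap_pos {V A : Set Pt} {M : ℕ} (hM : 1 ≤ M) {x : Pt} (hx : x ∉ A) :
    1 ≤ dcap V A M x := by
  classical
  unfold dcap
  rw [Nat.one_le_iff_ne_zero, Ne, Finset.card_eq_zero, Finset.filter_eq_empty_iff]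
  push Not
  exact ⟨0, by simpa [Nat.pos_iff_ne_zero, Nat.one_le_iff_ne_zero] using hM, hx⟩

/-- Heights are within `2 dcap` of the wall, below the cap. -/
theorem dcap_bound {V A : Set Pt} {M : ℕ} {w : Hg} {h : Hg} (hw : Wc V w) (hh : LipV V h)
    (hA : ∀ x ∈ A, h x = w x) {x : Pt} (hx : dcap V A M x < M) :
    |h x - w x| ≤ 2 * dcap V A M x :=
  reach_lip hw hh hA _ x (reach_dcap hx)

/-- The lowest height above `-m` near the walls. -/
def lo (w : Hg) (d : Pt → ℕ) (m : ℤ) : Hg := fun x => max (-m) (w x - 2 * d x)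

/-- The highest height below `m` near the walls. -/
def hi (w : Hg) (d : Pt → ℕ) (m : ℤ) : Hg := fun x => min m (w x + 2 * d x)

variable {w : Hg} {d : Pt → ℕ} {m : ℤ}

theorem lo_odd (hw : ∀ x, Odd (w x)) (hm : Odd m) (x : Pt) : Odd (lo w d m x) := by
  unfold lo
  rcases max_choice (-m) (w x - 2 * d x) with h | h
  · rw [h]; exact hm.neg
  · rw [h]
    obtain ⟨k, hk⟩ := hw x
    exact ⟨k - d x, by rw [hk]; ring⟩

theorem hi_odd (hw : ∀ x, Odd (w x)) (hm : Odd m) (x : Pt) : Odd (hi w d m x) := by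
  unfold hi
  rcases min_choice m (w x + 2 * d x) with h | h
  · rw [h]; exact hm
  · rw [h]
    obtain ⟨k, hk⟩ := hw x
    exact ⟨k + d x, by rw [hk]; ring⟩

theorem neg_le_lo (x : Pt) : -m ≤ lo w d m x := le_max_left _ _

theorem hi_le (x : Pt) : hi w d m x ≤ m := min_le_left _ _

theorem lo_mono {m' : ℤ} (h : m ≤ m') (x : Pt) : lo w d m' x ≤ lo w d m x :=
  max_le_max (by linarith) le_rfl

/-- The distance to the walls controls the heights on `N`: for every configuration in the class,
`|h - w| ≤ 2 d`, or `d` is at the cap `c` (and `w - 2 c`, `w + 2 c` are beyond `-m`, `m`). -/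
structure Ctl (N : Set Pt) (w : Hg) (d : Pt → ℕ) (m : ℤ) (h : Hg) : Prop where
  lo : ∀ x ∈ N, w x - 2 * d x ≤ h x ∨ w x - 2 * d x ≤ -m
  hi : ∀ x ∈ N, h x ≤ w x + 2 * d x ∨ m ≤ w x + 2 * d x

theorem Ctl.of_lip {V A N : Set Pt} {M : ℕ} {h : Hg} (hw : Wc V w) (hh : LipV V h)
    (hA : ∀ x ∈ A, h x = w x) (hM : ∀ x ∈ N, w x - 2 * M ≤ -m ∧ m ≤ w x + 2 * M) :
    Ctl N w (dcap V A M) m h := by
  refine ⟨fun x hx => ?_, fun x hx => ?_⟩
  · by_cases h1 : dcap V A M x < M
    · left
      linarith [(abs_le.1 (dcap_bound hw hh hA h1)).1]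
    · right
      have := dcap_le V A M x
      have h2 : dcap V A M x = M := by omega
      rw [h2]
      exact (hM x hx).1
  · by_cases h1 : dcap V A M x < M
    · left
      linarith [(abs_le.1 (dcap_bound hw hh hA h1)).2]
    · right
      have := dcap_le V A M x
      have h2 : dcap V A M x = M := by omega
      rw [h2]
      exact (hM x hx).2

theorem Ctl.lo_le {N : Set Pt} {h : Hg} (hc : Ctl N w d m h) {x : Pt} (hx : x ∈ N)
    (h1 : -m ≤ h x) : RINS.lo w d m x ≤ h x := by
  unfold RINS.lo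
  rcases hc.lo x hx with h2 | h2
  · exact max_le h1 h2
  · exact max_le h1 (h2.trans h1)

theorem Ctl.le_hi {N : Set Pt} {h : Hg} (hc : Ctl N w d m h) {x : Pt} (hx : x ∈ N)
    (h1 : h x ≤ m) : h x ≤ RINS.hi w d m x := by
  unfold RINS.hi
  rcases hc.hi x hx with h2 | h2
  · exact le_min h1 h2
  · exact le_min h1 (h1.trans h2)

theorem Ctl.mono {N N' : Set Pt} (hN : N' ⊆ N) {h : Hg} (hc : Ctl N w d m h) : Ctl N' w d m h :=
  ⟨fun x hx => hc.lo x (hN hx), fun x hx => hc.hi x (hN hx)⟩

theorem Ctl.down {N : Set Pt} {m' : ℤ} (hm : m' ≤ m) {h : Hg} (hc : Ctl N w d m h) :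
    Ctl N w d m' h :=
  ⟨fun x hx => (hc.lo x hx).imp id fun a => a.trans (by linarith),
    fun x hx => (hc.hi x hx).imp id fun a => hm.trans a⟩

/-- Where `lo` is above `-m` it is a lower bound for all the configurations. -/
theorem Ctl.lo_le' {N : Set Pt} {h : Hg} (hc : Ctl N w d m h) {x : Pt} (hx : x ∈ N)
    (h1 : -m < RINS.lo w d m x) : RINS.lo w d m x ≤ h x := by
  unfold RINS.lo at *
  rcases max_choice (-m) (w x - 2 * d x) with h3 | h3
  · rw [h3] at h1; exact absurd h1 (lt_irrefl _)
  · rw [h3] at h1 ⊢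
    rcases hc.lo x hx with h2 | h2
    · exact h2
    · exact absurd h1 (not_lt.2 h2)

end Vale.Agent.P153.R2.RINS
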