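import Vale.Agent.P153.R2.RINS.Ext
import Vale.Agent.P153.R2.FKGK.Pos

/-!
# P153-R2, block RINS: freezing the interface of a smaller domain

`l`, `l'`: least extensions with the bounds `m`, `m + 2`. The law `Pf` on `D` with the modulus of
`h + m + 1` on the interface `D ∩ ebd D'` as small as possible has smaller moments than the law
with the data `l` on `D`, and on `D'` it is between the laws with the data `l'` and `l`.
-/

namespace Vale.Agent.P153.R2.RINS

open Set Relation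
open Vale.Agent.P153
open Vale.Agent.P153.Topo (Conn)

/-- The frozen data. -/
noncomputable def Jf (D D' : Set Pt) (l : Hg) (m : ℤ) : Pt → Set ℤ :=
  rpl (exa D l) (D ∩ ebd D') (fun x => {a | |a - (-(m + 1))| ≤ l x + m + 1})

/-- Basic data: finite domain, bounded exact data, extremal extensions. -/
structure Env (V : Set Pt) (η : Hg) (m : ℤ) (l l' : Hg) : Prop where
  fin : V.Finite
  mo : Odd m
  m0 : 0 ≤ m
  bd : ∀ x ∈ ebd V, |η x| ≤ m
  hl : IsLeast (Sm V η m) l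
  hl' : IsLeast (Sm V η (m + 2)) l'

variable {V D D' : Set Pt} {η l l' : Hg} {m : ℤ}

namespace Env

theorem ge (E : Env V η m l l') {x : Pt} (hx : x ∈ nb V) : -m ≤ l x := by
  rcases hx with hx | hx
  · exact IsLeast.ge E.hl hx
  · rw [IsLeast.off E.hl hx.1]
    exact (abs_le.1 (E.bd x hx)).1

theorem nb_sub (hD : D ⊆ V) : nb D ⊆ nb V := by
  rintro x (hx | ⟨hx, y, hy, hyx⟩)
  · exact Or.inl (hD hx)
  · by_cases h : x ∈ V
    · exact Or.inl h
    · exact Or.inr ⟨h, y, hD hy, hyx⟩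

theorem l_le (E : Env V η m l l') (x : Pt) : l' x ≤ l x := least_anti E.hl E.hl' (by linarith) x

theorem eq_max (E : Env V η m l l') {x : Pt} (hx : x ∈ V) : l x = max (-m) (l' x) :=
  least_eq E.mo E.m0 E.bd E.hl E.hl' (by linarith) hx

theorem lv (E : Env V η m l l') (hD : D ⊆ V) : Lv D (exa D l) (-(m + 1)) 1 := by
  have hne : (XC D l).Nonempty := ⟨l, IsLeast.mem_XC E.hl hD⟩
  refine ⟨E.mo.add_odd odd_one |>.neg, Or.inl rfl, dat_exa (E.fin.subset hD) l, hne, fun x => ?_⟩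
  unfold exa
  by_cases hx : x ∈ D
  · rw [if_pos hx]
    exact Or.inl (Sd_univ _ _)
  · rw [if_neg hx]
    by_cases hxb : x ∈ nb D
    · left
      apply Sd_single
      have := E.ge (nb_sub hD hxb)
      linarith
    · exact Or.inr ⟨hxb, Set.subsingleton_singleton⟩

theorem ifin (E : Env V η m l l') (hD : D ⊆ V) : (D ∩ ebd D').Finite :=
  (E.fin.subset hD).inter_of_left _

theorem l_mem (E : Env V η m l l') (hD : D ⊆ V) : l ∈ Cfg D (Jf D D' l m) := by
  have h0 := IsLeast.mem_XC E.hl hD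
  have h1 := h0
  rw [mem_XC] at h1
  refine ⟨h1.1, fun x => ?_, fun x hx y hxy => h1.2.2 x y ⟨hxy, Or.inl hx⟩⟩
  unfold Jf
  by_cases hx : x ∈ D ∩ ebd D'
  · rw [rpl_in hx]
    have := E.ge (Or.inl (hD hx.1))
    show |l x - (-(m + 1))| ≤ l x + m + 1
    rw [abs_of_nonneg (by linarith)]
    linarith
  · rw [rpl_out hx]
    exact h0.2.1 x

theorem cmp (E : Env V η m l l') (hD : D ⊆ V) : Cmp D (Jf D D' l m) (exa D l) (-(m + 1)) 1 := by
  refine Cmp_rpl_le (E.lv hD) (E.ifin hD) (fun x hx => ?_) (fun x hx => ?_) ⟨l, E.l_mem hD⟩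
  · have e : exa D l x = univ := by
      unfold exa
      rw [if_pos hx.1]
    rw [e]
    have h1 := SdLe_near (Sd_univ (-(m + 1)) 1) (l x + m + 1) (fun h => by
      exfalso
      have hge := E.ge (Or.inl (hD hx.1))
      have h2 := h (-(m + 1) - 1) ⟨trivial, by
        show |(-(m + 1) - 1 : ℤ) - -(m + 1)| ≤ l x + m + 1
        rw [show (-(m + 1) - 1 : ℤ) - -(m + 1) = -1 by ring]
        simp only [abs_neg, abs_one]
        linarith⟩ ((E.mo.add_odd odd_one).neg.sub_odd odd_one)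
      linarith)
    rwa [univ_inter] at h1
  · refine (Set.finite_Icc (-(m + 1) - (l x + m + 1)) (-(m + 1) + (l x + m + 1))).subset ?_
    intro a ha
    have := abs_le.1 (show |a - (-(m + 1))| ≤ l x + m + 1 from ha)
    exact ⟨by linarith [this.1], by linarith [this.2]⟩

/-- Freezing lowers the moments of `h + m + 1`. -/
theorem frz (E : Env V η m l l') (hD : D ⊆ V) {k : ℕ} {Z : Finset Pt} (hZ : ∀ x ∈ Z, x ∈ nb D)
    {φ : Fin k → Pt → ℝ} (hφ : ∀ i, ∀ x ∈ Z, 0 ≤ φ i x) :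
    Ex (Cfg D (Jf D D' l m)) (pm (-(m + 1)) 1 Z φ) ≤ Ex (XC D l) (pm (-(m + 1)) 1 Z φ) :=
  md_mom0 (E.cmp hD) hZ hφ

theorem Jf_univ (hD' : D' ⊆ D) {x : Pt} (hx : x ∈ D') : Jf D D' l m x = univ := by
  unfold Jf
  rw [rpl_out fun h => h.2.1 hx]
  unfold exa
  rw [if_pos (hD' hx)]

theorem Jf_out {x : Pt} (hx : x ∉ D) : Jf D D' l m x = {l x} := by
  unfold Jf
  rw [rpl_out fun h => hx h.1]
  unfold exa
  rw [if_neg hx]

theorem Jf_if {x : Pt} (hx : x ∈ D) (hx' : x ∈ ebd D') :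
    Jf D D' l m x = {a | |a - (-(m + 1))| ≤ l x + m + 1} := by
  have h : x ∈ D ∩ ebd D' := ⟨hx, hx'⟩
  unfold Jf
  rw [rpl_in h]

/-- The frozen law is below the law with the data `l` on `D'`. -/
theorem frz_le (E : Env V η m l l') (hD : D ⊆ V) (hD' : D' ⊆ D) {F : Hg → ℝ} (hF : DepOn D' F)
    (hm : Monotone F) : Ex (Cfg D (Jf D D' l m)) F ≤ Ex (XC D' l) F := by
  refine le_high (E.cmp hD).dI hD' (fun x hx => Jf_univ hD' hx) ⟨l, E.l_mem hD⟩
    (IsLeast.odd E.hl) ⟨l, IsLeast.mem_XC E.hl (hD'.trans hD)⟩ (fun h hh x hx => ?_) hF hm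
  have h1 := hh.2.1 x
  by_cases hxD : x ∈ D
  · rw [Jf_if hxD hx] at h1
    have := abs_le.1 (show |h x - (-(m + 1))| ≤ l x + m + 1 from h1)
    linarith [this.2]
  · rw [Jf_out hxD] at h1
    exact le_of_eq h1

/-- The frozen law is above the law with the data `l'` on `D'`. -/
theorem le_frz (E : Env V η m l l') (hD : D ⊆ V) (hD' : D' ⊆ D) {F : Hg → ℝ} (hF : DepOn D' F)
    (hm : Monotone F) : Ex (XC D' l') F ≤ Ex (Cfg D (Jf D D' l m)) F := by
  refine low_le (E.cmp hD).dI hD' (fun x hx => Jf_univ hD' hx) ⟨l, E.l_mem hD⟩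
    (IsLeast.odd E.hl') ⟨l', IsLeast.mem_XC E.hl' (hD'.trans hD)⟩ (fun h hh x hx => ?_) hF hm
  have h1 := hh.2.1 x
  by_cases hxD : x ∈ D
  · rw [Jf_if hxD hx] at h1
    have h2 := abs_le.1 (show |h x - (-(m + 1))| ≤ l x + m + 1 from h1)
    have h3 : l' x ≤ max (h x) (-(m + 2)) := by
      refine least_le (E.mo.add_even even_two) E.hl' hD hh.1 (Cfg.lipV hh) (fun y hy => ?_) hxD
      have h4 := hh.2.1 y
      rw [Jf_out hy.1] at h4
      rw [show h y = l y from h4]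
      exact E.l_le y
    have h5 := E.eq_max (hD hxD)
    have h6 := E.ge (Or.inl (hD hxD))
    rcases max_choice (h x) (-(m + 2)) with h7 | h7
    · rwa [h7] at h3
    · rw [h7] at h3
      -- `l' x ≤ -(m + 2)`, so `l x = -m` and `-m - 2 ≤ h x`
      have h8 : l x = -m := by
        rw [h5]
        exact max_eq_left (by linarith)
      rw [h8] at h2
      linarith [h2.1]
  · rw [Jf_out hxD] at h1
    rw [show h x = l x from h1]
    exact E.l_le x

/-- Comparison of the laws with the data `l` and `l'`. -/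
theorem XC_l_le (E : Env V η m l l') (hD : D ⊆ V) {F : Hg → ℝ} (hF : DepOn D F)
    (hm : Monotone F) : Ex (XC D l') F ≤ Ex (XC D l) F :=
  XC_le (E.fin.subset hD) (IsLeast.odd E.hl') (IsLeast.odd E.hl) (fun x _ => E.l_le x)
    ⟨l', IsLeast.mem_XC E.hl' hD⟩ ⟨l, IsLeast.mem_XC E.hl hD⟩ hF hm

end Env

end Vale.Agent.P153.R2.RINS
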