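import Vale.Agent.P153.R2.RINS.Refl
import Vale.Agent.P153.R2.RINS.Frz

/-!
# P153-R2, block RINS: exploration of the low cluster of the part of `V` off `D₁`

`Kc ℓ V D₁ h`: the vertices joined to `V \ D₁` by `{h ≤ ℓ}` in `D₁`; `Dh`: the part of `V` off this
cluster and its neighbours which is joined to `D₃`. If the cluster does not meet `D₂ ⊇ V ∩ nb D₃`,
the conditional law on `Dh` is above the law with the least data `l`.
-/

namespace Vale.Agent.P153.R2.RINS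

open Set Relation
open Vale.Agent.P153
open Vale.Agent.P153.Topo (Conn)

/-- The explored cluster. -/
def Kc (ℓ : ℤ) (V D₁ : Set Pt) (h : Hg) : Set Pt := clu ℓ D₁ (V \ D₁) h

/-- The unexplored domain (the part joined to `D₃`). -/
def Dh (ℓ : ℤ) (V D₁ D₃ : Set Pt) (h : Hg) : Set Pt := Cl (V \ nb (Kc ℓ V D₁ h)) D₃

/-- The cluster does not meet `D₂`. -/
def gd (ℓ : ℤ) (V D₁ D₂ : Set Pt) : Set Hg := {h | ∀ x ∈ Kc ℓ V D₁ h, x ∉ D₂}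

variable {ℓ : ℤ} {V D₁ D₂ D₃ : Set Pt} {h h' g η l : Hg} {m : ℤ}

/-- The domains. -/
structure Dom3 (V D₁ D₂ D₃ : Set Pt) : Prop where
  s1 : D₁ ⊆ V
  s2 : D₂ ⊆ D₁
  s3 : ∀ x ∈ nb D₃, x ∈ V → x ∈ D₂

theorem Dom3.s3' (H : Dom3 V D₁ D₂ D₃) (hV : D₃ ⊆ V) : D₃ ⊆ D₂ :=
  fun x hx => H.s3 x (Or.inl hx) (hV hx)

theorem Kc_sub (hD : D₁ ⊆ V) : Kc ℓ V D₁ h ⊆ V := by
  intro x hx
  rcases clu_sub hx with h1 | h1
  · exact h1.1
  · exact hD h1.1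

theorem Dh_sub : Dh ℓ V D₁ D₃ h ⊆ V \ nb (Kc ℓ V D₁ h) := by
  rintro y ⟨x, _, hxy⟩
  exact hxy.right_mem

theorem Dh_sub_D1 : Dh ℓ V D₁ D₃ h ⊆ D₁ := by
  intro x hx
  have h1 := Dh_sub hx
  by_contra h2
  exact h1.2 (Or.inl (sub_clu ⟨h1.1, h2⟩))

theorem D3_sub_Dh (H : Dom3 V D₁ D₂ D₃) (hV : D₃ ⊆ V) (hg : h ∈ gd ℓ V D₁ D₂) :
    D₃ ⊆ Dh ℓ V D₁ D₃ h := by
  intro x hx
  refine ⟨x, hx, Conn.refl ⟨hV hx, ?_⟩⟩
  rintro (h1 | ⟨_, y, hy, hyx⟩)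
  · exact hg x h1 (H.s3 x (Or.inl hx) (hV hx))
  · refine hg y hy (H.s3 y ?_ (Kc_sub H.s1 hy))
    by_cases h3 : y ∈ D₃
    · exact Or.inl h3
    · exact Or.inr ⟨h3, x, hx, Topo.adj_symm hyx⟩

theorem Kc_eq (hh : ∀ x, x ∉ Dh ℓ V D₁ D₃ h → h' x = h x) (_ : D₁ ⊆ V) :
    Kc ℓ V D₁ h' = Kc ℓ V D₁ h := by
  apply clu_congr
  · intro x hxD hx
    rcases clu_sub hx with h1 | h1
    · exact Or.inr h1
    · left
      rw [hh x fun h2 => (Dh_sub h2).2 (Or.inl hx)]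
      exact h1.2
  · intro x hx y hyD hxy hy
    have : y ∈ nb (Kc ℓ V D₁ h) := by
      by_cases h3 : y ∈ Kc ℓ V D₁ h
      · exact Or.inl h3
      · exact Or.inr ⟨h3, x, hx, hxy⟩
    rw [hh y fun h2 => (Dh_sub h2).2 this] at hy
    exact hy

theorem Dh_eq (hh : ∀ x, x ∉ Dh ℓ V D₁ D₃ h → h' x = h x) (hD : D₁ ⊆ V) :
    Dh ℓ V D₁ D₃ h' = Dh ℓ V D₁ D₃ h := by
  unfold Dh
  rw [Kc_eq hh hD]

/-- Boundary values of the unexplored domain. -/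
theorem Dh_bd {x : Pt} (hx : x ∈ ebd (Dh ℓ V D₁ D₃ h)) (hxV : x ∈ V) : x ∈ D₁ ∧ ℓ < h x := by
  obtain ⟨hx1, z, hz, hzx⟩ := hx
  have hz' := Dh_sub hz
  have h1 : x ∈ nb (Kc ℓ V D₁ h) := by
    by_contra hcon
    apply hx1
    obtain ⟨y, hy, hyz⟩ := hz
    exact ⟨y, hy, hyz.tail hzx ⟨hxV, hcon⟩⟩
  have h2 : x ∉ Kc ℓ V D₁ h := by
    intro h3
    apply hz'.2
    by_cases h4 : z ∈ Kc ℓ V D₁ h
    · exact Or.inl h4
    · exact Or.inr ⟨h4, x, h3, Topo.adj_symm hzx⟩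
  have h3 : x ∈ D₁ := by
    by_contra h4
    exact h2 (sub_clu ⟨hxV, h4⟩)
  refine ⟨h3, ?_⟩
  by_contra h5
  push Not at h5
  rcases h1 with h6 | ⟨_, y, hy, hyx⟩
  · exact h2 h6
  · exact h2 (clu_step hy hyx h3 h5)

open Classical in
/-- `F`, averaged over the unexplored domain with the data `l`, on the good event. -/
noncomputable def Av (ℓ : ℤ) (V D₁ D₂ D₃ : Set Pt) (l : Hg) (F : Hg → ℝ) : Hg → ℝ := fun h =>
  if h ∈ gd ℓ V D₁ D₂ then Ex (XC (Dh ℓ V D₁ D₃ h) l) F else F h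

/-- Fibres. -/
theorem expl_fiber (hD : D₁ ⊆ V) (hh : h ∈ XC D₁ g) :
    XC D₁ g ∩ {k | (Dh ℓ V D₁ D₃ k = Dh ℓ V D₁ D₃ h) ∧ ∀ x, x ∉ Dh ℓ V D₁ D₃ h → k x = h x} =
      XC (Dh ℓ V D₁ D₃ h) h := by
  rw [← XC_sub_fiber hh Dh_sub_D1]
  ext k
  constructor
  · rintro ⟨h1, _, h3⟩
    exact ⟨h1, h3⟩
  · rintro ⟨h1, h3⟩
    exact ⟨h1, Dh_eq h3 hD, h3⟩

/-- EXPLORATION, lower bound. -/
theorem expl_low (hV : V.Finite) (H : Dom3 V D₁ D₂ D₃) (hD3 : D₃ ⊆ V)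
    (hlo : ∀ x, Odd (l x)) (hlm : ∀ D ⊆ V, l ∈ XC D l) (hmo : Odd m)
    (hP : ∀ h ∈ XC D₁ g, ∀ x ∈ D₁, l x ≤ max (h x) (-m))
    (hB : ∀ y ∈ ebd D₁, y ∉ V → l y ≤ g y) {F : Hg → ℝ} (hF : DepOn D₃ F) (hm : Monotone F) :
    Ex (XC D₁ g) (Av (-(m + 2)) V D₁ D₂ D₃ l F) ≤ Ex (XC D₁ g) F := by
  classical
  have hfin := XC_finite (hV.subset H.s1) g
  set φ : Hg → Set Pt × Hg := fun h => (Dh (-(m + 2)) V D₁ D₃ h,
    fun x => if x ∈ Dh (-(m + 2)) V D₁ D₃ h then 0 else h x) with hφ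
  have hφe : ∀ h k : Hg, φ k = φ h ↔ (Dh (-(m + 2)) V D₁ D₃ k = Dh (-(m + 2)) V D₁ D₃ h) ∧
      ∀ x, x ∉ Dh (-(m + 2)) V D₁ D₃ h → k x = h x := by
    intro h k
    rw [hφ]
    simp only [Prod.mk.injEq]
    constructor
    · rintro ⟨e1, e2⟩
      refine ⟨e1, fun x hx => ?_⟩
      have := congrFun e2 x
      rwa [if_neg (by rwa [e1]), if_neg hx] at this
    · rintro ⟨e1, e2⟩
      refine ⟨e1, ?_⟩
      funext x
      rw [e1]
      by_cases hx : x ∈ Dh (-(m + 2)) V D₁ D₃ h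
      · rw [if_pos hx, if_pos hx]
      · rw [if_neg hx, if_neg hx]
        exact e2 x hx
  have key := Ex_le_of_fiber hfin φ (fun h => Av (-(m + 2)) V D₁ D₂ D₃ l F h - F h)
    (fun _ => 0) (fun _ _ _ _ _ => rfl) ?_
  · rw [Ex_sub, Ex_zero] at key
    linarith
  · intro a ha
    have e : XC D₁ g ∩ {b | φ b = φ a} = XC (Dh (-(m + 2)) V D₁ D₃ a) a := by
      rw [← expl_fiber H.s1 ha]
      congr 1
      ext b
      exact hφe a b
    rw [e, Ex_sub]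
    have hsub : Dh (-(m + 2)) V D₁ D₃ a ⊆ D₁ := Dh_sub_D1
    have hfa : ∀ k ∈ XC (Dh (-(m + 2)) V D₁ D₃ a) a, Kc (-(m + 2)) V D₁ k = Kc (-(m + 2)) V D₁ a ∧
        Dh (-(m + 2)) V D₁ D₃ k = Dh (-(m + 2)) V D₁ D₃ a := by
      intro k hk
      have h1 := (mem_XC.1 hk).2.1
      exact ⟨Kc_eq h1 H.s1, Dh_eq h1 H.s1⟩
    have hne : (XC (Dh (-(m + 2)) V D₁ D₃ a) a).Nonempty := ⟨a, by
      have := self_mem_XC (V' := Dh (-(m + 2)) V D₁ D₃ a) ha hsub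
      exact this⟩
    have hfin' := XC_finite ((hV.subset H.s1).subset hsub) a
    by_cases hg : a ∈ gd (-(m + 2)) V D₁ D₂
    · have e1 : Ex (XC (Dh (-(m + 2)) V D₁ D₃ a) a) (Av (-(m + 2)) V D₁ D₂ D₃ l F) =
          Ex (XC (Dh (-(m + 2)) V D₁ D₃ a) l) F := by
        rw [Ex_congr (G := fun _ => Ex (XC (Dh (-(m + 2)) V D₁ D₃ a) l) F)]
        · exact Ex_const hfin' hne _
        · intro k hk
          have h1 := hfa k hk
          unfold Av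
          rw [if_pos, h1.2]
          intro x hx
          rw [h1.1] at hx
          exact hg x hx
      rw [e1]
      have := XC_le (V := Dh (-(m + 2)) V D₁ D₃ a) (g := l) (g' := a)
        ((hV.subset H.s1).subset hsub) hlo (mem_XC.1 ha).1 (fun x hx => ?_)
        ⟨l, hlm _ (hsub.trans H.s1)⟩ hne (hF.mono (D3_sub_Dh H hD3 hg)) hm
      · linarith
      · by_cases hxV : x ∈ V
        · obtain ⟨h1, h2⟩ := Dh_bd hx hxV
          have h3 := hP a ha x h1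
          have h4 : -m ≤ a x := by
            obtain ⟨r, hr⟩ := (mem_XC.1 ha).1 x
            obtain ⟨q, hq⟩ := hmo
            omega
          rwa [max_eq_left h4] at h3
        · have h1 : x ∈ ebd D₁ := by
            obtain ⟨_, z, hz, hzx⟩ := hx
            exact adj_mem_ebd (hsub hz) (fun h2 => hxV (H.s1 h2)) hzx
          rw [(mem_XC.1 ha).2.1 x h1.1]
          exact hB x h1 hxV
    · have e1 : Ex (XC (Dh (-(m + 2)) V D₁ D₃ a) a) (Av (-(m + 2)) V D₁ D₂ D₃ l F) =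
          Ex (XC (Dh (-(m + 2)) V D₁ D₃ a) a) F := by
        apply Ex_congr
        intro k hk
        have h1 := hfa k hk
        unfold Av
        rw [if_neg]
        intro h2
        apply hg
        intro x hx
        rw [← h1.1] at hx
        exact h2 x hx
      rw [e1, sub_self]

end Vale.Agent.P153.R2.RINS
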