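import Vale.Agent.P153.R2.RINS.Ext

/-!
# P153-R2, block RINS: the least extension near walls of one height

As `least_add`, with a distance `d` which changes by at most one along the edges inside `V` only.
-/

namespace Vale.Agent.P153.R2.RINS

open Set Relation
open Vale.Agent.P153
open Vale.Agent.P153.Topo (Conn)

variable {V D : Set Pt} {η g h l l' : Hg} {m m' : ℤ}

/-- Minimum of `l'` and a function which is Lipschitz inside `V` and not too small next to the
walls. -/
theorem least_le_max {q : Hg} (hmo : Odd m') (hl : IsLeast (Sm V η m') l')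
    (hqo : ∀ x ∈ V, Odd (q x)) (hqL : ∀ x ∈ V, ∀ y ∈ V, Adj x y → |q x - q y| ≤ 2)
    (d : Pt → ℤ) (hd : ∀ x ∈ V, ∀ y ∈ V, Adj x y → d y ≤ d x + 1)
    (hq1 : ∀ x ∈ V, -m' ≤ q x ∨ -m' ≤ 2 * d x - m')
    (hwall : ∀ x ∈ V, ∀ y, y ∉ V → Adj x y → η y - 2 ≤ q x ∨ η y - 2 ≤ 2 * d x - m') {x : Pt}
    (hxV : x ∈ V) : l' x ≤ max (q x) (2 * d x - m') := by
  classical
  have hlL := IsLeast.lip hl
  have hl0 := mem_XC.1 hl.1.1
  set f : Hg := fun z => if z ∈ V then
    min (l' z) (max (q z) (2 * d z - m')) else l' z with hf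
  have fin : ∀ x, x ∈ V → f x = min (l' x) (max (q x) (2 * d x - m')) := fun x hx => if_pos hx
  have fout : ∀ x, x ∉ V → f x = l' x := fun x hx => if_neg hx
  have key : ∀ x y, x ∈ V → Adj x y → |f x - f y| ≤ 2 := by
    intro x y hx hxy
    have h1 := hlL x y ⟨hxy, Or.inl hx⟩
    by_cases hy : y ∈ V
    · have h2 := hqL x hx y hy hxy
      have h3 : |(2 * d x - m') - (2 * d y - m')| ≤ 2 := by
        have a1 := hd x hx y hy hxy
        have a2 := hd y hy x hx (Topo.adj_symm hxy)
        rw [abs_le]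
        constructor <;> linarith
      rw [fin x hx, fin y hy]
      exact lip_min h1 (lip_max h2 h3)
    · rw [fin x hx, fout y hy, hl0.2.1 y hy]
      rw [hl0.2.1 y hy] at h1
      have h2 := abs_le.1 h1
      rw [abs_le]
      constructor
      · have h3 : η y - 2 ≤ max (q x) (2 * d x - m') := by
          rcases hwall x hx y hy hxy with h3 | h3
          · exact le_max_of_le_left h3
          · exact le_max_of_le_right h3
        have := le_min (show η y - 2 ≤ l' x by linarith [h2.1]) h3
        linarith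
      · have : min (l' x) (max (q x) (2 * d x - m')) ≤ l' x := min_le_left _ _
        linarith [h2.2]
  have hfm : f ∈ Sm V η m' := by
    refine ⟨mem_XC.2 ⟨fun x => ?_, fun x hx => ?_, fun x y hxy => ?_⟩, fun x hx => ?_⟩
    · by_cases hx : x ∈ V
      · rw [fin x hx]
        refine odd_min (hl0.1 x) (odd_max (hqo x hx) ?_)
        obtain ⟨k, hk⟩ := hmo
        exact ⟨d x - k - 1, by rw [hk]; ring⟩
      · rw [fout x hx]; exact hl0.1 x
    · rw [fout x hx]
      exact hl0.2.1 x hx
    · by_cases hx : x ∈ V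
      · exact key x y hx hxy.1
      · by_cases hy : y ∈ V
        · rw [abs_sub_comm]
          exact key y x hy (Topo.adj_symm hxy.1)
        · exact absurd hxy.2 (by tauto)
    · have h1 := IsLeast.ge hl hx
      have h2 := IsLeast.le hl hx
      rw [fin x hx, abs_le]
      refine ⟨le_min h1 ?_, (min_le_left _ _).trans h2⟩
      rcases hq1 x hx with h3 | h3
      · exact le_max_of_le_left h3
      · exact le_max_of_le_right h3
  have h1 := hl.2 hfm x
  rw [fin x hxV] at h1
  exact h1.trans (min_le_right _ _)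

/-- The reflected data `2 w - l'` (bound `m'`) are above the configurations below `m`, at the
vertices `x` at distance `m'` from the walls with other heights. -/
theorem least_add' {w : ℤ} (hmo : Odd m') (hl : IsLeast (Sm V η m') l') (hη : ∀ y ∈ ebd V, η y ≤ m')
    (hh : h ∈ XC V η) (hhm : ∀ x ∈ V, h x ≤ m) (hm : m + 2 ≤ m') (hw1 : -1 ≤ w)
    (d : Pt → ℤ) (hd : ∀ x ∈ V, ∀ y ∈ V, Adj x y → d y ≤ d x + 1) {x : Pt} (hx : d x = 0)
    (hxV : x ∈ V) (hwall : ∀ x ∈ V, ∀ y, y ∉ V → Adj x y → η y = w ∨ m' - 1 ≤ d x) :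
    l' x + h x ≤ 2 * w := by
  have hh0 := mem_XC.1 hh
  have key := least_le_max (q := fun z => 2 * w - h z) hmo hl (fun z _ => ?_)
    (fun x hx y hy hxy => ?_) d hd (fun z hz => Or.inl ?_) (fun z hz y hy hzy => ?_) hxV
  · rw [hx] at key
    rcases le_max_iff.1 key with h3 | h3
    · linarith
    · linarith [hhm x hxV]
  · obtain ⟨k, hk⟩ := hh0.1 z
    exact ⟨w - k - 1, by rw [hk]; ring⟩
  · have := abs_le.1 (hh0.2.2 x y ⟨hxy, Or.inl hx⟩)
    rw [abs_le]
    constructor <;> linarith [this.1, this.2]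
  · linarith [hhm z hz]
  · rcases hwall z hz y hy hzy with h3 | h3
    · left
      have := (abs_le.1 (hh0.2.2 z y ⟨hzy, Or.inl hz⟩)).2
      rw [hh0.2.1 y hy] at this
      rw [h3] at this ⊢
      linarith
    · right
      have := hη y (adj_mem_ebd hz hy hzy)
      linarith

/-- The least extension is below `w - 2` inside `V`, far from the walls with heights above `w`. -/
theorem least_lt' {w : ℤ} (hmo : Odd m') (hw : Odd w) (hl : IsLeast (Sm V η m') l')
    (hη : ∀ y ∈ ebd V, η y ≤ m') (hw1 : -m' ≤ w - 2)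
    (d : Pt → ℤ) (hd : ∀ x ∈ V, ∀ y ∈ V, Adj x y → d y ≤ d x + 1) {x : Pt} (hx : d x = 0)
    (hxV : x ∈ V) (hwall : ∀ x ∈ V, ∀ y, y ∉ V → Adj x y → η y ≤ w ∨ m' - 1 ≤ d x) :
    l' x ≤ w - 2 := by
  have key := least_le_max (q := fun _ => w - 2) hmo hl (fun z _ => ?_)
    (fun x hx y hy hxy => by simp) d hd (fun z hz => Or.inl hw1) (fun z hz y hy hzy => ?_) hxV
  · rw [hx] at key
    rcases le_max_iff.1 key with h3 | h3
    · exact h3
    · linarith
  · obtain ⟨k, hk⟩ := hw
    exact ⟨k - 1, by rw [hk]; ring⟩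
  · rcases hwall z hz y hy hzy with h3 | h3
    · left
      linarith
    · right
      have := hη y (adj_mem_ebd hz hy hzy)
      linarith

end Vale.Agent.P153.R2.RINS
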