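import Vale.Agent.P153.R2.RINS.Bads
import Vale.Agent.P153.R2.RINS.LeastB
import Vale.Agent.P153.R2.RINS.Comp
import Vale.Agent.P153.R2.GAPS.Three

/-!
# P153-R2, block RINS: the gap of the means on the outer domain
-/

namespace Vale.Agent.P153.R2.RINS

open Set Relation
open Vale.Agent.P153
open Vale.Agent.P153.Topo (Conn adj_symm)
open Vale.Agent.P153.R2.PLAN (Ring outer inner bx_mono)
open Vale.Agent.P153.R2.LOC (ds ds_adj mem_bx_iff)
open Vale.Agent.P153.R2.Gp (fp fp_in fp_out mean_le)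

variable {n k : ℕ} {V F D E T : Set Pt} {η g h l l' l'' u u' : Hg} {x₀ a x y z w p : Pt}
  {X : Fin n → Set Pt} {r r' r'' R r₀ R₀ ℓ : ℤ} {i : Fin n} {Z : Finset Pt} {φ : Fin k → Pt → ℝ}

theorem Pr_rf (hV : V.Finite) (w : ℤ) (g : Hg) (A : Set Hg) :
    Pr (XC V g) {h | rf w h ∈ A} = Pr (XC V (rf w g)) A := by
  classical
  rw [Pr_eq_Ex (XC_finite hV g), Pr_eq_Ex (XC_finite hV _), XC_rf]
  refine Ex_congr fun h _ => ?_
  simp only [ind, Set.mem_ofPred_eq]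

open Classical in
/-- A capped distance to the hull. -/
noncomputable def dh (V : Set Pt) (x₀ a : Pt) (r R₀ : ℤ) (z : Pt) : ℤ :=
  if z ∈ Wr V x₀ a R₀ then max 0 (min 4 (ds x₀ z - r)) else 4

theorem dh_nonneg : 0 ≤ dh V x₀ a r R₀ z := by
  unfold dh
  split_ifs
  · exact le_max_left _ _
  · norm_num

theorem dh_le : dh V x₀ a r R₀ z ≤ 4 := by
  unfold dh
  split_ifs
  · exact max_le (by norm_num) (min_le_left _ _)
  · norm_num

theorem dh_step (hR : r + 5 ≤ R₀) (_ : x ∈ V) (hy : y ∈ V) (hxy : Adj x y) :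
    dh V x₀ a r R₀ y ≤ dh V x₀ a r R₀ x + 1 := by
  classical
  have h1 := abs_le.1 (ds_adj (x₀ := x₀) hxy)
  by_cases hxW : x ∈ Wr V x₀ a R₀
  · by_cases hyW : y ∈ Wr V x₀ a R₀
    · unfold dh
      rw [if_pos hxW, if_pos hyW]
      omega
    · have h2 : R₀ < ds x₀ y := by
        by_contra h3
        push Not at h3
        exact hyW (Wr_step hxW hxy hy (mem_bx_iff.2 h3))
      unfold dh
      rw [if_pos hxW, if_neg hyW]
      omega
  · have : dh V x₀ a r R₀ x = 4 := by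
      unfold dh
      rw [if_neg hxW]
    have := dh_le (V := V) (x₀ := x₀) (a := a) (r := r) (R₀ := R₀) (z := y)
    omega

theorem dh_zero (hx : x ∈ Wr V x₀ a r) (hR : r ≤ R₀) : dh V x₀ a r R₀ x = 0 := by
  classical
  have h1 := mem_bx_iff.1 (Wr_sub hx).2
  unfold dh
  rw [if_pos (Wr_mono hR hx)]
  omega

theorem dh_far (hx : x ∉ Wr V x₀ a R₀) : dh V x₀ a r R₀ x = 4 := by
  unfold dh
  rw [if_neg hx]

namespace Geo

/-- The reflected data are above the greatest extension. -/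
theorem add_le (G : Geo V η x₀ a X r₀ R₀) (hR : r + 5 ≤ R₀)
    (hη : ∀ x, η x = 1 ∨ η x = -1) (hl : IsLeast (Sm V η 5) l'') (hu : u' ∈ Sm V η 3)
    (hx : x ∈ Wr V x₀ a r) : l'' x + u' x ≤ 2 := by
  have key := least_add' (m := 3) (w := 1) (by decide) hl
    (fun y _ => by rcases hη y with h | h <;> rw [h] <;> norm_num) hu.1
    (fun x hx => (abs_le.1 (hu.2 x hx)).2) (by norm_num) (by norm_num)
    (dh V x₀ a r R₀) (fun x hx y hy hxy => dh_step hR hx hy hxy)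
    (dh_zero hx (by omega)) (Wr_sub hx).1 (fun x hx y hy hxy => ?_)
  · simpa using key
  · by_cases h1 : x ∈ Wr V x₀ a R₀
    · exact Or.inl (G.good x h1 y hy hxy)
    · right
      rw [dh_far h1]
      norm_num

end Geo

/-- The least extension is below `-1`. -/
theorem least_neg (hη : ∀ x, η x = 1 ∨ η x = -1) (hl : IsLeast (Sm V η 5) l'')
    (hx : x ∈ V) : l'' x ≤ -1 := by
  have key := least_lt' (w := 1) (by decide) odd_one hl
    (fun y _ => by rcases hη y with h | h <;> rw [h] <;> norm_num) (by norm_num)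
    (fun _ => 0) (fun _ _ _ _ _ => by norm_num) rfl hx
    (fun x _ y _ _ => by left; rcases hη y with h | h <;> rw [h] <;> norm_num)
  simpa using key

/-- **GAP.** -/
theorem gapD (hS : LOC.S_land 4) (n k : ℕ) {C γ : ℝ} (hC : 0 ≤ C) (hγ : 0 < γ) :
    ∃ t : ℤ, 1 ≤ t ∧ ∃ ρ₀ : ℤ, 1 ≤ ρ₀ ∧
    ∀ (V : Set Pt) (η : Hg) (x₀ a : Pt) (X : Fin n → Set Pt) (r₀ R₀ r : ℤ) (l' l'' u u' : Hg)
      (Z : Finset Pt) (φ : Fin k → Pt → ℝ),
      Geo V η x₀ a X r₀ R₀ → r₀ ≤ r → ρ₀ ≤ r + 1 → t * (r + 1) ≤ R₀ → r + 5 ≤ R₀ →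
      (∀ x, η x = 1 ∨ η x = -1) → Env V η 3 l' l'' → Env V (-η) 1 (-u) (-u') →
      (∀ x ∈ Z, x ∈ A0 V a X) → (∀ i, ∀ x ∈ Z, 0 ≤ φ i x) →
      (∀ i, Ex (XC (Dr V x₀ a X r) l'') (fun h => Yv (-2) Z φ h i ^ 2) ≤ C) →
      (∀ i, Ex (XC (Dr V x₀ a X r) u') (fun h => Yv (-2) Z φ h i ^ 2) ≤ C) →
      ∀ i, Ex (XC (Dr V x₀ a X r) u') (fun h => Yv (-2) Z φ h i) -
        Ex (XC (Dr V x₀ a X r) l'') (fun h => Yv (-2) Z φ h i) ≤ γ := by
  classical
  obtain ⟨K, hK0, hK⟩ : ∃ K : ℝ, 0 < K ∧ (C + C) / K ≤ γ / 2 := by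
    refine ⟨(C + C) / (γ / 2) + 1, by positivity, ?_⟩
    rw [div_le_iff₀ (by positivity)]
    have : (C + C) / (γ / 2) * (γ / 2) = C + C := by field_simp
    nlinarith
  set ε : ℝ := min (1 / (2 * ((n : ℝ) ^ 2 + 1))) (γ / (8 * K * ((n : ℝ) ^ 2 + 1))) with hεd
  have hε : 0 < ε := by
    apply lt_min <;> positivity
  have he1 : (n : ℝ) ^ 2 * ε < 1 := by
    have h1 : ε ≤ 1 / (2 * ((n : ℝ) ^ 2 + 1)) := min_le_left _ _
    have h2 : (n : ℝ) ^ 2 * ε ≤ (n : ℝ) ^ 2 * (1 / (2 * ((n : ℝ) ^ 2 + 1))) :=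
      mul_le_mul_of_nonneg_left h1 (by positivity)
    have h3 : (n : ℝ) ^ 2 * (1 / (2 * ((n : ℝ) ^ 2 + 1))) < 1 := by
      rw [mul_one_div, div_lt_one (by positivity)]
      nlinarith [sq_nonneg (n : ℝ)]
    linarith
  have he2 : K * (4 * ((n : ℝ) ^ 2 * ε)) ≤ γ / 2 := by
    have h1 : ε ≤ γ / (8 * K * ((n : ℝ) ^ 2 + 1)) := min_le_right _ _
    have h2 : ((n : ℝ) ^ 2 + 1) * ε ≤ γ / (8 * K) := by
      calc ((n : ℝ) ^ 2 + 1) * ε ≤ ((n : ℝ) ^ 2 + 1) * (γ / (8 * K * ((n : ℝ) ^ 2 + 1))) :=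
            mul_le_mul_of_nonneg_left h1 (by positivity)
        _ = γ / (8 * K) := by field_simp
    have h3 : (n : ℝ) ^ 2 * ε ≤ γ / (8 * K) := by nlinarith
    calc K * (4 * ((n : ℝ) ^ 2 * ε)) ≤ K * (4 * (γ / (8 * K))) := by gcongr
      _ = γ / 2 := by
        field_simp
        norm_num
  obtain ⟨t, ht, ρ₀, hρ₀, hc⟩ := crossD hS hε
  refine ⟨t, ht, ρ₀, hρ₀, fun V η x₀ a X r₀ R₀ r l' l'' u u' Z φ G hr0 hρ htR h5 hη E2 U1 hZ hφ
    hm1 hm2 i => ?_⟩
  have hrR : r ≤ R₀ := by omega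
  set D := Dr V x₀ a X r with hD
  have hDV : D ⊆ V := fun x hx => (Dr_sub hx).1
  have hfin : D.Finite := G.fin.subset hDV
  set N := ebd D ∩ V with hN
  have hNW : N ⊆ Wr V x₀ a r := G.hull_sub
  have hu : u' ∈ Sm V η 3 := by
    have := Sm_neg U1.hl'.1
    norm_num at this
    exact this
  have hu0 := mem_XC.1 hu.1
  have hl : IsLeast (Sm V η 5) l'' := by
    have := E2.hl'
    norm_num at this
    exact this
  have hl0 := mem_XC.1 hl.1.1
  have hηb : ∀ y, -1 ≤ η y ∧ η y ≤ 1 := fun y => by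
    rcases hη y with h | h <;> rw [h] <;> norm_num
  have hHull : Hull 1 D N l'' := ⟨IsLeast.odd hl, odd_one, by
    rw [Set.disjoint_left]
    exact fun x hx hx' => hx'.1.1 hx, fun x hx => by
      have := least_neg hη hl hx.2
      linarith⟩
  have hne : (XC D l'').Nonempty := l_ne' E2 hDV
  have hT : (Z : Set Pt) ⊆ A0 V a X := fun x hx => hZ x hx
  -- the two bad events
  have c1 : Pr (XC D l'') (good 1 D N (Z : Set Pt) l'')ᶜ ≤ (n : ℝ) ^ 2 * ε := by
    refine (Pr_mono fun h _ hh => ?_).trans (hc n V η l'' x₀ a X r₀ R₀ r r R₀ G hr0 le_rfl hρ htR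
      le_rfl hne (fun z hz => ?_) fun x hx z hz hxz => ?_)
    · exact G.good_bd hrR le_rfl hT hl0.2.1 hh
    · by_cases hzV : z ∈ V
      · exact IsLeast.ge hl hzV
      · rw [hl0.2.1 z hzV]
        linarith [(hηb z).1]
    · rw [hl0.2.1 z hz, G.good x hx z hz hxz]
  have hne' : (XC D (fp 1 N l'')).Nonempty := by
    by_contra hcon
    have h1 : ∀ h ∈ XC D l'', h ∉ good 1 D N (Z : Set Pt) l'' := fun h hh hgood =>
      hcon ⟨rf 1 (Sr 1 D N h), rf_mem (Sr_mem hHull hh hgood)⟩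
    have h2 : Pr (XC D l'') (good 1 D N (Z : Set Pt) l'')ᶜ = 1 := by
      have h3 := Pr_add_compl (XC_finite hfin l'') hne (good 1 D N (Z : Set Pt) l'')
      have h4 : Pr (XC D l'') (good 1 D N (Z : Set Pt) l'') = 0 := by
        unfold Pr
        have : XC D l'' ∩ good 1 D N (Z : Set Pt) l'' = ∅ := by
          ext h
          constructor
          · rintro ⟨h5, h6⟩; exact absurd h6 (h1 h h5)
          · intro h5; exact absurd h5 (Set.notMem_empty _)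
        rw [this]
        simp
      linarith
    linarith
  have c2 : Pr (XC D (fp 1 N l'')) {h | rf 1 h ∈ (good 1 D N (Z : Set Pt) l'')ᶜ} ≤
      (n : ℝ) ^ 2 * ε := by
    rw [Pr_rf hfin]
    have e : rf 1 (fp 1 N l'') = rfo 1 N l'' := rf_rf 1 _
    rw [e]
    have hne1 : (XC D (rfo 1 N l'')).Nonempty := by
      obtain ⟨k, hk⟩ := hne'
      have := rf_mem (w := 1) hk
      rw [e] at this
      exact ⟨_, this⟩
    refine (Pr_mono fun h _ hh => ?_).trans (hc n V η (rfo 1 N l'') x₀ a X r₀ R₀ r r R₀ G hr0 le_rfl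
      hρ htR le_rfl hne1 (fun z hz => ?_) fun x hx z hz hxz => ?_)
    · exact G.good_bd hrR le_rfl hT hl0.2.1 hh
    · by_cases hzN : z ∈ N
      · rw [rfo_in hzN]
        exact IsLeast.ge hl hzN.2
      · have hzV : z ∉ V := fun h => hzN ⟨hz, h⟩
        rw [rfo_out hzN, hl0.2.1 z hzV]
        linarith [(hηb z).2]
    · rw [rfo_out (fun h => hz h.2), hl0.2.1 z hz, G.good x hx z hz hxz]
      norm_num
  -- comparison with the reflected data
  have hYm : Monotone fun h => Yv (-2) Z φ h i := Yv_mono hφ i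
  have hZD : (Z : Set Pt) ⊆ D := by
    intro x hx
    rcases hT hx with h | h
    · obtain ⟨j, hj⟩ := mem_iUnion.1 h
      exact Ur_sub_Dr (G.X_sub_Ur hrR hj)
    · exact ⟨x, Or.inr h, Conn.refl ⟨h.1, fun h1 => h.2 (G.Wr_sub_Va h1)⟩⟩
  have hdepZ : ∀ f : ℝ → ℝ, DepOn (Z : Set Pt) fun h => f (Yv (-2) Z φ h i) := fun f =>
    Yv_dep_comp fun y => f (y i)
  have hclm : Monotone fun h => cl K (Yv (-2) Z φ h i) := fun h g hhg =>
    max_le_max le_rfl (min_le_min le_rfl (hYm hhg))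
  have hle : Ex (XC D u') (fun h => cl K (Yv (-2) Z φ h i)) ≤
      Ex (XC D (fp 1 N l'')) (fun h => cl K (Yv (-2) Z φ h i)) := by
    refine XC_le hfin hu0.1 (fun x => rf_odd (fun y => ?_) x) (fun y hy => ?_)
      ⟨u', mem_XC.2 ⟨hu0.1, fun _ _ => rfl, hu0.2.2.mono hDV⟩⟩ hne'
      ((hdepZ (cl K)).mono hZD) hclm
    · exact hHull.rfo.odd y
    · show u' y ≤ fp 1 N l'' y
      by_cases hyN : y ∈ N
      · rw [fp_in hyN]
        linarith [G.add_le h5 hη hl hu (hNW hyN)]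
      · have hyV : y ∉ V := fun h => hyN ⟨hy, h⟩
        rw [fp_out hyN, hl0.2.1 y hyV, hu0.2.1 y hyV]
  have htv := tv_le hfin hHull (g' := fp 1 N l'') (T := (Z : Set Pt)) (fun x => rfl) hne hne'
    (Ψ := fun h => cl K (Yv (-2) Z φ h i) / K) (hdepZ fun y => cl K y / K) (fun h => by
      rw [abs_div, abs_of_pos hK0, div_le_one hK0]
      exact abs_cl hK0.le _)
  have hdiv : ∀ S : Set Hg, Ex S (fun h => cl K (Yv (-2) Z φ h i) / K) =
      Ex S (fun h => cl K (Yv (-2) Z φ h i)) / K := by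
    intro S
    rw [div_eq_mul_inv, mul_comm, ← Ex_const_mul]
    refine Ex_congr fun h _ => ?_
    rw [div_eq_mul_inv, mul_comm]
  rw [hdiv, hdiv, ← sub_div, abs_div, abs_of_pos hK0, div_le_iff₀ hK0] at htv
  have h6 : Ex (XC D u') (fun h => cl K (Yv (-2) Z φ h i)) -
      Ex (XC D l'') (fun h => cl K (Yv (-2) Z φ h i)) ≤ γ / 2 := by
    have h7 := (abs_le.1 htv).2
    have h8 : 2 * (Pr (XC D l'') (good 1 D N (Z : Set Pt) l'')ᶜ +
        Pr (XC D (fp 1 N l'')) {h | rf 1 h ∈ (good 1 D N (Z : Set Pt) l'')ᶜ}) * K ≤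
        K * (4 * ((n : ℝ) ^ 2 * ε)) := by nlinarith
    linarith
  -- truncation (one-sided)
  have t1 : Ex (XC D u') (fun h => Yv (-2) Z φ h i) ≤
      Ex (XC D u') (fun h => cl K (Yv (-2) Z φ h i)) + C / K := by
    have : Ex (XC D u') (fun h => Yv (-2) Z φ h i) ≤
        Ex (XC D u') (fun h => cl K (Yv (-2) Z φ h i) + K⁻¹ * Yv (-2) Z φ h i ^ 2) :=
      Ex_mono fun h _ => by
        have := (abs_le.1 (cl_err hK0 (Yv (-2) Z φ h i))).2
        rw [div_eq_mul_inv, mul_comm] at this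
        linarith
    rw [Ex_add, Ex_const_mul] at this
    have h9 : K⁻¹ * Ex (XC D u') (fun h => Yv (-2) Z φ h i ^ 2) ≤ C / K := by
      rw [div_eq_mul_inv, mul_comm C]
      exact mul_le_mul_of_nonneg_left (hm2 i) (by positivity)
    linarith
  have t2 : Ex (XC D l'') (fun h => cl K (Yv (-2) Z φ h i)) ≤
      Ex (XC D l'') (fun h => Yv (-2) Z φ h i) + C / K := by
    have : Ex (XC D l'') (fun h => cl K (Yv (-2) Z φ h i)) ≤
        Ex (XC D l'') (fun h => Yv (-2) Z φ h i + K⁻¹ * Yv (-2) Z φ h i ^ 2) :=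
      Ex_mono fun h _ => by
        have := (abs_le.1 (cl_err hK0 (Yv (-2) Z φ h i))).1
        rw [div_eq_mul_inv, mul_comm] at this
        linarith
    rw [Ex_add, Ex_const_mul] at this
    have h9 : K⁻¹ * Ex (XC D l'') (fun h => Yv (-2) Z φ h i ^ 2) ≤ C / K := by
      rw [div_eq_mul_inv, mul_comm C]
      exact mul_le_mul_of_nonneg_left (hm1 i) (by positivity)
    linarith
  rw [add_div] at hK
  linarith

end Vale.Agent.P153.R2.RINS
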