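import Vale.Agent.P153.R2.PLAN.Ring

/-!
# P153-R2, block RINS: mouths

`W`, `U`, `O` disjoint connected sets of vertices, `W` finite; every vertex adjacent to both ends of
an edge between `W` and `U` belongs to `W ∪ U ∪ O`. Then the edges between `W` and `U` form one
chain. In particular the vertices of `W` adjacent to `U` form a connected set.
-/

namespace Vale.Agent.P153.R2.RINS

open Set Relation
open Vale.Agent.P153
open Vale.Agent.P153.Topo (Conn adj_iff adj_symm)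
open Vale.Agent.P153.R2.PLAN

/-- Correction of finitely many singular triangles next to `O`. -/
theorem exists_corr {O : Set (ℤ × ℤ)} (hO : Cn O) {a₀ : ℤ × ℤ} (ha₀ : a₀ ∈ O) {s₀ : Tri}
    (hs₀ : a₀ ∈ cor s₀) (T : Finset Tri) (hT : ∀ s ∈ T, ∃ a ∈ O, a ∈ cor s) :
    ∃ d : ℤ × ℤ → ℤ × ℤ → ZMod 2, (∀ x y, d x y = d y x) ∧
      (∀ r, PLAN.tsum d r = ∑ s ∈ T, tind s r + (T.card : ZMod 2) * tind s₀ r) ∧
      ∀ x y, x ∉ O → y ∉ O → d x y = 0 := by
  classical
  induction T using Finset.induction_on with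
  | empty =>
    refine ⟨fun _ _ => 0, fun _ _ => rfl, fun r => ?_, fun _ _ _ _ => rfl⟩
    obtain ⟨⟨i, j⟩, b⟩ := r
    cases b <;> simp [PLAN.tsum]
  | insert s T hs ih =>
    obtain ⟨d, d1, d2, d3⟩ := ih fun r hr => hT r (Finset.mem_insert_of_mem hr)
    obtain ⟨a, ha, has⟩ := hT s (Finset.mem_insert_self s T)
    obtain ⟨e, e1, e2, e3⟩ := hug_of_conn (hO a ha a₀ ha₀) has hs₀
    refine ⟨fun x y => d x y + e x y, fun x y => ?_, fun r => ?_, fun x y hx hy => ?_⟩
    · show d x y + e x y = d y x + e y x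
      rw [d1 x y, e1 x y]
    · rw [tsum_add, d2, e2, Finset.sum_insert hs, Finset.card_insert_of_notMem hs]
      push_cast
      ring
    · show d x y + e x y = 0
      rw [d3 x y hx hy, e3 x y hx hy, add_zero]

/-- Parity of the number of singular triangles of a finite cochain. -/
theorem even_sing {c : ℤ × ℤ → ℤ × ℤ → ZMod 2} {T : Finset Tri} {B : ℤ}
    (hB : ∀ x y, B < |x.1| ∨ B < |x.2| → B < |y.1| ∨ B < |y.2| → c x y = 0)
    (hT : ∀ r, PLAN.tsum c r = ∑ s ∈ T, tind s r) (hTB : ∀ s ∈ T, |s.1.1| ≤ B + 1 ∧ |s.1.2| ≤ B + 1) :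
    (T.card : ZMod 2) = 0 := by
  classical
  by_cases hB0 : 0 ≤ B
  · set n : ℕ := (2 * B + 6).toNat with hn
    have hnB : (n : ℤ) = 2 * B + 6 := by omega
    have g := green c (-B - 3) (-B - 3) n n
    have r0 : ∑ i ∈ Finset.range n, (c (-B - 3 + i, -B - 3) (-B - 3 + i + 1, -B - 3) +
        c (-B - 3 + i, -B - 3 + n) (-B - 3 + i + 1, -B - 3 + n)) = 0 := by
      refine Finset.sum_eq_zero fun i _ => ?_
      rw [hB _ _ (Or.inr (by dsimp only; rw [lt_abs]; omega))
        (Or.inr (by dsimp only; rw [lt_abs]; omega)),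
        hB _ _ (Or.inr (by dsimp only; rw [lt_abs]; omega))
        (Or.inr (by dsimp only; rw [lt_abs]; omega)), add_zero]
    have r1 : ∑ j ∈ Finset.range n, (c (-B - 3, -B - 3 + j) (-B - 3, -B - 3 + j + 1) +
        c (-B - 3 + n, -B - 3 + j) (-B - 3 + n, -B - 3 + j + 1)) = 0 := by
      refine Finset.sum_eq_zero fun i _ => ?_
      rw [hB _ _ (Or.inl (by dsimp only; rw [lt_abs]; omega))
        (Or.inl (by dsimp only; rw [lt_abs]; omega)),
        hB _ _ (Or.inl (by dsimp only; rw [lt_abs]; omega))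
        (Or.inl (by dsimp only; rw [lt_abs]; omega)), add_zero]
    rw [r0, r1, add_zero] at g
    have l1 : ∑ i ∈ Finset.range n, ∑ j ∈ Finset.range n,
        (PLAN.tsum c ((-B - 3 + i, -B - 3 + j), false) + PLAN.tsum c ((-B - 3 + i, -B - 3 + j), true)) =
        ∑ s ∈ T, (1 : ZMod 2) := by
      have e1 : ∀ i j : ℕ, PLAN.tsum c ((-B - 3 + i, -B - 3 + j), false) +
          PLAN.tsum c ((-B - 3 + i, -B - 3 + j), true) =
          ∑ s ∈ T, (tind s ((-B - 3 + i, -B - 3 + j), false) +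
            tind s ((-B - 3 + i, -B - 3 + j), true)) := by
        intro i j
        rw [hT, hT, ← Finset.sum_add_distrib]
      simp only [e1]
      have e2 : ∀ i : ℕ, ∑ j ∈ Finset.range n, ∑ s ∈ T,
          (tind s ((-B - 3 + i, -B - 3 + j), false) +
            tind s ((-B - 3 + i, -B - 3 + j), true)) = ∑ s ∈ T, ∑ j ∈ Finset.range n,
          (tind s ((-B - 3 + i, -B - 3 + j), false) +
            tind s ((-B - 3 + i, -B - 3 + j), true)) := fun i => Finset.sum_comm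
      simp only [e2]
      rw [Finset.sum_comm]
      refine Finset.sum_congr rfl fun s hs => ?_
      rw [sum_tind, if_pos]
      have h1 := hTB s hs
      rw [abs_le, abs_le] at h1
      omega
    rw [g, Finset.sum_const, nsmul_eq_mul, mul_one] at l1
    exact l1.symm
  · -- the cochain vanishes
    push Not at hB0
    have h0 : ∀ x y, c x y = 0 := fun x y => hB x y
      (Or.inl (lt_of_lt_of_le hB0 (abs_nonneg _))) (Or.inl (lt_of_lt_of_le hB0 (abs_nonneg _)))
    rcases T.eq_empty_or_nonempty with h1 | ⟨s, hs⟩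
    · rw [h1]; simp
    · exfalso
      have h2 := hT s
      have h3 : PLAN.tsum c s = 0 := by
        obtain ⟨⟨i, j⟩, b⟩ := s
        cases b <;> simp [PLAN.tsum, h0]
      rw [h3] at h2
      have h4 : ∑ r ∈ T, tind r s = 1 := by
        rw [Finset.sum_eq_single s]
        · unfold tind
          rw [if_pos rfl]
        · intro b _ hb
          unfold tind
          rw [if_neg fun h => hb h.symm]
        · intro h
          exact absurd hs h
      rw [h4] at h2
      exact absurd h2 (by decide)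

theorem Conn_const {S : Set (ℤ × ℤ)} {F : ℤ × ℤ → ZMod 2}
    (h : ∀ x ∈ S, ∀ y ∈ S, Adj x y → F x = F y) {x y : ℤ × ℤ} (hxy : Conn S x y) : F x = F y :=
  Conn.ind (S := S) (fun z => F x = F z) rfl
    (fun u w hu huw hw ih => ih.trans (h u hu.right_mem w hw huw)) hxy

/-- **MOUTH.** -/
theorem mouth {O W U : Set (ℤ × ℤ)} (hO : Cn O) (hW : Cn W) (hU : Cn U) (hWU : Disjoint W U)
    (hWO : Disjoint W O) (hUO : Disjoint U O) (hfin : W.Finite)
    (hcl : ∀ w ∈ W, ∀ u ∈ U, Adj w u → ∀ t, Adj w t → Adj u t → t ∈ W ∨ t ∈ U ∨ t ∈ O)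
    {w₀ u₀ w₁ u₁ : ℤ × ℤ} (hw₀ : w₀ ∈ W) (hu₀ : u₀ ∈ U) (h₀ : Adj w₀ u₀) (hw₁ : w₁ ∈ W)
    (hu₁ : u₁ ∈ U) (h₁ : Adj w₁ u₁) : ReflTransGen (Turn W U) (w₀, u₀) (w₁, u₁) := by
  classical
  have hdis : ∀ z, z ∈ W → z ∈ U → False := fun z h1 h2 => (Set.disjoint_left.mp hWU) h1 h2
  have hdO : ∀ z, z ∈ W → z ∉ O := fun z h1 h2 => (Set.disjoint_left.mp hWO) h1 h2
  have hdU : ∀ z, z ∈ U → z ∉ O := fun z h1 h2 => (Set.disjoint_left.mp hUO) h1 h2
  have hz2 : (1 : ZMod 2) + 1 = 0 := rfl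
  set C : Set ((ℤ × ℤ) × (ℤ × ℤ)) := {e | ReflTransGen (Turn W U) (w₀, u₀) e} with hC
  have hCm : ∀ e ∈ C, e.1 ∈ W ∧ e.2 ∈ U ∧ Adj e.1 e.2 := by
    intro e he
    rcases ReflTransGen.cases_tail he with rfl | ⟨f, -, hf⟩
    · exact ⟨hw₀, hu₀, h₀⟩
    · exact hf.1
  have hCt : ∀ e ∈ C, ∀ f, Turn W U e f → f ∈ C := fun e he f hf => he.tail hf
  set c : ℤ × ℤ → ℤ × ℤ → ZMod 2 := fun x y => if (x, y) ∈ C ∨ (y, x) ∈ C then 1 else 0 with hc
  have hcs : ∀ x y, c x y = c y x := by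
    intro x y
    simp only [hc]
    congr 1
    exact propext or_comm
  have hc0 : ∀ x y, (x, y) ∉ C → (y, x) ∉ C → c x y = 0 := by
    intro x y h1 h2; simp only [hc]; rw [if_neg (by tauto)]
  have hc1 : ∀ x y, (x, y) ∈ C → c x y = 1 := by
    intro x y h1; simp only [hc]; rw [if_pos (Or.inl h1)]
  have hc2 : ∀ x y, (y, x) ∈ C → c x y = 1 := by
    intro x y h1; simp only [hc]; rw [if_pos (Or.inr h1)]
  have hcW : ∀ x y, x ∉ W → y ∉ W → c x y = 0 := fun x y hx hy =>
    hc0 x y (fun h => hx (hCm _ h).1) (fun h => hy (hCm _ h).1)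
  -- a triangle with an edge in `C` and no corner in `O`
  have tri : ∀ x y z, Adj x y → Adj y z → Adj x z → (x, y) ∈ C → z ∉ O →
      c x y + c x z + c y z = 0 := by
    intro x y z hxy hyz hxz hm hzO
    obtain ⟨m1, m2, -⟩ := hCm _ hm
    dsimp only at m1 m2
    rcases hcl x m1 y m2 hxy z hxz hyz with hz | hz | hz
    · have e1 : (z, y) ∈ C := hCt _ hm _ ⟨⟨hz, m2, adj_symm hyz⟩, Or.inr ⟨rfl, hxz⟩⟩
      rw [hc1 _ _ hm, hc2 _ _ e1, hc0 x z]
      · rw [add_zero]; exact hz2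
      · intro h; exact hdis _ hz (hCm _ h).2.1
      · intro h; exact hdis _ m1 (hCm _ h).2.1
    · have e1 : (x, z) ∈ C := hCt _ hm _ ⟨⟨m1, hz, hxz⟩, Or.inl ⟨rfl, hyz⟩⟩
      rw [hc1 _ _ hm, hc1 _ _ e1, hc0 y z]
      · rw [add_zero]; exact hz2
      · intro h; exact hdis _ (hCm _ h).1 m2
      · intro h; exact hdis _ (hCm _ h).1 hz
    · exact absurd hz hzO
  have tri' : ∀ x y z, Adj x y → Adj y z → Adj x z → x ∉ O → y ∉ O → z ∉ O →
      c x y + c x z + c y z = 0 := by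
    intro x y z hxy hyz hxz ox oy oz
    have t1 := fun h => tri x y z hxy hyz hxz h oz
    have t2 := fun h => tri y x z (adj_symm hxy) hxz hyz h oz
    have t3 := fun h => tri x z y hxz (adj_symm hyz) hxy h oy
    have t4 := fun h => tri z x y (adj_symm hxz) hxy (adj_symm hyz) h oy
    have t5 := fun h => tri y z x hyz (adj_symm hxz) (adj_symm hxy) h ox
    have t6 := fun h => tri z y x (adj_symm hyz) (adj_symm hxy) (adj_symm hxz) h ox
    by_cases a1 : (x, y) ∈ C
    · exact t1 a1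
    by_cases a2 : (y, x) ∈ C
    · have := t2 a2
      rw [hcs y x] at this
      rw [← this]; ring
    by_cases a3 : (x, z) ∈ C
    · have := t3 a3
      rw [hcs z y] at this
      rw [← this]; ring
    by_cases a4 : (z, x) ∈ C
    · have := t4 a4
      rw [hcs z x, hcs z y] at this
      rw [← this]; ring
    by_cases a5 : (y, z) ∈ C
    · have := t5 a5
      rw [hcs y x, hcs z x] at this
      rw [← this]; ring
    by_cases a6 : (z, y) ∈ C
    · have := t6 a6
      rw [hcs z y, hcs z x, hcs y x] at this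
      rw [← this]; ring
    rw [hc0 _ _ a1 a2, hc0 _ _ a3 a4, hc0 _ _ a5 a6]; ring
  -- singular triangles have a corner in `O`
  have sing : ∀ r, PLAN.tsum c r ≠ 0 → ∃ a ∈ O, a ∈ cor r := by
    rintro ⟨⟨i, j⟩, b⟩ h
    by_contra hcon
    push Not at hcon
    apply h
    cases b
    · simp only [cor_false, Finset.mem_insert, Finset.mem_singleton] at hcon
      have := tri' (i, j) (i + 1, j) (i, j + 1) (by rw [adj_iff]; dsimp only; omega)
        (by rw [adj_iff]; dsimp only; omega) (by rw [adj_iff]; dsimp only; omega)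
        (fun h1 => hcon _ h1 (by simp)) (fun h1 => hcon _ h1 (by simp))
        (fun h1 => hcon _ h1 (by simp))
      simpa [PLAN.tsum] using this
    · simp only [cor_true, Finset.mem_insert, Finset.mem_singleton] at hcon
      have := tri' (i + 1, j) (i, j + 1) (i + 1, j + 1) (by rw [adj_iff]; dsimp only; omega)
        (by rw [adj_iff]; dsimp only; omega) (by rw [adj_iff]; dsimp only; omega)
        (fun h1 => hcon _ h1 (by simp)) (fun h1 => hcon _ h1 (by simp))
        (fun h1 => hcon _ h1 (by simp))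
      simpa [PLAN.tsum] using this
  -- bounds
  obtain ⟨B, hB⟩ : ∃ B : ℤ, ∀ w ∈ W, |w.1| ≤ B ∧ |w.2| ≤ B := by
    refine ⟨∑ w ∈ hfin.toFinset, (|w.1| + |w.2|), fun w hw => ?_⟩
    have h2 : |w.1| + |w.2| ≤ ∑ w ∈ hfin.toFinset, (|w.1| + |w.2|) :=
      Finset.single_le_sum (f := fun w : ℤ × ℤ => |w.1| + |w.2|)
        (fun _ _ => add_nonneg (abs_nonneg _) (abs_nonneg _)) (by simpa using hw)
    have h3 := abs_nonneg w.1
    have h4 := abs_nonneg w.2
    constructor <;> linarith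
  have hBc : ∀ x y, B < |x.1| ∨ B < |x.2| → B < |y.1| ∨ B < |y.2| → c x y = 0 := by
    intro x y hx hy
    refine hcW x y (fun h => ?_) (fun h => ?_)
    · have := hB x h
      omega
    · have := hB y h
      omega
  have hsB : ∀ r : Tri, PLAN.tsum c r ≠ 0 → |r.1.1| ≤ B + 1 ∧ |r.1.2| ≤ B + 1 := by
    rintro ⟨⟨i, j⟩, b⟩ h
    by_contra hcon
    apply h
    have hcon' : B + 1 < |i| ∨ B + 1 < |j| := by
      by_contra h2
      push Not at h2
      exact hcon h2
    have key : ∀ p q : ℤ × ℤ, (p.1 = i ∨ p.1 = i + 1) → (p.2 = j ∨ p.2 = j + 1) →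
        (q.1 = i ∨ q.1 = i + 1) → (q.2 = j ∨ q.2 = j + 1) → c p q = 0 := by
      intro p q h1 h2 h3 h4
      apply hBc
      · rcases hcon' with h5 | h5
        · left
          rw [lt_abs] at h5 ⊢
          omega
        · right
          rw [lt_abs] at h5 ⊢
          omega
      · rcases hcon' with h5 | h5
        · left
          rw [lt_abs] at h5 ⊢
          omega
        · right
          rw [lt_abs] at h5 ⊢
          omega
    cases b
    · simp [PLAN.tsum, key]
    · simp [PLAN.tsum, key]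
  have hTfin : {r : Tri | PLAN.tsum c r ≠ 0}.Finite := by
    refine ((((Set.finite_Icc (-(B + 1)) (B + 1)).prod (Set.finite_Icc (-(B + 1)) (B + 1))).prod
      (Set.finite_univ (α := Bool)))).subset ?_
    rintro ⟨⟨i, j⟩, b⟩ hr
    have := hsB _ hr
    dsimp only at this
    rw [abs_le, abs_le] at this
    exact ⟨⟨⟨this.1.1, this.1.2⟩, ⟨this.2.1, this.2.2⟩⟩, trivial⟩
  set T := hTfin.toFinset with hT
  have hTm : ∀ r, r ∈ T ↔ PLAN.tsum c r ≠ 0 := fun r => by rw [hT, Set.Finite.mem_toFinset]; rfl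
  have hz : ∀ a : ZMod 2, a ≠ 0 → a = 1 := by decide
  have hsum : ∀ r, PLAN.tsum c r = ∑ s ∈ T, tind s r := by
    intro r
    by_cases hr : r ∈ T
    · rw [Finset.sum_eq_single r]
      · rw [hz _ ((hTm r).1 hr)]
        unfold tind
        rw [if_pos rfl]
      · intro b _ hb
        unfold tind
        rw [if_neg fun h => hb h.symm]
      · intro h
        exact absurd hr h
    · rw [Finset.sum_eq_zero]
      · by_contra h
        exact hr ((hTm r).2 h)
      · intro s hs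
        unfold tind
        rw [if_neg]
        rintro rfl
        exact hr hs
  have heven := even_sing hBc hsum fun s hs => hsB s ((hTm s).1 hs)
  -- the correction
  obtain ⟨d, d1, d2, d3⟩ : ∃ d : ℤ × ℤ → ℤ × ℤ → ZMod 2, (∀ x y, d x y = d y x) ∧
      (∀ r, PLAN.tsum d r = ∑ s ∈ T, tind s r) ∧ ∀ x y, x ∉ O → y ∉ O → d x y = 0 := by
    rcases T.eq_empty_or_nonempty with h | ⟨s₀, hs₀⟩
    · refine ⟨fun _ _ => 0, fun _ _ => rfl, fun r => ?_, fun _ _ _ _ => rfl⟩
      rw [h, Finset.sum_empty]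
      obtain ⟨⟨i, j⟩, b⟩ := r
      cases b <;> simp [PLAN.tsum]
    · obtain ⟨a₀, ha₀, has₀⟩ := sing s₀ ((hTm s₀).1 hs₀)
      obtain ⟨d, d1, d2, d3⟩ := exists_corr hO ha₀ has₀ T fun s hs => sing s ((hTm s).1 hs)
      refine ⟨d, d1, fun r => ?_, d3⟩
      rw [d2, heven, zero_mul, add_zero]
  set e : ℤ × ℤ → ℤ × ℤ → ZMod 2 := fun x y => c x y + d x y with he
  have het : ∀ r, PLAN.tsum e r = 0 := by
    intro r
    rw [he, tsum_add, hsum, d2]
    exact z2 _
  obtain ⟨F, hF⟩ := exists_cob e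
    (fun x y => by
      show c x y + d x y = c y x + d y x
      rw [hcs x y, d1 x y])
    (fun i j => het ((i, j), false)) (fun i j => het ((i, j), true))
  have hcW2 : ∀ x ∈ W, ∀ y ∈ W, e x y = 0 := by
    intro x hx y hy
    show c x y + d x y = 0
    rw [d3 x y (hdO x hx) (hdO y hy), add_zero]
    exact hc0 _ _ (fun h => hdis _ hy (hCm _ h).2.1) (fun h => hdis _ hx (hCm _ h).2.1)
  have hcU2 : ∀ x ∈ U, ∀ y ∈ U, e x y = 0 := by
    intro x hx y hy
    show c x y + d x y = 0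
    rw [d3 x y (hdU x hx) (hdU y hy), add_zero]
    exact hc0 _ _ (fun h => hdis _ (hCm _ h).1 hx) (fun h => hdis _ (hCm _ h).1 hy)
  have h2z : (2 : ZMod 2) = 0 := rfl
  have cW : F w₀ = F w₁ := by
    refine Conn_const (S := W) (fun x hx y hy hxy => ?_) (hW w₀ hw₀ w₁ hw₁)
    have h3 := hF x y hxy
    rw [hcW2 x hx y hy] at h3
    linear_combination - h3 - F y * h2z
  have cU : F u₀ = F u₁ := by
    refine Conn_const (S := U) (fun x hx y hy hxy => ?_) (hU u₀ hu₀ u₁ hu₁)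
    have h3 := hF x y hxy
    rw [hcU2 x hx y hy] at h3
    linear_combination - h3 - F y * h2z
  have e0 : c w₀ u₀ = 1 := hc1 _ _ ReflTransGen.refl
  have ee : ∀ w ∈ W, ∀ u ∈ U, Adj w u → c w u = F w + F u := by
    intro w hw u hu hwu
    have h3 := hF w u hwu
    have h4 : e w u = c w u := by
      show c w u + d w u = c w u
      rw [d3 w u (hdO w hw) (hdU u hu), add_zero]
    rw [← h3, h4]
  by_contra hcon
  have h5 : c w₁ u₁ = 0 := hc0 _ _ hcon (fun h => hdis _ hw₁ (hCm _ h).2.1)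
  rw [ee w₁ hw₁ u₁ hu₁ h₁, ← cW, ← cU, ← ee w₀ hw₀ u₀ hu₀ h₀, e0] at h5
  exact absurd h5 (by decide)

/-- The vertices of `W` adjacent to `U` form a connected set. -/
theorem mouth_inner {O W U : Set (ℤ × ℤ)} (hO : Cn O) (hW : Cn W) (hU : Cn U)
    (hWU : Disjoint W U) (hWO : Disjoint W O) (hUO : Disjoint U O) (hfin : W.Finite)
    (hcl : ∀ w ∈ W, ∀ u ∈ U, Adj w u → ∀ t, Adj w t → Adj u t → t ∈ W ∨ t ∈ U ∨ t ∈ O) :
    Cn (inner W U) := by
  rintro x ⟨hx, u, hu, hxu⟩ y ⟨hy, v, hv, hyv⟩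
  exact (turn_joined (mouth hO hW hU hWU hWO hUO hfin hcl hx hu hxu hy hv hyv) ⟨hx, hu, hxu⟩).2

/-- The vertices of `U` adjacent to `W` form a connected set. -/
theorem mouth_outer {O W U : Set (ℤ × ℤ)} (hO : Cn O) (hW : Cn W) (hU : Cn U)
    (hWU : Disjoint W U) (hWO : Disjoint W O) (hUO : Disjoint U O) (hfin : W.Finite)
    (hcl : ∀ w ∈ W, ∀ u ∈ U, Adj w u → ∀ t, Adj w t → Adj u t → t ∈ W ∨ t ∈ U ∨ t ∈ O) :
    Cn (outer W U) := by
  rintro x ⟨hx, u, hu, hxu⟩ y ⟨hy, v, hv, hyv⟩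
  exact (turn_joined (mouth hO hW hU hWU hWO hUO hfin hcl hu hx hxu hv hy hyv)
    ⟨hu, hx, hxu⟩).1

end Vale.Agent.P153.R2.RINS
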