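import Vale.Agent.P153.R2.RINS.Expl
import Vale.Agent.P153.R2.RINS.Mouth
import Vale.Agent.P153.R2.PLAN.Box

/-!
# P153-R2, block RINS: geometry of the rough domain

`Wr V x₀ a r`: component of `a` in `V ∩ bx x₀ r`. `X i`: connected sets (targets) off this
component. `Dr r`: the union of the components of `V \ Wr r` which meet a target or are not joined
to `a` in `V`.
-/

namespace Vale.Agent.P153.R2.RINS

open Set Relation
open Vale.Agent.P153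
open Vale.Agent.P153.Topo (Conn adj_symm)
open Vale.Agent.P153.R2.PLAN (Ring outer inner bx_mono)

/-- The component of `a` in the box. -/
def Wr (V : Set Pt) (x₀ a : Pt) (r : ℤ) : Set Pt := Cl (V ∩ bx x₀ r) {a}

/-- The component of the target in `V \ Wr r`. -/
def Ur {n : ℕ} (V : Set Pt) (x₀ a : Pt) (X : Fin n → Set Pt) (r : ℤ) (i : Fin n) : Set Pt :=
  Cl (V \ Wr V x₀ a r) (X i)

/-- The targets and the other components of `V`. -/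
def A0 {n : ℕ} (V : Set Pt) (a : Pt) (X : Fin n → Set Pt) : Set Pt :=
  (⋃ i, X i) ∪ (V \ Cl V {a})

/-- The outer domain. -/
def Dr {n : ℕ} (V : Set Pt) (x₀ a : Pt) (X : Fin n → Set Pt) (r : ℤ) : Set Pt :=
  Cl (V \ Wr V x₀ a r) (A0 V a X)

variable {n : ℕ} {V : Set Pt} {η : Hg} {x₀ a x y z w p : Pt} {X : Fin n → Set Pt}
  {r r' r'' R r₀ R₀ : ℤ} {i : Fin n}

theorem mem_Cl_single {S : Set Pt} {a y : Pt} : y ∈ Cl S {a} ↔ Conn S a y := by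
  constructor
  · rintro ⟨x, hx, h⟩
    rwa [mem_singleton_iff.1 hx] at h
  · exact fun h => ⟨a, rfl, h⟩

theorem Cl_step {S A : Set Pt} {x y : Pt} (hx : x ∈ Cl S A) (hxy : Adj x y) (hy : y ∈ S) :
    y ∈ Cl S A := by
  obtain ⟨z, hz, h⟩ := hx
  exact ⟨z, hz, h.tail hxy hy⟩

theorem Cl_conn {S A : Set Pt} {x y : Pt} (hx : x ∈ Cl S A) (hxy : Conn S x y) :
    y ∈ Cl S A := by
  obtain ⟨z, hz, h⟩ := hx
  exact ⟨z, hz, h.trans hxy⟩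

theorem Cl_sub {S A : Set Pt} : Cl S A ⊆ S := by
  rintro y ⟨z, _, h⟩
  exact h.right_mem

theorem Cl_mono {S S' A : Set Pt} (h : S ⊆ S') : Cl S A ⊆ Cl S' A := by
  rintro y ⟨z, hz, h1⟩
  exact ⟨z, hz, h1.mono h⟩

/-- A path inside a cluster. -/
theorem conn_in_Cl {S A : Set Pt} {x y : Pt} (hx : x ∈ Cl S A) (hxy : Conn S x y) :
    Conn (Cl S A) x y :=
  Conn.ind (S := S) (fun z => Conn (Cl S A) x z) (Conn.refl hx)
    (fun _ _ _ huv hv ih => ih.tail huv (Cl_step ih.right_mem huv hv)) hxy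

theorem Cn_Cl_of {S A : Set Pt} (hA : ∀ x ∈ A, ∀ y ∈ A, x ∈ S → y ∈ S → Conn S x y) :
    Cn (Cl S A) := by
  rintro x ⟨z, hz, h1⟩ y ⟨z', hz', h2⟩
  have h3 : Conn S x y := (h1.symm.trans (hA z hz z' hz' h1.left_mem h2.left_mem)).trans h2
  exact conn_in_Cl ⟨z, hz, h1⟩ h3

theorem Cn_Cl_single {S : Set Pt} {a : Pt} : Cn (Cl S {a}) := by
  refine Cn_Cl_of ?_
  intro x hx y hy hxS _
  rw [mem_singleton_iff] at hx hy
  rw [hx, hy]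
  rw [hx] at hxS
  exact Conn.refl hxS

theorem Wr_sub : Wr V x₀ a r ⊆ V ∩ bx x₀ r := Cl_sub

theorem Wr_mono (h : r ≤ r') : Wr V x₀ a r ⊆ Wr V x₀ a r' :=
  Cl_mono fun _ hx => ⟨hx.1, bx_mono h hx.2⟩

theorem Wr_step (hx : x ∈ Wr V x₀ a r) (hxy : Adj x y) (hyV : y ∈ V) (hy : y ∈ bx x₀ r) :
    y ∈ Wr V x₀ a r := Cl_step hx hxy ⟨hyV, hy⟩

theorem Cn_Wr : Cn (Wr V x₀ a r) := Cn_Cl_single

theorem bx_adj (hx : x ∈ bx x₀ r) (hxy : Adj x y) : y ∈ bx x₀ (r + 1) := by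
  rw [Topo.adj_iff] at hxy
  unfold bx at *
  simp only [Set.mem_ofPred_eq, abs_le] at *
  omega

/-- A vertex of `V` next to `Wr r` belongs to `Wr (r + 1)`. -/
theorem Wr_next (hx : x ∈ Wr V x₀ a r) (hxy : Adj x y) (hyV : y ∈ V) (hr : r + 1 ≤ r') :
    y ∈ Wr V x₀ a r' :=
  Wr_mono hr (Wr_step (Wr_mono (by linarith) hx) hxy hyV (bx_adj (Wr_sub hx).2 hxy))

theorem Dr_sub : Dr V x₀ a X r ⊆ V \ Wr V x₀ a r := Cl_sub

theorem Ur_sub : Ur V x₀ a X r i ⊆ V \ Wr V x₀ a r := Cl_sub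

theorem Ur_sub_Dr : Ur V x₀ a X r i ⊆ Dr V x₀ a X r := by
  rintro y ⟨z, hz, h⟩
  exact ⟨z, Or.inl (mem_iUnion.2 ⟨i, hz⟩), h⟩

theorem Ur_anti (h : r ≤ r') : Ur V x₀ a X r' i ⊆ Ur V x₀ a X r i :=
  Cl_mono fun _ hx => ⟨hx.1, fun h1 => hx.2 (Wr_mono h h1)⟩

theorem Dr_anti (h : r ≤ r') : Dr V x₀ a X r' ⊆ Dr V x₀ a X r :=
  Cl_mono fun _ hx => ⟨hx.1, fun h1 => hx.2 (Wr_mono h h1)⟩

/-- The vertices of `V` next to the outer domain belong to `Wr r`. -/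
theorem ebd_Dr (hx : x ∈ Dr V x₀ a X r) (hxy : Adj x y) (hyV : y ∈ V)
    (hy : y ∉ Dr V x₀ a X r) : y ∈ Wr V x₀ a r := by
  by_contra h
  exact hy (Cl_step hx hxy ⟨hyV, h⟩)

/-- The domains satisfy the conditions of the exploration. -/
theorem dom3 (h12 : r ≤ r') (h23 : r' + 1 ≤ r'') :
    Dom3 V (Dr V x₀ a X r) (Dr V x₀ a X r') (Dr V x₀ a X r'') := by
  refine ⟨fun x hx => (Dr_sub hx).1, Dr_anti h12, ?_⟩
  rintro x (hx | ⟨hx, y, hy, hyx⟩) hxV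
  · exact Dr_anti (by linarith) hx
  · have hx2 : x ∉ Wr V x₀ a r' := fun h1 =>
      (Dr_sub hy).2 (Wr_next h1 (adj_symm hyx) (Dr_sub hy).1 h23)
    exact Cl_step (Dr_anti (r := r') (by linarith) hy) hyx ⟨hxV, hx2⟩

/-- The hypotheses on the domain. -/
structure Geo (V : Set Pt) (η : Hg) (x₀ a : Pt) (X : Fin n → Set Pt) (r₀ R₀ : ℤ) : Prop where
  fin : V.Finite
  cc : CC V
  x0V : x₀ ∉ V
  adj : ∃ u, Adj u x₀ ∧ Conn (V ∩ bx x₀ r₀) a u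
  good : ∀ x ∈ Wr V x₀ a R₀, ∀ y, y ∉ V → Adj x y → η y = 1
  bad : ∀ x ∈ V, ∀ y, y ∉ V → Adj x y → η y ≠ 1 → x ∈ A0 V a X
  XV : ∀ i, X i ⊆ V
  cX : ∀ i, Cn (X i)
  XW : ∀ i, Disjoint (X i) (Wr V x₀ a R₀)

namespace Geo

theorem aW (G : Geo V η x₀ a X r₀ R₀) (hr : r₀ ≤ r) : a ∈ Wr V x₀ a r := by
  obtain ⟨u, _, h⟩ := G.adj
  exact Wr_mono hr (mem_Cl_single.2 (Conn.refl h.left_mem))

theorem uW (G : Geo V η x₀ a X r₀ R₀) (hr : r₀ ≤ r) : ∃ u ∈ Wr V x₀ a r, Adj u x₀ := by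
  obtain ⟨u, h1, h⟩ := G.adj
  exact ⟨u, Wr_mono hr (mem_Cl_single.2 h), h1⟩

theorem X_sub (G : Geo V η x₀ a X r₀ R₀) (hr : r ≤ R₀) : X i ⊆ V \ Wr V x₀ a r :=
  fun x hx => ⟨G.XV i hx, fun h => Set.disjoint_left.1 (G.XW i) hx (Wr_mono hr h)⟩

theorem X_sub_Ur (G : Geo V η x₀ a X r₀ R₀) (hr : r ≤ R₀) : X i ⊆ Ur V x₀ a X r i :=
  fun x hx => ⟨x, hx, Conn.refl (G.X_sub hr hx)⟩

theorem Cn_Ur (G : Geo V η x₀ a X r₀ R₀) (hr : r ≤ R₀) : Cn (Ur V x₀ a X r i) :=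
  Cn_Cl_of fun x hx y hy _ _ => (G.cX i x hx y hy).mono (G.X_sub hr)

/-- A vertex of the outer domain joined to `a` belongs to the component of a target. -/
theorem mem_Ur (_ : Geo V η x₀ a X r₀ R₀) (hx : x ∈ Dr V x₀ a X r) (hxa : x ∈ Cl V {a}) :
    ∃ i, x ∈ Ur V x₀ a X r i := by
  obtain ⟨z, hz, h⟩ := hx
  rcases hz with hz | hz
  · obtain ⟨i, hi⟩ := mem_iUnion.1 hz
    exact ⟨i, z, hi, h⟩
  · exfalso
    exact hz.2 (Cl_conn hxa (h.symm.mono fun _ hx => hx.1))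

theorem Wr_sub_Va (_ : Geo V η x₀ a X r₀ R₀) : Wr V x₀ a r ⊆ Cl V {a} :=
  Cl_mono fun _ hx => hx.1

/-- A vertex of the outer domain next to `Wr r'` belongs to the component of a target. -/
theorem mem_Ur_adj (G : Geo V η x₀ a X r₀ R₀) (hx : x ∈ Dr V x₀ a X r) (hw : w ∈ Wr V x₀ a r')
    (hwx : Adj w x) : ∃ i, x ∈ Ur V x₀ a X r i :=
  G.mem_Ur hx (Cl_step (G.Wr_sub_Va hw) hwx (Dr_sub hx).1)

/-- The mouth of a component is connected. -/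
theorem Cn_outer (G : Geo V η x₀ a X r₀ R₀) (hr : r ≤ R₀) :
    Cn (outer (Wr V x₀ a r) (Ur V x₀ a X r i)) := by
  refine mouth_outer (O := Vᶜ) (fun x hx y hy => G.cc x y hx hy) Cn_Wr (G.Cn_Ur hr) ?_ ?_ ?_
    (G.fin.subset fun x hx => (Wr_sub hx).1) ?_
  · rw [Set.disjoint_left]
    exact fun x hx hx' => (Ur_sub hx').2 hx
  · rw [Set.disjoint_left]
    exact fun x hx hx' => hx' (Wr_sub hx).1
  · rw [Set.disjoint_left]
    exact fun x hx hx' => hx' (Ur_sub hx).1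
  · intro v _ u hu _ t _ hut
    by_cases h1 : t ∈ Wr V x₀ a r
    · exact Or.inl h1
    · by_cases h2 : t ∈ V
      · exact Or.inr (Or.inl (Cl_step hu hut ⟨h2, h1⟩))
      · exact Or.inr (Or.inr h2)

/-- The vertices of `V` off the outer domain are joined to `a` off it. -/
theorem off_conn (G : Geo V η x₀ a X r₀ R₀) (hr0 : r₀ ≤ r) (hx : x ∈ V)
    (hxD : x ∉ Dr V x₀ a X r) : Conn (V \ Dr V x₀ a X r) x a := by
  have hWD : Wr V x₀ a r ⊆ V \ Dr V x₀ a X r := fun z hz =>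
    ⟨(Wr_sub hz).1, fun h => (Dr_sub h).2 hz⟩
  by_cases hxW : x ∈ Wr V x₀ a r
  · exact (Cn_Wr x hxW a (G.aW hr0)).mono hWD
  · have hxa : x ∈ Cl V {a} := by
      by_contra h
      exact hxD ⟨x, Or.inr ⟨hx, h⟩, Conn.refl ⟨hx, hxW⟩⟩
    have h1 : Conn V x a := (mem_Cl_single.1 hxa).symm
    have key : Conn (V \ Dr V x₀ a X r) x a ∨
        (∃ z ∈ Wr V x₀ a r, Conn (V \ Dr V x₀ a X r) x z) := by
      refine Conn.ind (S := V) (fun z => Conn (V \ Dr V x₀ a X r) x z ∨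
        (∃ z ∈ Wr V x₀ a r, Conn (V \ Dr V x₀ a X r) x z)) (Or.inl (Conn.refl ⟨hx, hxD⟩)) ?_ h1
      intro u v _ huv hv ih
      rcases ih with ih | ih
      · by_cases hvW : v ∈ Wr V x₀ a r
        · exact Or.inr ⟨v, hvW, ih.tail huv (hWD hvW)⟩
        · by_cases huW : u ∈ Wr V x₀ a r
          · exact Or.inr ⟨u, huW, ih⟩
          · left
            refine ih.tail huv ⟨hv, fun hvD => ih.right_mem.2 ?_⟩
            exact Cl_step hvD (adj_symm huv) ⟨ih.right_mem.1, huW⟩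
      · exact Or.inr ih
    rcases key with h2 | ⟨z, hz, h2⟩
    · exact h2
    · exact h2.trans ((Cn_Wr z hz a (G.aW hr0)).mono hWD)

/-- The complement of the outer domain is connected. -/
theorem cc_Dr (G : Geo V η x₀ a X r₀ R₀) (hr0 : r₀ ≤ r) : CC (Dr V x₀ a X r) := by
  have hsub : Vᶜ ⊆ (Dr V x₀ a X r)ᶜ := fun x hx h => hx (Dr_sub h).1
  have key : ∀ x, x ∉ Dr V x₀ a X r → Conn (Dr V x₀ a X r)ᶜ x x₀ := by
    intro x hx
    by_cases hxV : x ∈ V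
    · have h1 := G.off_conn hr0 hxV fun h => hx h
      have hs : V \ Dr V x₀ a X r ⊆ (Dr V x₀ a X r)ᶜ := fun z hz => hz.2
      obtain ⟨u, hu, hux⟩ := G.uW hr0
      have h2 := Cn_Wr (V := V) (x₀ := x₀) (a := a) (r := r) a (G.aW hr0) u hu
      have h3 : Wr V x₀ a r ⊆ V \ Dr V x₀ a X r := fun z hz =>
        ⟨(Wr_sub hz).1, fun h => (Dr_sub h).2 hz⟩
      exact ((h1.trans (h2.mono h3)).mono hs).tail hux (hsub G.x0V)
    · exact (G.cc x x₀ hxV G.x0V).mono hsub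
  exact fun x y hx hy => (key x hx).trans (key y hy).symm

/-- The component of the outer domain in a larger box. -/
theorem comp_sub (_ : Geo V η x₀ a X r₀ R₀) (hp : p ∈ Dr V x₀ a X r)
    (hpR : p ∈ Wr V x₀ a R) :
    Wr (Dr V x₀ a X r) x₀ p R ⊆ Dr V x₀ a X r ∩ Wr V x₀ a R := by
  intro x hx
  refine Conn.ind (S := Dr V x₀ a X r ∩ bx x₀ R) (fun z => z ∈ Dr V x₀ a X r ∩ Wr V x₀ a R)
    ⟨hp, hpR⟩ ?_ (mem_Cl_single.1 hx)
  intro u v _ huv hv' ih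
  obtain ⟨hu1, hu2⟩ : u ∈ Dr V x₀ a X r ∩ Wr V x₀ a R := ih
  obtain ⟨hv, hvb⟩ : v ∈ Dr V x₀ a X r ∩ bx x₀ R := hv'
  exact ⟨hv, Wr_step hu2 huv (Dr_sub hv).1 hvb⟩

/-- A vertex next to `Wr r'` is joined to the mouth of `Wr r` in the outer domain. -/
theorem to_mouth (G : Geo V η x₀ a X r₀ R₀) (hr0 : r₀ ≤ r) (hrr : r ≤ r')
    (hy : y ∈ Ur V x₀ a X r' i) (hw : w ∈ Wr V x₀ a r') (hwy : Adj w y) :
    ∃ z ∈ outer (Wr V x₀ a r) (Ur V x₀ a X r i),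
      Conn (Dr V x₀ a X r ∩ bx x₀ (r' + 1)) y z := by
  have hyU : y ∈ Ur V x₀ a X r i := Ur_anti hrr hy
  have hyb : y ∈ bx x₀ (r' + 1) := bx_adj (Wr_sub hw).2 hwy
  have hya : Conn (V ∩ bx x₀ (r' + 1)) y a := by
    have h0 : Wr V x₀ a r' ⊆ V ∩ bx x₀ (r' + 1) := fun z hz =>
      ⟨(Wr_sub hz).1, bx_mono (by linarith) (Wr_sub hz).2⟩
    have h1 : Conn (V ∩ bx x₀ (r' + 1)) w a :=
      (Cn_Wr (V := V) (x₀ := x₀) (a := a) (r := r') w hw a (G.aW (hr0.trans hrr))).mono h0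
    have h2 : y ∈ V ∩ bx x₀ (r' + 1) := ⟨(Ur_sub hy).1, hyb⟩
    exact (Conn.of_adj h2 h1.left_mem (adj_symm hwy)).trans h1
  have key : ∀ z, Conn (V ∩ bx x₀ (r' + 1)) y z →
      (z ∈ Ur V x₀ a X r i ∧ Conn (Dr V x₀ a X r ∩ bx x₀ (r' + 1)) y z) ∨
      ∃ z ∈ outer (Wr V x₀ a r) (Ur V x₀ a X r i),
        Conn (Dr V x₀ a X r ∩ bx x₀ (r' + 1)) y z := by
    intro z hz
    refine Conn.ind (S := V ∩ bx x₀ (r' + 1)) (fun z => (z ∈ Ur V x₀ a X r i ∧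
      Conn (Dr V x₀ a X r ∩ bx x₀ (r' + 1)) y z) ∨
      ∃ z ∈ outer (Wr V x₀ a r) (Ur V x₀ a X r i),
        Conn (Dr V x₀ a X r ∩ bx x₀ (r' + 1)) y z) (Or.inl ⟨hyU, Conn.refl
        ⟨Ur_sub_Dr hyU, hyb⟩⟩) ?_ hz
    rintro u v - huv hv ih
    rcases ih with ⟨ih1, ih2⟩ | ih
    · by_cases hvW : v ∈ Wr V x₀ a r
      · exact Or.inr ⟨u, ⟨ih1, v, hvW, adj_symm huv⟩, ih2⟩
      · left
        have h1 : v ∈ Ur V x₀ a X r i := Cl_step ih1 huv ⟨hv.1, hvW⟩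
        exact ⟨h1, ih2.tail huv ⟨Ur_sub_Dr h1, hv.2⟩⟩
    · exact Or.inr ih
  rcases key a hya with h1 | h1
  · exact absurd (G.aW hr0) (Ur_sub h1.1).2
  · exact h1

end Geo

end Vale.Agent.P153.R2.RINS
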