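import Vale.Agent.P153.R2.RINS.Lat
import Vale.Agent.P153.R2.OBSV.OneExit

/-!
# P153-R2, block RINS: construction of the geometry
-/

namespace Vale.Agent.P153.R2.RINS

open Set Relation
open Vale.Agent.P153
open Vale.Agent.P153.Topo (Conn adj_symm)
open Vale.Agent.P153.R2.PLAN (cn_bx bx_mono)
open Vale.Agent.P153.R2.OBSV (one_exit)

variable {n : ℕ} {V W Z O : Set Pt} {η : Hg} {x₀ a x y u : Pt} {r r₀ R₀ : ℤ} {Y : Fin n → Set Pt}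

/-- The first vertex off `V` on a path in a box. -/
theorem exists_first (hr : 0 ≤ r) (ha : a ∈ V) (hy : y ∉ V) (hyb : y ∈ bx a r) :
    ∃ x₀ u, x₀ ∉ V ∧ x₀ ∈ bx a r ∧ Adj u x₀ ∧ Conn (V ∩ bx a r) a u := by
  have hab : a ∈ bx a r := by
    unfold bx
    simp only [Set.mem_ofPred_eq, sub_self, abs_zero]
    exact ⟨hr, hr⟩
  have key : ∀ v, Conn (bx a r) a v → Conn (V ∩ bx a r) a v ∨
      ∃ x₀ u, x₀ ∉ V ∧ x₀ ∈ bx a r ∧ Adj u x₀ ∧ Conn (V ∩ bx a r) a u := by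
    intro v hv
    refine Conn.ind (S := bx a r) (fun v => Conn (V ∩ bx a r) a v ∨
      ∃ x₀ u, x₀ ∉ V ∧ x₀ ∈ bx a r ∧ Adj u x₀ ∧ Conn (V ∩ bx a r) a u)
      (Or.inl (Conn.refl ⟨ha, hab⟩)) (fun b c _ hbc hc ih => ?_) hv
    rcases ih with ih | ih
    · by_cases hcV : c ∈ V
      · exact Or.inl (ih.tail hbc ⟨hcV, hc⟩)
      · exact Or.inr ⟨c, b, hcV, hc, hbc, ih⟩
    · exact Or.inr ih
  rcases key y (cn_bx a r a hab y hyb) with h | h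
  · exact absurd h.right_mem.1 hy
  · exact h

/-- The last exit. -/
theorem exists_exit (hxW : x ∉ W) (haW : a ∈ W) (hxa : Conn V x a) :
    ∃ u w, w ∈ W ∧ Adj w u ∧ Conn (V \ W) x u := by
  have key : Conn (V \ W) x a ∨ ∃ u w, w ∈ W ∧ Adj w u ∧ Conn (V \ W) x u := by
    refine Conn.ind (S := V) (fun v => Conn (V \ W) x v ∨
      ∃ u w, w ∈ W ∧ Adj w u ∧ Conn (V \ W) x u)
      (Or.inl (Conn.refl ⟨hxa.left_mem, hxW⟩)) (fun b c _ hbc hc ih => ?_) hxa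
    rcases ih with ih | ih
    · by_cases hcW : c ∈ W
      · exact Or.inr ⟨b, c, hcW, adj_symm hbc, ih⟩
      · exact Or.inl (ih.tail hbc ⟨hc, hcW⟩)
    · exact Or.inr ih
  rcases key with h | h
  · exact absurd haW h.right_mem.2
  · exact h

/-- The exit towards the walls `Z`. -/
def Ex1 (V Z W : Set Pt) : Set Pt :=
  Cl (V \ W) {x | (∃ z ∈ Z, Adj x z) ∧ ∃ u, (∃ w ∈ W, Adj w u) ∧ Conn (V \ W) u x}

theorem ex1_sub : Ex1 V Z W ⊆ V \ W := Cl_sub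

theorem ex1_cn (fin : V.Finite) (hZV : Z ⊆ Vᶜ) (hOV : O ⊆ Vᶜ) (cZ : Cn Z) (cO : Cn O)
    (dZO : Disjoint Z O) (hWV : W ⊆ V) (cW : Cn W) (hZW : ∀ x ∈ W, ∀ y ∈ Z, ¬ Adj x y)
    (hb : ∀ x ∈ V, ∀ y, y ∉ V → Adj x y → y ∈ Z ∨ y ∈ O) : Cn (Ex1 V Z W) := by
  refine Cn_Cl_of ?_
  rintro e₁ ⟨⟨m₁, hm₁, he₁⟩, u₁, ⟨w₁, hw₁, hu₁⟩, h₁⟩ e₂ ⟨⟨m₂, hm₂, he₂⟩, u₂, ⟨w₂, hw₂, hu₂⟩, h₂⟩ _ _
  refine one_exit (P := O) (M := Z) fin (fun x hx y hxy => ?_) cO cZ dZO.symm ?_ ?_ hWV cW hZW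
    h₁ hw₁ hu₁ hm₁ he₁ h₂ hw₂ hu₂ hm₂ he₂
  · by_cases hyV : y ∈ V
    · exact Or.inl hyV
    · rcases hb x hx y hyV hxy with h | h
      · exact Or.inr (Or.inr h)
      · exact Or.inr (Or.inl h)
  · rw [Set.disjoint_left]
    exact fun x hx hx' => hOV hx' hx
  · rw [Set.disjoint_left]
    exact fun x hx hx' => hZV hx' hx

/-- Targets: the exit and the sets `Y`. -/
def Xt (V Z W : Set Pt) (Y : Fin n → Set Pt) : Fin (n + 1) → Set Pt :=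
  Fin.cons (α := fun _ => Set Pt) (Ex1 V Z W) Y

theorem Xt_zero : Xt V Z W Y 0 = Ex1 V Z W := rfl

theorem Xt_succ (i : Fin n) : Xt V Z W Y i.succ = Y i := rfl

/-- **The geometry.** -/
theorem mk_geo (fin : V.Finite) (cc : CC V) (x0V : x₀ ∉ V)
    (adj : ∃ u, Adj u x₀ ∧ Conn (V ∩ bx x₀ r₀) a u) (hrR : r₀ ≤ R₀)
    (good : ∀ x ∈ Wr V x₀ a R₀, ∀ y, y ∉ V → Adj x y → η y = 1)
    (hZV : Z ⊆ Vᶜ) (hOV : O ⊆ Vᶜ) (cZ : Cn Z) (cO : Cn O)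
    (dZO : Disjoint Z O) (hZW : ∀ x ∈ Wr V x₀ a R₀, ∀ y ∈ Z, ¬ Adj x y)
    (hb : ∀ x ∈ V, ∀ y, y ∉ V → Adj x y → (η y ≠ 1 → y ∈ Z) ∧ (η y = 1 → y ∈ O))
    (YV : ∀ i, Y i ⊆ V) (cY : ∀ i, Cn (Y i)) (YW : ∀ i, Disjoint (Y i) (Wr V x₀ a R₀)) :
    Geo V η x₀ a (Xt V Z (Wr V x₀ a R₀) Y) r₀ R₀ := by
  have haW : a ∈ Wr V x₀ a R₀ := by
    obtain ⟨u, _, h⟩ := adj
    exact mem_Cl_single.2 (Conn.refl ⟨h.left_mem.1, bx_mono hrR h.left_mem.2⟩)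
  refine ⟨fin, cc, x0V, adj, good, fun x hx y hy hxy hηy => ?_, fun i => ?_, fun i => ?_,
    fun i => ?_⟩
  · by_cases hxa : x ∈ Cl V {a}
    · left
      have hxW : x ∉ Wr V x₀ a R₀ := fun h => hηy (good x h y hy hxy)
      obtain ⟨u, w, hw, hwu, hxu⟩ := exists_exit hxW haW (mem_Cl_single.1 hxa).symm
      refine mem_iUnion.2 ⟨0, x, ⟨⟨y, (hb x hx y hy hxy).1 hηy, hxy⟩, u, ⟨w, hw, hwu⟩, hxu.symm⟩,
        Conn.refl hxu.left_mem⟩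
    · exact Or.inr ⟨hx, hxa⟩
  · refine Fin.cases ?_ (fun j => YV j) i
    exact fun x hx => (ex1_sub hx).1
  · refine Fin.cases ?_ (fun j => cY j) i
    exact ex1_cn fin hZV hOV cZ cO dZO (fun x hx => (Wr_sub hx).1) Cn_Wr hZW
      fun x hx y hy hxy => by
        by_cases h : η y = 1
        · exact Or.inr ((hb x hx y hy hxy).2 h)
        · exact Or.inl ((hb x hx y hy hxy).1 h)
  · refine Fin.cases ?_ (fun j => YW j) i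
    show Disjoint (Ex1 V Z (Wr V x₀ a R₀)) _
    rw [Set.disjoint_left]
    exact fun x hx hx' => (ex1_sub hx).2 hx'

end Vale.Agent.P153.R2.RINS
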