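import Vale.Agent.P153.R2.RINS.MLem
import Vale.Agent.P153.R2.RINS.Expl

/-!
# P153-R2, block RINS: laws with the Gibbs property in the domain `D₁`

`Q` is a probability measure on the heights with the Gibbs property in `D₁ ⊆ V`, the exact data `η`
on the part of the boundary of `D₁` off `V`, and boundary values between the extremal extensions of
the data (as far as they are in `[-m, m]`).
-/

namespace Vale.Agent.P153.R2.RINS

open Set Relation MeasureTheory
open Vale.Agent.P153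
open Vale.Agent.P153.Topo (Conn)

variable {V D D' D₁ D₂ D₃ : Set Pt} {η g h l l' l'' u u' u'' : Hg} {m ℓ : ℤ} {k : ℕ}
  {Z : Finset Pt} {φ : Fin k → Pt → ℝ} {Q : Measure Hg} {F : Hg → ℝ}

/-- Variant of `least_le`: the boundary values are above `l` as far as they are above `-m`. -/
theorem least_le' (hmo : Odd m) (hl : IsLeast (Sm V η m) l) (hD : D ⊆ V)
    (ho : ∀ x, Odd (h x)) (hL : LipV D h) (hb : ∀ y ∈ ebd D, l y ≤ max (h y) (-m)) {x : Pt}
    (hx : x ∈ D) : l x ≤ max (h x) (-m) := by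
  classical
  have hlL := IsLeast.lip hl
  have hl0 := mem_XC.1 hl.1.1
  set f : Hg := fun x => if x ∈ D then min (l x) (max (h x) (-m)) else l x with hf
  have fin : ∀ x, x ∈ D → f x = min (l x) (max (h x) (-m)) := fun x hx => if_pos hx
  have fout : ∀ x, x ∉ D → f x = l x := fun x hx => if_neg hx
  have key : ∀ x y, x ∈ D → Adj x y → |f x - f y| ≤ 2 := by
    intro x y hx hxy
    have h1 := hlL x y ⟨hxy, Or.inl (hD hx)⟩
    have h2 := hL x y ⟨hxy, Or.inl hx⟩
    have h0 : |(-m : ℤ) - -m| ≤ 2 := by simp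
    have h4 := lip_min h1 (lip_max h2 h0)
    by_cases hy : y ∈ D
    · rw [fin x hx, fin y hy]
      exact h4
    · rw [fin x hx, fout y hy]
      have h3 := hb y (adj_mem_ebd hx hy hxy)
      rwa [min_eq_left h3] at h4
  have hfm : f ∈ Sm V η m := by
    refine ⟨mem_XC.2 ⟨fun x => ?_, fun x hx => ?_, fun x y hxy => ?_⟩, fun x hx => ?_⟩
    · by_cases hx : x ∈ D
      · rw [fin x hx]
        exact odd_min (hl0.1 x) (odd_max (ho x) hmo.neg)
      · rw [fout x hx]; exact hl0.1 x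
    · rw [fout x fun h1 => hx (hD h1)]
      exact hl0.2.1 x hx
    · by_cases hx : x ∈ D
      · exact key x y hx hxy.1
      · by_cases hy : y ∈ D
        · rw [abs_sub_comm]
          exact key y x hy (Topo.adj_symm hxy.1)
        · rw [fout x hx, fout y hy]
          exact hlL x y hxy
    · have h1 := IsLeast.ge hl hx
      have h2 := IsLeast.le hl hx
      rw [abs_le]
      by_cases hxD : x ∈ D
      · rw [fin x hxD]
        exact ⟨le_min h1 (le_max_right _ _), (min_le_left _ _).trans h2⟩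
      · rw [fout x hxD]
        exact ⟨h1, h2⟩
  have := hl.2 hfm x
  rw [fin x hx] at this
  exact this.trans (min_le_right _ _)

/-- Boundary values of a typical configuration. -/
structure Bdy (V D₁ : Set Pt) (η : Hg) (m : ℤ) (l u ω : Hg) : Prop where
  odd : ∀ x, Odd (ω x)
  lip : LipV D₁ ω
  off : ∀ y ∈ ebd D₁, y ∉ V → ω y = η y
  low : ∀ y ∈ ebd D₁, l y ≤ max (ω y) (-m)
  up : ∀ y ∈ ebd D₁, min (ω y) m ≤ u y

/-- Local functions. -/
def Lc (F : Hg → ℝ) : Prop := ∃ U : Set Pt, U.Finite ∧ DepOn U F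

/-- Gibbs property in `D₁`, with typical boundary values. -/
structure Gib (V D₁ : Set Pt) (η : Hg) (m : ℤ) (l u : Hg) (Q : Measure Hg) : Prop where
  prob : IsProbabilityMeasure Q
  bdy : ∀ᵐ ω ∂Q, Bdy V D₁ η m l u ω
  int : ∀ F : Hg → ℝ, Lc F → Integrable F Q → Integrable (fun ω => Ex (XC D₁ ω) F) Q
  dlr : ∀ F : Hg → ℝ, Lc F → Integrable F Q → ∫ h, F h ∂Q = ∫ ω, Ex (XC D₁ ω) F ∂Q

/-! ### Locality of the averaged functions -/

theorem Kc_dep : DepOn D₁ (Kc ℓ V D₁) := by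
  intro h g hh
  apply clu_congr
  · intro x hx hx'
    rcases clu_sub hx' with h1 | h1
    · exact Or.inr h1
    · left
      rw [hh x hx]
      exact h1.2
  · intro x _ y hy _ h1
    rw [← hh y hy]
    exact h1

theorem Kc_dep' (hh : ∀ x ∈ D₁, h x = g x) : Kc ℓ V D₁ h = Kc ℓ V D₁ g := Kc_dep h g hh

theorem Av_dep (hF : DepOn D₁ F) : DepOn D₁ (Av ℓ V D₁ D₂ D₃ l F) := by
  intro h g hh
  have e := Kc_dep (ℓ := ℓ) (V := V) h g hh
  have e2 : Dh ℓ V D₁ D₃ h = Dh ℓ V D₁ D₃ g := by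
    unfold Dh
    rw [e]
  have e3 : h ∈ gd ℓ V D₁ D₂ ↔ g ∈ gd ℓ V D₁ D₂ := by
    unfold gd
    rw [Set.mem_ofPred_eq, Set.mem_ofPred_eq, e]
  unfold Av
  by_cases h1 : h ∈ gd ℓ V D₁ D₂
  · rw [if_pos h1, if_pos (e3.1 h1), e2]
  · rw [if_neg h1, if_neg (fun h2 => h1 (e3.2 h2))]
    exact hF h g hh

/-- The averaged function is bounded by a constant and the function. -/
theorem Av_bdd (hV : V.Finite) (hD : D₁ ⊆ V) (F : Hg → ℝ) :
    ∃ c : ℝ, 0 ≤ c ∧ ∀ h, |Av ℓ V D₁ D₂ D₃ l F h| ≤ c + |F h| := by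
  classical
  have hfin : (𝒫 V).Finite := hV.finite_subsets
  refine ⟨∑ D ∈ hfin.toFinset, |Ex (XC D l) F|, Finset.sum_nonneg fun _ _ => abs_nonneg _,
    fun h => ?_⟩
  have h0 : 0 ≤ ∑ D ∈ hfin.toFinset, |Ex (XC D l) F| := Finset.sum_nonneg fun _ _ => abs_nonneg _
  unfold Av
  split_ifs with h1
  · have h2 : |Ex (XC (Dh ℓ V D₁ D₃ h) l) F| ≤ ∑ D ∈ hfin.toFinset, |Ex (XC D l) F| := by
      refine Finset.single_le_sum (f := fun D => |Ex (XC D l) F|) (fun _ _ => abs_nonneg _) ?_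
      rw [Set.Finite.mem_toFinset]
      exact Dh_sub_D1.trans hD
    linarith [abs_nonneg (F h)]
  · linarith

theorem Av_integrable (hV : V.Finite) (hD : D₁ ⊆ V) (hF : DepOn D₁ F) [IsProbabilityMeasure Q]
    (hi : Integrable F Q) : Integrable (Av ℓ V D₁ D₂ D₃ l F) Q := by
  obtain ⟨c, hc, h1⟩ := Av_bdd (ℓ := ℓ) (D₂ := D₂) (D₃ := D₃) (l := l) hV hD F
  refine Integrable.mono' (g := fun h => c + |F h|) ((integrable_const c).add hi.abs)
    ((Av_dep hF).measurable (hV.subset hD)).aestronglyMeasurable ?_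
  exact Filter.Eventually.of_forall fun h => h1 h

/-- LOWER DOMINATION. -/
theorem low_dom (E : Env V η m l l') (H : Dom3 V D₁ D₂ D₃) (hD3 : D₃ ⊆ V)
    (G : Gib V D₁ η m l u Q) (hF : DepOn D₃ F) (hm : Monotone F) (hi : Integrable F Q) :
    ∫ h, Av (-(m + 2)) V D₁ D₂ D₃ l F h ∂Q ≤ ∫ h, F h ∂Q := by
  have := G.prob
  have hF1 : DepOn D₁ F := hF.mono ((H.s3' hD3).trans H.s2)
  have hi2 := Av_integrable (Q := Q) (ℓ := -(m + 2)) (D₂ := D₂) (D₃ := D₃) (l := l) E.fin H.s1
    hF1 hi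
  have hfin : D₁.Finite := E.fin.subset H.s1
  have lc1 : Lc F := ⟨D₁, hfin, hF1⟩
  have lc2 : Lc (Av (-(m + 2)) V D₁ D₂ D₃ l F) := ⟨D₁, hfin, Av_dep hF1⟩
  rw [G.dlr _ lc1 hi, G.dlr _ lc2 hi2]
  refine integral_mono_ae (G.int _ lc2 hi2) (G.int _ lc1 hi) ?_
  filter_upwards [G.bdy] with ω hω
  refine expl_low E.fin H hD3 (IsLeast.odd E.hl) (fun D hD => IsLeast.mem_XC E.hl hD) E.mo
    (fun h hh x hx => ?_) (fun y hy hyV => ?_) hF hm
  · have h1 := mem_XC.1 hh
    refine least_le' E.mo E.hl H.s1 h1.1 h1.2.2 (fun y hy => ?_) hx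
    rw [h1.2.1 y hy.1]
    exact hω.low y hy
  · rw [hω.off y hy hyV, IsLeast.off E.hl hyV]

/-! ### Mirror image -/

theorem LipV.neg (hh : LipV V h) : LipV V (-h) := by
  intro x y hxy
  rw [Pi.neg_apply, Pi.neg_apply, show -h x - -h y = -(h x - h y) by ring, abs_neg]
  exact hh x y hxy

theorem Bdy.neg {ω : Hg} (hb : Bdy V D₁ η m l u ω) : Bdy V D₁ (-η) m (-u) (-l) (-ω) := by
  refine ⟨fun x => (hb.odd x).neg, hb.lip.neg, fun y hy hyV => ?_, fun y hy => ?_,
    fun y hy => ?_⟩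
  · rw [Pi.neg_apply, Pi.neg_apply, hb.off y hy hyV]
  · have := hb.up y hy
    rw [Pi.neg_apply, Pi.neg_apply, max_neg_neg]
    linarith
  · have := hb.low y hy
    rw [Pi.neg_apply, Pi.neg_apply]
    have h1 : min (-ω y) m = -max (ω y) (-m) := by
      rw [← neg_neg m, min_neg_neg, neg_neg]
    rw [h1]
    linarith

theorem measurable_negHg : Measurable fun h : Hg => -h :=
  measurable_pi_iff.2 fun x => (Measurable.of_discrete (f := fun a : ℤ => -a)).comp
    (measurable_pi_apply (x : Pt))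

/-- Reflection as a measurable equivalence. -/
noncomputable def negE : Hg ≃ᵐ Hg where
  toFun := fun h => -h
  invFun := fun h => -h
  left_inv := fun h => neg_neg h
  right_inv := fun h => neg_neg h
  measurable_toFun := measurable_negHg
  measurable_invFun := measurable_negHg

theorem integral_negE (F : Hg → ℝ) : ∫ h, F h ∂(Q.map negE) = ∫ h, F (-h) ∂Q := by
  rw [integral_map_equiv]
  rfl

theorem integrable_negE (F : Hg → ℝ) :
    Integrable F (Q.map negE) ↔ Integrable (fun h => F (-h)) Q := by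
  exact integrable_map_equiv negE F

theorem Lc.neg (hF : Lc F) : Lc fun h => F (-h) := by
  obtain ⟨U, hU, h1⟩ := hF
  refine ⟨U, hU, fun h g hh => h1 _ _ fun x hx => ?_⟩
  rw [Pi.neg_apply, Pi.neg_apply, hh x hx]

theorem Gib.neg (G : Gib V D₁ η m l u Q) : Gib V D₁ (-η) m (-u) (-l) (Q.map negE) := by
  have := G.prob
  refine ⟨Measure.isProbabilityMeasure_map negE.measurable.aemeasurable, ?_, fun F hF hi => ?_,
    fun F hF hi => ?_⟩
  · rw [negE.measurableEmbedding.ae_map_iff]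
    filter_upwards [G.bdy] with ω hω
    exact hω.neg
  · rw [integrable_negE] at *
    have h1 := G.int _ hF.neg hi
    refine h1.congr (Filter.Eventually.of_forall fun ω => ?_)
    dsimp only
    rw [XC_neg]
  · rw [integral_negE, integral_negE, G.dlr _ hF.neg ((integrable_negE F).1 hi)]
    refine integral_congr_ae (Filter.Eventually.of_forall fun ω => ?_)
    dsimp only
    rw [XC_neg]

open Classical in
/-- `F`, averaged over the unexplored domain of the high cluster with the data `u`. -/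
noncomputable def AvU (ℓ : ℤ) (V D₁ D₂ D₃ : Set Pt) (u : Hg) (F : Hg → ℝ) : Hg → ℝ := fun h =>
  if -h ∈ gd ℓ V D₁ D₂ then Ex (XC (Dh ℓ V D₁ D₃ (-h)) u) F else F h

theorem Av_negF (h : Hg) : Av ℓ V D₁ D₂ D₃ (-u) (fun h => -F (-h)) (-h) =
    -AvU ℓ V D₁ D₂ D₃ u F h := by
  unfold Av AvU
  split_ifs with h1
  · rw [XC_neg, Ex_neg]
    simp only [neg_neg]
  · simp only [neg_neg]

theorem AvU_integrable (hV : V.Finite) (hD : D₁ ⊆ V) (hF : DepOn D₁ F) [IsProbabilityMeasure Q]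
    (hi : Integrable F Q) : Integrable (AvU ℓ V D₁ D₂ D₃ u F) Q := by
  have hp : IsProbabilityMeasure (Q.map negE) :=
    Measure.isProbabilityMeasure_map negE.measurable.aemeasurable
  have h1 : Integrable (fun h => -F (-h)) (Q.map negE) := by
    rw [integrable_negE]
    simpa using hi.neg
  have h2 : DepOn D₁ (fun h : Hg => -F (-h)) := fun h g hh => by
    dsimp only
    rw [hF (-h) (-g) fun x hx => by rw [Pi.neg_apply, Pi.neg_apply, hh x hx]]
  have h3 := Av_integrable (ℓ := ℓ) (D₂ := D₂) (D₃ := D₃) (l := -u) hV hD h2 h1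
  rw [integrable_negE] at h3
  simp only [Av_negF] at h3
  simpa using h3.neg

/-- UPPER DOMINATION. -/
theorem up_dom (E : Env V (-η) m (-u) (-u')) (H : Dom3 V D₁ D₂ D₃) (hD3 : D₃ ⊆ V)
    (G : Gib V D₁ η m l u Q) (hF : DepOn D₃ F) (hm : Monotone F) (hi : Integrable F Q) :
    ∫ h, F h ∂Q ≤ ∫ h, AvU (-(m + 2)) V D₁ D₂ D₃ u F h ∂Q := by
  have h1 : Integrable (fun h => -F (-h)) (Q.map negE) := by
    rw [integrable_negE]
    simpa using hi.neg
  have h2 : DepOn D₃ (fun h : Hg => -F (-h)) := fun h g hh => by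
    dsimp only
    rw [hF (-h) (-g) fun x hx => by rw [Pi.neg_apply, Pi.neg_apply, hh x hx]]
  have h3 : Monotone fun h : Hg => -F (-h) := fun h g hh => neg_le_neg (hm (neg_le_neg hh))
  have h4 := low_dom E H hD3 G.neg h2 h3 h1
  rw [integral_negE, integral_negE] at h4
  simp only [Av_negF, neg_neg, integral_neg] at h4
  linarith

end Vale.Agent.P153.R2.RINS
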