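import Vale.Agent.P153.R2.RINS.Scale

/-!
# P153-R2, block RINS: insertion, products of `Y`
-/

namespace Vale.Agent.P153.R2.RINS

open Set Relation MeasureTheory

open Vale.Agent.P153
open Vale.Agent.P153.Topo (Conn adj_symm)
open Vale.Agent.P153.F.X (S_mom S_emom S_rsw S_loc S_conf)
open Vale.Agent.P153.F.SD (Lf)
open Vale.Agent.P153.F.Top (dp c1 c2)
open Vale.Agent.P153.R2.SDAR (put ts ls sbx ov Dmn OneBad Un NT)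
open Vale.Agent.P153.R2.Gp (Zf ph ph_nonneg mem_Zf wt_closed yv_eq)

variable {P : Measure (Pt → ℤ)} {K : Set (ℝ × ℝ)} {Rb Rr : ℝ}

/-- The hypotheses for one obstacle with the sign `σ`. -/
structure Cnd (K : Set (ℝ × ℝ)) (Rb Rr r δ : ℝ) (V : Set Pt) (η : Hg) (i : Fin 3) (t l₁ : ℝ)
    (a : Pt) (σ : ℤ) : Prop where
  dm : Dmn δ Rb K V
  pm : ∀ x, η x = 1 ∨ η x = -1
  dj : Disjoint K (sbx i t l₁ Rr)
  wl : ∃ y, y ∉ V ∧ dp δ y ∈ sbx i t l₁ r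
  aV : a ∈ V
  ab : dp δ a ∈ sbx i t l₁ r
  vis : ∀ x ∈ Cl (V ∩ ov δ (sbx i t l₁ Rr)) {a}, ∀ y, y ∉ V → Adj x y → η y = σ
  ob : OneBad V η σ (ebd (Cl (V ∩ ov δ (sbx i t l₁ Rr)) {a}))

/-- The obstacle. -/
def Nb (V : Set Pt) (δ : ℝ) (i : Fin 3) (t l₁ r : ℝ) (a : Pt) : Set Pt :=
  Cl (V ∩ ov δ (sbx i t l₁ r)) {a}

/-- The insertion changes the mean of `F` little. -/
def Gd (K : Set (ℝ × ℝ)) (Rb Rr : ℝ) (σ : ℤ) (F : ℝ → Hg → ℝ) : Prop :=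
  ∀ ε : ℝ, 0 < ε → ∃ r₀ : ℝ, 0 < r₀ ∧ ∀ r : ℝ, 0 < r → r ≤ r₀ →
    ∃ δ₀ : ℝ, 0 < δ₀ ∧ ∀ δ : ℝ, 0 < δ → δ < δ₀ → ∀ (V : Set Pt) (η : Hg) (i : Fin 3) (t l₁ : ℝ)
      (a : Pt), Cnd K Rb Rr r δ V η i t l₁ a σ →
      |Ex (XC V η) (F δ) - Ex (XC (V \ Nb V δ i t l₁ r a) (put η (Nb V δ i t l₁ r a) σ)) (F δ)| ≤ ε

/-- Choice of the scales. -/
theorem scales {T ρ₀ : ℤ} (hT : 1 ≤ T) (hρ₀ : 1 ≤ ρ₀) {Rr r δ : ℝ} (hδ : 0 < δ) (hr : 0 < r)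
    (h1 : 128 * (T + 1) * r ≤ Rr) (h2 : 16 * (T + 1) * δ ≤ Rr) (h3 : ρ₀ * δ ≤ 4 * r) :
    ρ₀ ≤ 2 * ⌊4 * r / δ⌋ ∧ T * (2 * ⌊4 * r / δ⌋ + 1) ≤ ⌊Rr / (8 * δ)⌋ := by
  have hq1 : (⌊4 * r / δ⌋ : ℝ) ≤ 4 * r / δ := Int.floor_le _
  have hq2 : δ * ⌊4 * r / δ⌋ ≤ 4 * r := by
    have := mul_le_mul_of_nonneg_left hq1 hδ.le
    rwa [mul_div_cancel₀ _ hδ.ne'] at this
  have hT' : (1 : ℝ) ≤ T := by exact_mod_cast hT
  constructor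
  · have h4 : ρ₀ ≤ ⌊4 * r / δ⌋ := by
      rw [Int.le_floor, le_div_iff₀ hδ]
      exact h3
    have h5 : 0 ≤ ⌊4 * r / δ⌋ := by omega
    omega
  · rw [Int.le_floor]
    push_cast
    rw [le_div_iff₀ (by positivity)]
    have h6 : (T : ℝ) * (δ * ⌊4 * r / δ⌋) ≤ T * (4 * r) := mul_le_mul_of_nonneg_left hq2 (by linarith)
    nlinarith

theorem ins_Y (hP : GFF.Plane P) (hMom : S_mom P) (hE : S_emom P) (hR : S_rsw P)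
    (hL : S_loc) (hF : S_conf) (hS : LOC.S_land 4) (hK : IsOpen K) (hRr : 0 < Rr) {k : ℕ}
    {f : Fin k → ℝ × ℝ → ℝ} (hs : ∀ i, Vale.Agent.P145.PT.Sm (f i)) (hc : ∀ i, HasCompactSupport (f i))
    (hsup : ∀ i, tsupport (f i) ⊆ K) (h0 : ∀ i z, 0 ≤ f i z) :
    Gd K Rb Rr 1 fun δ h => ∏ i, Yv (-2) (Zf δ f) (ph δ f) h i := by
  intro ε hε
  -- the cover
  have hcK : IsCompact (⋃ i, tsupport (f i)) := isCompact_iUnion fun i => (hc i).isCompact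
  obtain ⟨n, B, hB, hcov⟩ := exists_boxes hK hcK (iUnion_subset hsup)
  -- the moments
  obtain ⟨d, C, hd, hC, hw⟩ := wt_closed hP hMom hE hR hL hF hs hc h0 (Rb := max Rb 0)
    (le_max_right _ _) (-2) (k + 1) 2
  obtain ⟨T, hT, ρ₀, hρ₀, hlat⟩ := lat_rins hS (n + 1) k hC hε
  have hT' : (1 : ℝ) ≤ T := by exact_mod_cast hT
  have hρ' : (1 : ℝ) ≤ ρ₀ := by exact_mod_cast hρ₀
  refine ⟨Rr / (128 * (T + 1)), by positivity, fun r hr hrr => ?_⟩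
  refine ⟨min d (min (Rr / (16 * (T + 1))) (4 * r / ρ₀)), by positivity,
    fun δ hδ hδd V η i t l₁ a cd => ?_⟩
  have g1 : δ ≤ d := hδd.le.trans (min_le_left _ _)
  have g2 : δ ≤ Rr / (16 * (T + 1)) := hδd.le.trans ((min_le_right _ _).trans (min_le_left _ _))
  have g3 : δ ≤ 4 * r / ρ₀ := hδd.le.trans ((min_le_right _ _).trans (min_le_right _ _))
  rw [le_div_iff₀ (by positivity)] at hrr g2 g3
  obtain ⟨e1, e2⟩ := scales (T := T) (ρ₀ := ρ₀) (Rr := Rr) (r := r) (δ := δ) hT hρ₀ hδ hr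
    (by linarith) (by linarith) (by linarith)
  obtain ⟨y, hy, hyr⟩ := cd.wl
  obtain ⟨x₀, X, G, hX, hN⟩ := exists_geo (Rr := Rr) (Rb := Rb) hB hδ hr (by nlinarith) cd.dm cd.dj
    hy hyr cd.aV cd.ab cd.vis cd.ob
  have hZA : ∀ x ∈ Zf δ f, x ∈ A0 V a X := by
    intro x hx
    obtain ⟨j, hj⟩ := mem_Zf hδ hs hc hx
    obtain ⟨m, hm⟩ := hcov (dp δ x) (mem_iUnion.2 ⟨j, subset_tsupport _ hj⟩)
    exact hX m x hm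
  have hfZ : ∀ i x, f i (dp δ x) ≠ 0 → x ∈ Zf δ f := by
    intro j x hx
    obtain ⟨K₁, hK₁⟩ := F.SD.exists_csts (hs j) (hc j)
    refine Finset.mem_biUnion.2 ⟨j, Finset.mem_univ _, Finsupp.mem_support_iff.2 ?_⟩
    rw [F.SD.Wd_apply hK₁ hδ, add_zero, ← F.X.Sdx.dp_pos]
    positivity
  refine hlat V (Nb V δ i t l₁ r a) η x₀ a X (2 * ⌊4 * r / δ⌋) ⌊Rr / (8 * δ)⌋ (2 * ⌊4 * r / δ⌋)
    (Zf δ f) (ph δ f) G le_rfl e1 e2 cd.pm hN hZA (fun i x _ => ph_nonneg hδ hs hc h0 i x) ?_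
  intro D g hDV hZD hne hg5 hgL
  refine hw δ hδ g1 D g (fun x hx => ?_) (fun i x hx => hZD x (hfZ i x hx)) hne
    (fun x _ => (hg5 x).trans (by norm_num)) fun x y _ _ hxy => hgL x y hxy
  exact Metric.ball_subset_ball (le_max_left _ _) (cd.dm.bdd x (hDV hx))

end Vale.Agent.P153.R2.RINS
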