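import Vale.Agent.P153.R2.RINS.Lvl
import Vale.Agent.P153.R2.SDAR.Stmt

/-!
# P153-R2, block RINS: insertion of an obstacle, lattice form
-/

namespace Vale.Agent.P153.R2.RINS

open Set Relation MeasureTheory
open Vale.Agent.P153
open Vale.Agent.P153.Topo (Conn adj_symm)
open Vale.Agent.P153.R2.SDAR (put)

variable {n k : ℕ} {V F D E T N : Set Pt} {η g h l l' l'' u u' : Hg} {x₀ a x y z w p : Pt}
  {X : Fin n → Set Pt} {r r' r'' R r₀ R₀ ℓ ρ : ℤ} {i : Fin n} {Z : Finset Pt}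
  {φ : Fin k → Pt → ℝ} {C : ℝ}

/-- Bound for the moments of the laws with bounded exact data. -/
def MB (V : Set Pt) (Z : Finset Pt) (φ : Fin k → Pt → ℝ) (C : ℝ) : Prop :=
  ∀ (D : Set Pt) (g : Hg), D ⊆ V → (∀ x ∈ Z, x ∈ D) → (XC D g).Nonempty → (∀ x, |g x| ≤ 5) →
    (∀ x y, Adj x y → |g x - g y| ≤ 2) →
    Ex (XC D g) (fun h => Wt (Yv (-2) Z φ h) ^ (k + 2)) ≤ C

theorem Y_sq_le (S : Set Hg) (i : Fin k) (h : Ex S (fun h => Wt (Yv (-2) Z φ h) ^ (k + 2)) ≤ C) :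
    Ex S (fun h => Yv (-2) Z φ h i ^ 2) ≤ C := by
  refine (Ex_mono fun h _ => ?_).trans h
  calc Yv (-2) Z φ h i ^ 2 = |Yv (-2) Z φ h i| ^ 2 := (sq_abs _).symm
    _ ≤ Wt (Yv (-2) Z φ h) ^ 2 := pow_le_pow_left₀ (abs_nonneg _) (abs_le_Wt _ i) 2
    _ ≤ _ := Wt_le_pow _ (by omega)

/-- The exact laws in `V` with a small hull removed. -/
theorem exists_Qh (G : Geo V η x₀ a X r₀ R₀) (L : Lvl V η l l' l'' u u') {D : Set Pt} {g : Hg}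
    {r R : ℤ} {ε : ℝ} (hgη : ∀ x, x ∉ V → g x = η x) (hDV : D ⊆ V) (hrR : r ≤ R)
    (hDr : Dr V x₀ a X r ⊆ D) (hne : (XC D g).Nonempty)
    (hm : Ex (XC D g) (fun h => Wt (Yv (-2) Z φ h) ^ (k + 2)) ≤ C)
    (h1 : Pr (XC D g) (BdV V x₀ a X r R) ≤ ε)
    (h2 : Pr (XC D (rf 1 g)) (BdV V x₀ a X r R) ≤ ε) :
    ∃ Q : Measure Hg, Qk V η 1 l u (Dr V x₀ a X r) (Dr V x₀ a X R) Z φ C ε Q ∧
      ∫ h, ∏ i, Yv (-2) Z φ h i ∂Q = Ex (XC D g) (fun h => ∏ i, Yv (-2) Z φ h i) := by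
  have hfin : D.Finite := G.fin.subset hDV
  have hrV : Dr V x₀ a X r ⊆ V := fun x hx => (Dr_sub hx).1
  obtain ⟨Q, hQ, hae, hint, hPr⟩ := exists_ulaw (XC_finite hfin g) hne
  refine ⟨Q, ⟨?_, (hint _).1, ?_, ?_, ?_⟩, (hint _).2⟩
  · exact gib_ulaw hfin hDr hae hint fun ω hω => L.bdy hgη hDV hDr hω
  · rw [(hint _).2]
    exact hm
  · have hms : MeasurableSet {h | h ∉ gd (-(1 + 2)) V (Dr V x₀ a X r) (Dr V x₀ a X R)} :=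
      Pk.meas_gd G.fin hrV
    rw [hPr _ hms]
    exact (Pr_mono fun h _ hh => G.gd_bdV hrR hh).trans h1
  · have hms : MeasurableSet {h | -h ∉ gd (-(1 + 2)) V (Dr V x₀ a X r) (Dr V x₀ a X R)} :=
      Pk.meas_gdU G.fin hrV
    rw [hPr _ hms]
    refine (Pr_mono fun h _ hh => ?_).trans ((Pr_rf hfin 1 g (BdV V x₀ a X r R)).le.trans h2)
    exact G.gd_bdV' hrR hh

theorem A0_sub_Dr (G : Geo V η x₀ a X r₀ R₀) (hr : r ≤ R₀) (hx : x ∈ A0 V a X) :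
    x ∈ Dr V x₀ a X r := by
  rcases hx with h | h
  · obtain ⟨j, hj⟩ := mem_iUnion.1 h
    exact Ur_sub_Dr (G.X_sub_Ur hr hj)
  · exact ⟨x, Or.inr h, Conn.refl ⟨h.1, fun h1 => h.2 (G.Wr_sub_Va h1)⟩⟩

/-- The package. -/
theorem exists_pk (G : Geo V η x₀ a X r₀ R₀) (L : Lvl V η l l' l'' u u')
    (hη : ∀ x, η x = 1 ∨ η x = -1) {r₁ r₂ r₃ : ℤ} {γ : ℝ} (h12 : r₁ ≤ r₂) (h23 : r₂ + 1 ≤ r₃)
    (h3 : r₃ ≤ R₀) (hZ : ∀ x ∈ Z, x ∈ A0 V a X) (hφ : ∀ i, ∀ x ∈ Z, 0 ≤ φ i x)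
    (hM : MB V Z φ C)
    (hg : ∀ i, Ex (XC (Dr V x₀ a X r₃) u') (fun h => Yv (-2) Z φ h i) -
        Ex (XC (Dr V x₀ a X r₃) l'') (fun h => Yv (-2) Z φ h i) ≤ γ) :
    Pk V η 1 l l' l'' u u' (Dr V x₀ a X r₁) (Dr V x₀ a X r₂) (Dr V x₀ a X r₃) Z φ C γ := by
  obtain ⟨b1, b2, b3, b4⟩ := L.ge5 hη
  obtain ⟨c1, c2, c3, c4⟩ := L.lip hη
  have hsub : ∀ r : ℤ, Dr V x₀ a X r ⊆ V := fun r x hx => (Dr_sub hx).1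
  have hZ3 : ∀ x ∈ Z, x ∈ Dr V x₀ a X r₃ := fun x hx => A0_sub_Dr G h3 (hZ x hx)
  have hu0 := Sm_neg L.U1.hl'.1
  have hu1 := mem_XC.1 hu0.1
  refine ⟨L.E1, L.E2, L.U1, dom3 h12 h23, hsub _, hZ3, hφ, fun D hD hD' => ?_,
    fun D hD hD' => ?_, ?_, ?_, hg⟩
  · exact hM D l (hD'.trans (hsub _)) (fun x hx => hD (hZ3 x hx))
      (l_ne L.E1 (hD'.trans (hsub _))) b1 c1
  · exact hM D l' (hD'.trans (hsub _)) (fun x hx => hD (hZ3 x hx))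
      (l_ne' L.E1 (hD'.trans (hsub _))) b2 c2
  · exact hM _ l'' (hsub _) hZ3 (l_ne' L.E2 (hsub _)) b3 c3
  · exact hM _ u' (hsub _) hZ3 ⟨u', mem_XC.2 ⟨hu1.1, fun _ _ => rfl, hu1.2.2.mono (hsub _)⟩⟩ b4 c4

/-- The radii. -/
structure Rd (t ρ s₂ s₃ s₄ s₅ R₀ : ℤ) : Prop where
  h0 : 1 ≤ ρ
  h1 : ρ + 1 ≤ s₂
  h2 : t * (ρ + 1) ≤ s₂
  h3 : s₂ + 1 ≤ s₃
  h4 : s₃ + 1 ≤ s₄
  h5 : t * (s₃ + 1) ≤ s₄
  h6 : s₄ + 1 ≤ s₅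
  h7 : t * (s₅ + 1) ≤ R₀
  h8 : s₅ + 5 ≤ R₀
  h9 : t * (s₃ + 1) ≤ R₀

theorem exists_rd {t : ℤ} (t1 : 1 ≤ t) : ∃ T : ℤ, 1 ≤ T ∧ ∀ ρ R₀ : ℤ, 1 ≤ ρ → T * (ρ + 1) ≤ R₀ →
    ∃ s₂ s₃ s₄ s₅, Rd t ρ s₂ s₃ s₄ s₅ R₀ := by
  have q1 : 0 ≤ t * (t + 2) := by positivity
  have q2 : 0 ≤ t * (t * (t + 2) + 2) := by positivity
  refine ⟨t * (t * (t + 2) + 2) + 10, by linarith, fun ρ R₀ hρ0 hT => ?_⟩
  set s₂ : ℤ := t * (ρ + 1) with hs₂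
  set s₃ : ℤ := s₂ + 1 with hs₃
  set s₄ : ℤ := t * (s₃ + 1) with hs₄
  have r12 : ρ + 1 ≤ s₂ := by nlinarith
  have r34 : s₃ + 1 ≤ s₄ := by nlinarith
  have hs3' : s₃ + 1 ≤ (t + 2) * (ρ + 1) := by nlinarith
  have hs4' : s₄ ≤ t * (t + 2) * (ρ + 1) := by
    calc s₄ = t * (s₃ + 1) := rfl
      _ ≤ t * ((t + 2) * (ρ + 1)) := mul_le_mul_of_nonneg_left hs3' (by omega)
      _ = _ := by ring
  have hs5' : s₄ + 1 + 1 ≤ (t * (t + 2) + 2) * (ρ + 1) := by nlinarith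
  have hR5 : t * (s₄ + 1 + 1) ≤ R₀ := by
    calc t * (s₄ + 1 + 1) ≤ t * ((t * (t + 2) + 2) * (ρ + 1)) :=
          mul_le_mul_of_nonneg_left hs5' (by omega)
      _ = t * (t * (t + 2) + 2) * (ρ + 1) := by ring
      _ ≤ (t * (t * (t + 2) + 2) + 10) * (ρ + 1) := by nlinarith
      _ ≤ R₀ := hT
  have hR5' : s₄ + 1 + 5 ≤ R₀ := by
    have h1 : (t * (t + 2) + 2) * (ρ + 1) ≤ t * (t * (t + 2) + 2) * (ρ + 1) := by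
      have h2 : 0 ≤ (t * (t + 2) + 2) * (ρ + 1) := by positivity
      nlinarith
    nlinarith
  refine ⟨s₂, s₃, s₄, s₄ + 1, hρ0, r12, le_rfl, le_rfl, r34, le_rfl, le_rfl, hR5, hR5', ?_⟩
  linarith

/-- Constants. -/
structure Kc4 (n k : ℕ) (C τ : ℝ) (t ρ₀ : ℤ) : Prop where
  cD : ∀ (V : Set Pt) (η g : Hg) (x₀ a : Pt) (X : Fin n → Set Pt) (r₀ R₀ r r' R : ℤ),
      Geo V η x₀ a X r₀ R₀ → r₀ ≤ r → r ≤ r' → ρ₀ ≤ r' + 1 → t * (r' + 1) ≤ R → R ≤ R₀ →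
      (XC (Dr V x₀ a X r) g).Nonempty → (∀ z ∈ ebd (Dr V x₀ a X r), -5 ≤ g z) →
      (∀ x ∈ Wr V x₀ a R₀, ∀ z, z ∉ V → Adj x z → 1 ≤ g z) →
      Pr (XC (Dr V x₀ a X r) g) (Bd V x₀ a X r r' R) ≤ τ
  cV : ∀ (V F : Set Pt) (η g : Hg) (x₀ a : Pt) (X : Fin n → Set Pt) (r₀ R₀ r' R : ℤ),
      Geo V η x₀ a X r₀ R₀ → r₀ ≤ r' → ρ₀ ≤ r' + 1 → t * (r' + 1) ≤ R → R ≤ R₀ →
      F ⊆ V → (∀ x ∈ V, x ∉ F → x ∈ bx x₀ r') →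
      (XC F g).Nonempty → (∀ z ∈ ebd F, -5 ≤ g z) →
      (∀ x ∈ Wr V x₀ a R₀, ∀ z, z ∉ V → Adj x z → 1 ≤ g z) →
      Pr (XC F g) (BdV V x₀ a X r' R) ≤ τ
  cG : ∀ (V : Set Pt) (η : Hg) (x₀ a : Pt) (X : Fin n → Set Pt) (r₀ R₀ r : ℤ) (l' l'' u u' : Hg)
      (Z : Finset Pt) (φ : Fin k → Pt → ℝ),
      Geo V η x₀ a X r₀ R₀ → r₀ ≤ r → ρ₀ ≤ r + 1 → t * (r + 1) ≤ R₀ → r + 5 ≤ R₀ →
      (∀ x, η x = 1 ∨ η x = -1) → Env V η 3 l' l'' → Env V (-η) 1 (-u) (-u') →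
      (∀ x ∈ Z, x ∈ A0 V a X) → (∀ i, ∀ x ∈ Z, 0 ≤ φ i x) →
      (∀ i, Ex (XC (Dr V x₀ a X r) l'') (fun h => Yv (-2) Z φ h i ^ 2) ≤ C) →
      (∀ i, Ex (XC (Dr V x₀ a X r) u') (fun h => Yv (-2) Z φ h i ^ 2) ≤ C) →
      ∀ i, Ex (XC (Dr V x₀ a X r) u') (fun h => Yv (-2) Z φ h i) -
        Ex (XC (Dr V x₀ a X r) l'') (fun h => Yv (-2) Z φ h i) ≤ τ

theorem exists_kc4 (hS : LOC.S_land 4) (n k : ℕ) {C τ : ℝ} (hC : 0 ≤ C) (hτ : 0 < τ) :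
    ∃ t : ℤ, 1 ≤ t ∧ ∃ ρ₀ : ℤ, 1 ≤ ρ₀ ∧ Kc4 n k C τ t ρ₀ := by
  set ε₁ : ℝ := τ / ((n : ℝ) ^ 2 + 1) with hε₁
  have hε₁0 : 0 < ε₁ := by positivity
  have e1 : (n : ℝ) ^ 2 * ε₁ ≤ τ := by
    rw [hε₁, mul_div_assoc', div_le_iff₀ (by positivity)]
    nlinarith
  have e2 : (n : ℝ) * ε₁ ≤ τ := by
    have h1 : (n : ℝ) ≤ (n : ℝ) ^ 2 + 1 := by nlinarith [sq_nonneg ((n : ℝ) - 1)]
    rw [hε₁, mul_div_assoc', div_le_iff₀ (by positivity)]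
    nlinarith
  obtain ⟨t₁, ht₁, ρ₁, hρ₁, hc₁⟩ := crossD hS hε₁0
  obtain ⟨t₂, ht₂, ρ₂, hρ₂, hc₂⟩ := crossV hS hε₁0
  obtain ⟨t₃, ht₃, ρ₃, hρ₃, hc₃⟩ := gapD hS n k hC hτ
  set t : ℤ := max t₁ (max t₂ t₃) with ht
  have a1 : t₁ ≤ t := le_max_left _ _
  have a2 : t₂ ≤ t := (le_max_left _ _).trans (le_max_right _ _)
  have a3 : t₃ ≤ t := (le_max_right _ _).trans (le_max_right _ _)
  have t1 : 1 ≤ t := ht₁.trans a1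
  set ρ₀ : ℤ := max ρ₁ (max ρ₂ ρ₃) with hρ₀
  have b1 : ρ₁ ≤ ρ₀ := le_max_left _ _
  have b2 : ρ₂ ≤ ρ₀ := (le_max_left _ _).trans (le_max_right _ _)
  have b3 : ρ₃ ≤ ρ₀ := (le_max_right _ _).trans (le_max_right _ _)
  have mulle : ∀ (t' s : ℤ), t' ≤ t → 0 ≤ s → t' * s ≤ t * s := fun t' s h1 h2 =>
    mul_le_mul_of_nonneg_right h1 h2
  refine ⟨t, t1, ρ₀, hρ₁.trans b1, ?_, ?_, ?_⟩
  · intro V η g x₀ a X r₀ R₀ r r' R G h1 h2 h3 h4 h5 h6 h7 h8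
    exact (hc₁ n V η g x₀ a X r₀ R₀ r r' R G h1 h2 (by omega)
      ((mulle t₁ _ a1 (by omega)).trans h4) h5 h6 h7 h8).trans e1
  · intro V F η g x₀ a X r₀ R₀ r' R G h1 h3 h4 h5 h6 h7 h8 h9 h10
    exact (hc₂ n V F η g x₀ a X r₀ R₀ r' R G h1 (by omega)
      ((mulle t₂ _ a2 (by omega)).trans h4) h5 h6 h7 h8 h9 h10).trans e2
  · intro V η x₀ a X r₀ R₀ r l' l'' u u' Z φ G h1 h3 h4 h5 h6 h7 h8 h9 h10 h11 h12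
    exact hc₃ V η x₀ a X r₀ R₀ r l' l'' u u' Z φ G h1 (by omega)
      ((mulle t₃ _ a3 (by omega)).trans h4) h5 h6 h7 h8 h9 h10 h11 h12

/-- The gap on an outer domain. -/
theorem gap_s {τ : ℝ} {t ρ₀ : ℤ} (kc : Kc4 n k C τ t ρ₀) (G : Geo V η x₀ a X r₀ R₀)
    (L : Lvl V η l l' l'' u u') (hη : ∀ x, η x = 1 ∨ η x = -1) (hZ : ∀ x ∈ Z, x ∈ A0 V a X)
    (hφ : ∀ i, ∀ x ∈ Z, 0 ≤ φ i x) (hM : MB V Z φ C) {s : ℤ} (h1 : r₀ ≤ s) (h2 : ρ₀ ≤ s + 1)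
    (h3 : t * (s + 1) ≤ R₀) (h4 : s + 5 ≤ R₀) (i : Fin k) :
    Ex (XC (Dr V x₀ a X s) u') (fun h => Yv (-2) Z φ h i) -
        Ex (XC (Dr V x₀ a X s) l'') (fun h => Yv (-2) Z φ h i) ≤ τ := by
  obtain ⟨b1, b2, b3, b4⟩ := L.ge5 hη
  obtain ⟨c1, c2, c3, c4⟩ := L.lip hη
  have hsub : Dr V x₀ a X s ⊆ V := fun x hx => (Dr_sub hx).1
  have hZs : ∀ x ∈ Z, x ∈ Dr V x₀ a X s := fun x hx => A0_sub_Dr G (by omega) (hZ x hx)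
  have hu1 := mem_XC.1 (Sm_neg L.U1.hl'.1).1
  exact kc.cG V η x₀ a X r₀ R₀ s l' l'' u u' Z φ G h1 h2 h3 h4 hη L.E2 L.U1 hZ hφ
    (fun i => Y_sq_le _ i (hM _ l'' hsub hZs (l_ne' L.E2 hsub) b3 c3))
    (fun i => Y_sq_le _ i (hM _ u' hsub hZs
      ⟨u', mem_XC.2 ⟨hu1.1, fun _ _ => rfl, hu1.2.2.mono hsub⟩⟩ b4 c4)) i

/-- The middle law. -/
theorem mid_l {τ : ℝ} {t ρ₀ s₂ s₃ s₄ s₅ : ℤ} (kc : Kc4 n k C τ t ρ₀) (G : Geo V η x₀ a X r₀ R₀)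
    (L : Lvl V η l l' l'' u u') (hη : ∀ x, η x = 1 ∨ η x = -1) (rd : Rd t ρ s₂ s₃ s₄ s₅ R₀)
    (hr0 : r₀ ≤ ρ) (hρ : ρ₀ ≤ ρ) :
    Pr (XC (Dr V x₀ a X ρ) l)
      {h | h ∉ gd (-(1 + 2)) V (Dr V x₀ a X s₃) (Dr V x₀ a X s₄)} ≤ τ := by
  obtain ⟨q0, q1, q2, q3, q4, q5, q6, q7, q8, q9⟩ := rd
  have hsub : ∀ r : ℤ, Dr V x₀ a X r ⊆ V := fun r x hx => (Dr_sub hx).1
  refine (Pr_mono fun h _ hh => G.gd_bd (r := ρ) (by omega) (by omega) hh).trans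
    (kc.cD V η l x₀ a X r₀ R₀ ρ s₃ s₄ G hr0 (by omega) (by omega)
      q5 (by omega) (l_ne L.E1 (hsub _)) (fun z hz => ?_) fun x hx z hz hxz => ?_)
  · have := abs_le.1 ((L.ge5 hη).1 z)
    omega
  · rw [IsLeast.off L.E1.hl hz, G.good x hx z hz hxz]

theorem mid_u {τ : ℝ} {t ρ₀ s₂ s₃ s₄ s₅ : ℤ} (kc : Kc4 n k C τ t ρ₀) (G : Geo V η x₀ a X r₀ R₀)
    (L : Lvl V η l l' l'' u u') (hη : ∀ x, η x = 1 ∨ η x = -1) (rd : Rd t ρ s₂ s₃ s₄ s₅ R₀)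
    (hr0 : r₀ ≤ ρ) (hρ : ρ₀ ≤ ρ) :
    Pr (XC (Dr V x₀ a X ρ) l)
      {h | -h ∉ gd (-(1 + 2)) V (Dr V x₀ a X s₃) (Dr V x₀ a X s₄)} ≤ τ := by
  obtain ⟨q0, q1, q2, q3, q4, q5, q6, q7, q8, q9⟩ := rd
  have hsub : ∀ r : ℤ, Dr V x₀ a X r ⊆ V := fun r x hx => (Dr_sub hx).1
  have hfin : (Dr V x₀ a X ρ).Finite := G.fin.subset (hsub _)
  have e1 : Pr (XC (Dr V x₀ a X ρ) l)
      {h | -h ∉ gd (-(1 + 2)) V (Dr V x₀ a X s₃) (Dr V x₀ a X s₄)} ≤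
      Pr (XC (Dr V x₀ a X ρ) l) {h | rf 1 h ∈ Bd V x₀ a X ρ s₃ s₄} :=
    Pr_mono fun h _ hh => G.gd_bd' (by omega) (by omega) hh
  rw [Pr_rf hfin] at e1
  have hne : (XC (Dr V x₀ a X ρ) (rf 1 l)).Nonempty := ⟨_, rf_mem (l_ne L.E1 (hsub _)).some_mem⟩
  refine e1.trans (kc.cD V η (rf 1 l) x₀ a X r₀ R₀ ρ s₃ s₄ G hr0 (by omega) (by omega)
      q5 (by omega) hne (fun z hz => ?_) fun x hx z hz hxz => ?_)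
  · have := abs_le.1 ((L.ge5 hη).1 z)
    show -5 ≤ 2 * 1 - l z
    omega
  · show 1 ≤ 2 * 1 - l z
    rw [IsLeast.off L.E1.hl hz, G.good x hx z hz hxz]
    norm_num

/-- A law in `V` with a small hull removed. -/
theorem hull_law {τ : ℝ} {t ρ₀ s₂ s₃ s₄ s₅ : ℤ} (kc : Kc4 n k C τ t ρ₀)
    (G : Geo V η x₀ a X r₀ R₀) (L : Lvl V η l l' l'' u u') (rd : Rd t ρ s₂ s₃ s₄ s₅ R₀)
    (hr0 : r₀ ≤ ρ) (hρ : ρ₀ ≤ ρ) (hZ : ∀ x ∈ Z, x ∈ A0 V a X) (hM : MB V Z φ C)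
    {D : Set Pt} {g : Hg} (hDV : D ⊆ V) (hDW : ∀ x ∈ V, x ∉ D → x ∈ Wr V x₀ a ρ)
    (hg : ∀ x, g x = 1 ∨ g x = -1) (hgη : ∀ x, x ∉ V → g x = η x) :
    ∃ Q : Measure Hg, Qk V η 1 l u (Dr V x₀ a X ρ) (Dr V x₀ a X s₂) Z φ C τ Q ∧
      ∫ h, ∏ i, Yv (-2) Z φ h i ∂Q = Ex (XC D g) (fun h => ∏ i, Yv (-2) Z φ h i) := by
  obtain ⟨q0, q1, q2, q3, q4, q5, q6, q7, q8, q9⟩ := rd
  have hDr : Dr V x₀ a X ρ ⊆ D := by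
    intro x hx
    by_contra h
    exact (Dr_sub hx).2 (hDW x (Dr_sub hx).1 h)
  have hgg : ∀ x y : Pt, Adj x y → |g x - g y| ≤ 2 := fun x y _ => by
    rcases hg x with h | h <;> rcases hg y with h' | h' <;> rw [h, h'] <;> norm_num
  have hne : (XC D g).Nonempty := ⟨g, pm_mem hg fun _ _ => rfl⟩
  have hZD : ∀ x ∈ Z, x ∈ D := fun x hx => hDr (A0_sub_Dr G (by omega) (hZ x hx))
  have hbx : ∀ x ∈ V, x ∉ D → x ∈ bx x₀ ρ := fun x hx hxD => (Wr_sub (hDW x hx hxD)).2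
  have hgb : ∀ x, -5 ≤ g x ∧ g x ≤ 1 := fun x => by
    rcases hg x with h | h <;> rw [h] <;> norm_num
  refine exists_Qh (r := ρ) (R := s₂) (ε := τ) (C := C) (Z := Z) (φ := φ) G L hgη
    hDV (by omega) hDr hne (hM D g hDV hZD hne (fun x => by
      rcases hg x with h | h <;> rw [h] <;> norm_num) hgg) ?_ ?_
  · exact kc.cV V D η g x₀ a X r₀ R₀ ρ s₂ G hr0 (by omega) q2 (by omega) hDV hbx hne
      (fun z _ => (hgb z).1) fun x hx z hz hxz => by rw [hgη z hz, G.good x hx z hz hxz]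
  · refine kc.cV V D η (rf 1 g) x₀ a X r₀ R₀ ρ s₂ G hr0 (by omega) q2 (by omega) hDV hbx
      ⟨_, rf_mem hne.some_mem⟩ (fun z _ => ?_) fun x hx z hz hxz => ?_
    · show -5 ≤ 2 * 1 - g z
      have := (hgb z).2
      omega
    · show 1 ≤ 2 * 1 - g z
      rw [hgη z hz, G.good x hx z hz hxz]
      norm_num

/-- **INSERTION, lattice form.** -/
theorem lat_rins (hS : LOC.S_land 4) (n k : ℕ) {C e : ℝ} (hC : 0 ≤ C) (he : 0 < e) :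
    ∃ T : ℤ, 1 ≤ T ∧ ∃ ρ₀ : ℤ, 1 ≤ ρ₀ ∧ ∀ (V N : Set Pt) (η : Hg) (x₀ a : Pt)
      (X : Fin n → Set Pt) (r₀ R₀ ρ : ℤ) (Z : Finset Pt) (φ : Fin k → Pt → ℝ),
      Geo V η x₀ a X r₀ R₀ → r₀ ≤ ρ → ρ₀ ≤ ρ → T * (ρ + 1) ≤ R₀ → (∀ x, η x = 1 ∨ η x = -1) →
      N ⊆ Wr V x₀ a ρ → (∀ x ∈ Z, x ∈ A0 V a X) → (∀ i, ∀ x ∈ Z, 0 ≤ φ i x) → MB V Z φ C →
      |Ex (XC V η) (fun h => ∏ i, Yv (-2) Z φ h i) -
        Ex (XC (V \ N) (put η N 1)) (fun h => ∏ i, Yv (-2) Z φ h i)| ≤ e := by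
  classical
  obtain ⟨K, L, τ, hK, hL, hτ, her⟩ := er_small k hC (e := e / 2) (by positivity)
  obtain ⟨t, t1, ρ₀, hρ₀, kc⟩ := exists_kc4 hS n k hC hτ
  obtain ⟨T, hT1, hT2⟩ := exists_rd t1
  refine ⟨T, hT1, ρ₀, hρ₀, fun V N η x₀ a X r₀ R₀ ρ Z φ G hr0 hρ hT hη hN hZ hφ hM => ?_⟩
  obtain ⟨l, l', l'', u, u', Lv⟩ := exists_lvl G.fin hη
  obtain ⟨s₂, s₃, s₄, s₅, rd⟩ := hT2 ρ R₀ (by omega) hT
  have rd' := rd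
  obtain ⟨q0, q1, q2, q3, q4, q5, q6, q7, q8, q9⟩ := rd'
  have p1 := exists_pk (r₁ := ρ) (r₂ := s₂) (r₃ := s₃) (γ := τ) G Lv hη (by omega) q3 (by omega)
    hZ hφ hM fun i => gap_s kc G Lv hη hZ hφ hM (by omega) (by omega) q9 (by omega) i
  have p2 := exists_pk (r₁ := s₃) (r₂ := s₄) (r₃ := s₅) (γ := τ) G Lv hη (by omega) q6 (by omega)
    hZ hφ hM fun i => gap_s kc G Lv hη hZ hφ hM (by omega) (by omega) q7 (by omega) i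
  have hlow := mid_l kc G Lv hη rd hr0 hρ
  have hup := mid_u kc G Lv hη rd hr0 hρ
  have hull : ∀ (D : Set Pt) (g : Hg), D ⊆ V → (∀ x ∈ V, x ∉ D → x ∈ Wr V x₀ a ρ) →
      (∀ x, g x = 1 ∨ g x = -1) → (∀ x, x ∉ V → g x = η x) →
      |Ex (XC D g) (fun h => ∏ i, Yv (-2) Z φ h i) -
        Ex (XC (Dr V x₀ a X s₃) l) (fun h => ∏ i, Yv (-2) Z φ h i)| ≤ e / 2 := by
    intro D g hDV hDW hg hgη
    obtain ⟨Q, q, hQ⟩ := hull_law kc G Lv rd hr0 hρ hZ hM hDV hDW hg hgη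
    have key := compare p1 p2 hlow hup q hτ.le hK hL
    have e3 : (-(1 + 1) : ℤ) = -2 := by norm_num
    rw [e3, hQ] at key
    exact key.trans (her τ τ hτ.le le_rfl hτ.le le_rfl)
  have k1 := hull V η subset_rfl (fun x hx h => absurd hx h) hη fun _ _ => rfl
  have k2 := hull (V \ N) (put η N 1) sdiff_subset (fun x hx h => by
      by_contra h1
      exact h ⟨hx, fun h2 => h1 (hN h2)⟩) (fun x => by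
      unfold put
      split_ifs
      · exact Or.inl rfl
      · exact hη x) (fun x hx => by
      unfold put
      rw [if_neg fun h => hx (Wr_sub (hN h)).1])
  have k3 := abs_sub_le (Ex (XC V η) (fun h => ∏ i, Yv (-2) Z φ h i))
    (Ex (XC (Dr V x₀ a X s₃) l) (fun h => ∏ i, Yv (-2) Z φ h i))
    (Ex (XC (V \ N) (put η N 1)) (fun h => ∏ i, Yv (-2) Z φ h i))
  rw [abs_sub_comm (Ex (XC (Dr V x₀ a X s₃) l) (fun h => ∏ i, Yv (-2) Z φ h i))] at k3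
  linarith

end Vale.Agent.P153.R2.RINS
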