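import Vale.Agent.P153.R2.RINS.Dist

/-!
# P153-R2, block RINS: exact data; locality; comparison with the data of a smaller domain
-/

namespace Vale.Agent.P153.R2.RINS

open Set Relation
open Vale.Agent.P153
open Vale.Agent.P153.Topo (Conn)

/-- `F` depends only on the heights on `U`. -/
def DepOn {β : Type*} (U : Set Pt) (F : Hg → β) : Prop :=
  ∀ h g : Hg, (∀ x ∈ U, h x = g x) → F h = F g

theorem DepOn.mono {β : Type*} {U U' : Set Pt} (hU : U ⊆ U') {F : Hg → β} (hF : DepOn U F) :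
    DepOn U' F := fun h g hh => hF h g fun x hx => hh x (hU hx)

/-- Law with the exact data `g` off `V`. -/
noncomputable def XC (V : Set Pt) (g : Hg) : Set Hg := Cfg V (exa V g)

theorem mem_XC {V : Set Pt} {g h : Hg} : h ∈ XC V g ↔
    (∀ x, Odd (h x)) ∧ (∀ x, x ∉ V → h x = g x) ∧ LipV V h := by
  classical
  unfold XC
  constructor
  · intro hh
    refine ⟨hh.1, fun x hx => ?_, Cfg.lipV hh⟩
    have := hh.2.1 x
    unfold exa at this
    rw [if_neg hx] at this
    exact this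
  · rintro ⟨h1, h2, h3⟩
    refine ⟨h1, fun x => ?_, fun x hx y hxy => h3 x y ⟨hxy, Or.inl hx⟩⟩
    unfold exa
    split_ifs with hx
    · trivial
    · exact h2 x hx

theorem dat_exa {V : Set Pt} (hV : V.Finite) (g : Hg) : Dat V (exa V g) := by
  classical
  refine ⟨hV, fun x hx => ?_, hV.subset fun x hx => ?_⟩
  · unfold exa
    rw [if_neg hx]
    exact Set.finite_singleton _
  · by_contra h1
    apply hx
    unfold exa
    rw [if_neg h1]
    exact Set.subsingleton_singleton

theorem XC_finite {V : Set Pt} (hV : V.Finite) (g : Hg) : (XC V g).Finite :=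
  Cfg_finite (dat_exa hV g)

theorem ebd_sub_compl (V : Set Pt) : ebd V ⊆ Vᶜ := fun _ hx => hx.1

theorem adj_mem_ebd {V : Set Pt} {x y : Pt} (hx : x ∈ V) (hy : y ∉ V) (h : Adj x y) :
    y ∈ ebd V := ⟨hy, x, hx, h⟩

open Classical in
/-- Change the data off `V`. -/
noncomputable def chg (V : Set Pt) (g h : Hg) : Hg := fun x => if x ∈ V then h x else g x

theorem chg_in {V : Set Pt} {g h : Hg} {x : Pt} (hx : x ∈ V) : chg V g h x = h x := if_pos hx

theorem chg_out {V : Set Pt} {g h : Hg} {x : Pt} (hx : x ∉ V) : chg V g h x = g x := if_neg hx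

/-- The data away from the boundary are irrelevant. -/
theorem chg_mem {V : Set Pt} {g g' h : Hg} (hg' : ∀ x, Odd (g' x)) (hgg : ∀ x ∈ ebd V, g x = g' x)
    (hh : h ∈ XC V g) : chg V g' h ∈ XC V g' := by
  rw [mem_XC] at *
  obtain ⟨h1, h2, h3⟩ := hh
  have key : ∀ x y, x ∈ V → Adj x y → |chg V g' h x - chg V g' h y| ≤ 2 := by
    intro x y hx hxy
    rw [chg_in hx]
    by_cases hy : y ∈ V
    · rw [chg_in hy]
      exact h3 x y ⟨hxy, Or.inl hx⟩
    · rw [chg_out hy, ← hgg y (adj_mem_ebd hx hy hxy), ← h2 y hy]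
      exact h3 x y ⟨hxy, Or.inl hx⟩
  refine ⟨fun x => ?_, fun x hx => chg_out hx, fun x y hxy => ?_⟩
  · by_cases hx : x ∈ V
    · rw [chg_in hx]; exact h1 x
    · rw [chg_out hx]; exact hg' x
  · rcases hxy.2 with h4 | h4
    · exact key x y h4 hxy.1
    · rw [abs_sub_comm]
      exact key y x h4 (Topo.adj_symm hxy.1)

theorem XC_irr {V : Set Pt} {g g' : Hg} (hg : ∀ x, Odd (g x)) (hg' : ∀ x, Odd (g' x))
    (hgg : ∀ x ∈ ebd V, g x = g' x) {F : Hg → ℝ} (hF : DepOn V F) :
    Ex (XC V g) F = Ex (XC V g') F := by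
  have hb : BijOn (chg V g') (XC V g) (XC V g') := by
    refine ⟨fun h hh => chg_mem hg' hgg hh, ?_, ?_⟩
    · intro h hh k hk e
      funext x
      by_cases hx : x ∈ V
      · have := congrFun e x
        rwa [chg_in hx, chg_in hx] at this
      · rw [(mem_XC.1 hh).2.1 x hx, (mem_XC.1 hk).2.1 x hx]
    · intro k hk
      refine ⟨chg V g k, chg_mem hg (fun x hx => (hgg x hx).symm) hk, ?_⟩
      funext x
      by_cases hx : x ∈ V
      · rw [chg_in hx, chg_in hx]
      · rw [chg_out hx, (mem_XC.1 hk).2.1 x hx]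
  rw [Ex_bij _ hb]
  refine Ex_congr fun h _ => hF _ _ fun x hx => ?_
  rw [chg_in hx]

theorem XC_irr_ne {V : Set Pt} {g g' : Hg} (hg' : ∀ x, Odd (g' x))
    (hgg : ∀ x ∈ ebd V, g x = g' x) (hne : (XC V g).Nonempty) : (XC V g').Nonempty :=
  hne.elim fun _ hh => ⟨_, chg_mem hg' hgg hh⟩

/-- Monotonicity in the exact data on the boundary. -/
theorem XC_le {V : Set Pt} (hV : V.Finite) {g g' : Hg} (hg : ∀ x, Odd (g x))
    (hg' : ∀ x, Odd (g' x)) (hgg : ∀ x ∈ ebd V, g x ≤ g' x) (hne : (XC V g).Nonempty)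
    (hne' : (XC V g').Nonempty) {F : Hg → ℝ} (hF : DepOn V F) (hm : Monotone F) :
    Ex (XC V g) F ≤ Ex (XC V g') F := by
  classical
  set g2 : Hg := fun x => if x ∈ ebd V then g x else g' x with hg2
  have o2 : ∀ x, Odd (g2 x) := by
    intro x
    rw [hg2]
    dsimp only
    split_ifs
    · exact hg x
    · exact hg' x
  have e2 : ∀ x ∈ ebd V, g x = g2 x := by
    intro x hx
    rw [hg2]
    dsimp only
    rw [if_pos hx]
  rw [XC_irr hg o2 e2 hF]
  obtain ⟨h0, hh0⟩ := hne
  have hne2 : (XC V g2).Nonempty := ⟨_, chg_mem o2 e2 hh0⟩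
  apply Cfg_le (dat_exa hV g2) (dat_exa hV g') hne2 hne' _ F hm
  intro x a ha b hb
  unfold exa at *
  by_cases hx : x ∈ V
  · rw [if_pos hx] at *
    rw [if_pos hx] at *
    exact ⟨trivial, trivial⟩
  · rw [if_neg hx] at *
    rw [if_neg hx] at *
    rw [mem_singleton_iff] at ha hb
    subst ha
    subst hb
    have : g2 x ≤ g' x := by
      rw [hg2]
      dsimp only
      split_ifs with h1
      · exact hgg x h1
      · exact le_rfl
    rw [min_eq_left this, max_eq_right this]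
    exact ⟨rfl, rfl⟩

/-- The conditional law in a smaller domain, given the heights off it. -/
theorem XC_fiber {V V' : Set Pt} {J : Pt → Set ℤ} {h : Hg} (hh : h ∈ Cfg V J) (hV : V' ⊆ V)
    (hJ : ∀ x ∈ V', J x = univ) : Cfg V J ∩ {g | ∀ x, x ∉ V' → g x = h x} = XC V' h := by
  classical
  rw [Cfg_agree hh hV]
  unfold XC
  congr 1
  funext x
  unfold exa
  split_ifs with hx
  · exact hJ x hx
  · rfl

theorem XC_sub_fiber {V V' : Set Pt} {g h : Hg} (hh : h ∈ XC V g) (hV : V' ⊆ V) :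
    XC V g ∩ {k | ∀ x, x ∉ V' → k x = h x} = XC V' h := by
  classical
  exact XC_fiber hh hV fun x hx => by
    unfold exa
    rw [if_pos (hV hx)]

theorem self_mem_XC {V V' : Set Pt} {J : Pt → Set ℤ} {h : Hg} (hh : h ∈ Cfg V J) (hV : V' ⊆ V) :
    h ∈ XC V' h := mem_XC.2 ⟨hh.1, fun _ _ => rfl, (Cfg.lipV hh).mono hV⟩

/-- Comparison from below with exact data of a smaller domain. -/
theorem low_le {V V' : Set Pt} {J : Pt → Set ℤ} (hd : Dat V J) (hV : V' ⊆ V)
    (hJ : ∀ x ∈ V', J x = univ) (hne : (Cfg V J).Nonempty) {g : Hg} (hg : ∀ x, Odd (g x))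
    (hgne : (XC V' g).Nonempty) (hle : ∀ h ∈ Cfg V J, ∀ x ∈ ebd V', g x ≤ h x)
    {F : Hg → ℝ} (hF : DepOn V' F) (hm : Monotone F) :
    Ex (XC V' g) F ≤ Ex (Cfg V J) F := by
  classical
  have hfin := Cfg_finite hd
  have hV'f := hd.fin.subset hV
  let φ : Hg → Hg := fun h x => if x ∈ V' then 0 else h x
  have hφ : ∀ h k : Hg, φ h = φ k ↔ ∀ x, x ∉ V' → h x = k x := by
    intro h k
    constructor
    · intro e x hx
      have := congrFun e x
      simpa [φ, hx] using this
    · intro e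
      funext x
      by_cases hx : x ∈ V'
      · simp [φ, hx]
      · simpa [φ, hx] using e x hx
  have key := Ex_le_of_fiber hfin φ (fun h => - F h) (fun _ => - Ex (XC V' g) F)
    (fun _ _ _ _ _ => rfl) ?_
  · rw [Ex_neg, Ex_const hfin hne] at key
    linarith
  · intro a ha
    have e : Cfg V J ∩ {b | φ b = φ a} = XC V' a := by
      rw [← XC_fiber ha hV hJ]
      congr 1
      ext b
      exact hφ b a
    rw [e, Ex_neg]
    have := XC_le hV'f hg ha.1 (hle a ha) hgne ⟨a, self_mem_XC ha hV⟩ hF hm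
    linarith

/-- Comparison from above. -/
theorem le_high {V V' : Set Pt} {J : Pt → Set ℤ} (hd : Dat V J) (hV : V' ⊆ V)
    (hJ : ∀ x ∈ V', J x = univ) (hne : (Cfg V J).Nonempty) {g : Hg} (hg : ∀ x, Odd (g x))
    (hgne : (XC V' g).Nonempty) (hle : ∀ h ∈ Cfg V J, ∀ x ∈ ebd V', h x ≤ g x)
    {F : Hg → ℝ} (hF : DepOn V' F) (hm : Monotone F) :
    Ex (Cfg V J) F ≤ Ex (XC V' g) F := by
  classical
  have hfin := Cfg_finite hd
  have hV'f := hd.fin.subset hV
  let φ : Hg → Hg := fun h x => if x ∈ V' then 0 else h x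
  have hφ : ∀ h k : Hg, φ h = φ k ↔ ∀ x, x ∉ V' → h x = k x := by
    intro h k
    constructor
    · intro e x hx
      have := congrFun e x
      simpa [φ, hx] using this
    · intro e
      funext x
      by_cases hx : x ∈ V'
      · simp [φ, hx]
      · simpa [φ, hx] using e x hx
  have key := Ex_le_of_fiber hfin φ F (fun _ => Ex (XC V' g) F)
    (fun _ _ _ _ _ => rfl) ?_
  · rwa [Ex_const hfin hne] at key
  · intro a ha
    have e : Cfg V J ∩ {b | φ b = φ a} = XC V' a := by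
      rw [← XC_fiber ha hV hJ]
      congr 1
      ext b
      exact hφ b a
    rw [e]
    exact XC_le hV'f ha.1 hg (hle a ha) ⟨a, self_mem_XC ha hV⟩ hgne hF hm

end Vale.Agent.P153.R2.RINS
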