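import Vale.Agent.P153.R2.RINS.Gap

/-!
# P153-R2, block RINS: the levels for data `±1`
-/

namespace Vale.Agent.P153.R2.RINS

open Set Relation MeasureTheory
open Vale.Agent.P153
open Vale.Agent.P153.Topo (Conn adj_symm)

variable {n k : ℕ} {V F D E T : Set Pt} {η g h l l' l'' u u' : Hg} {x₀ a x y z w p : Pt}
  {X : Fin n → Set Pt} {r r' r'' R r₀ R₀ ℓ : ℤ} {i : Fin n} {Z : Finset Pt} {φ : Fin k → Pt → ℝ}

/-- Configurations with the values `±1` are admissible. -/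
theorem pm_mem (hh : ∀ x, h x = 1 ∨ h x = -1) (he : ∀ x, x ∉ D → h x = g x) : h ∈ XC D g := by
  refine mem_XC.2 ⟨fun x => ?_, he, fun x y _ => ?_⟩
  · rcases hh x with h1 | h1 <;> rw [h1] <;> decide
  · rcases hh x with h1 | h1 <;> rcases hh y with h2 | h2 <;> rw [h1, h2] <;> norm_num

/-- The levels. -/
structure Lvl (V : Set Pt) (η l l' l'' u u' : Hg) : Prop where
  E1 : Env V η 1 l l'
  E2 : Env V η 3 l' l''
  U1 : Env V (-η) 1 (-u) (-u')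
  lV : ∀ x ∈ V, l x = -1
  uV : ∀ x ∈ V, u x = 1

theorem exists_lvl (hV : V.Finite) (hη : ∀ x, η x = 1 ∨ η x = -1) :
    ∃ l l' l'' u u', Lvl V η l l' l'' u u' := by
  classical
  have hc : ∀ (η : Hg) (c : ℤ), (∀ x, η x = 1 ∨ η x = -1) → (c = 1 ∨ c = -1) →
      (fun x => if x ∈ V then c else η x) ∈ Sm V η 1 := by
    intro η c hη hc
    refine ⟨pm_mem (fun x => ?_) (fun x hx => if_neg hx), fun x hx => ?_⟩
    · split_ifs
      · exact hc
      · exact hη x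
    · dsimp only
      rw [if_pos hx]
      rcases hc with h | h <;> rw [h] <;> norm_num
  have hn : ∀ x, (-η) x = 1 ∨ (-η) x = -1 := fun x => by
    rw [Pi.neg_apply]
    rcases hη x with h | h <;> rw [h] <;> norm_num
  have hne : ∀ m : ℤ, 1 ≤ m → (Sm V η m).Nonempty := fun m hm =>
    ⟨_, Sm_mono hm (hc η 1 hη (Or.inl rfl))⟩
  have hne' : ∀ m : ℤ, 1 ≤ m → (Sm V (-η) m).Nonempty := fun m hm =>
    ⟨_, Sm_mono hm (hc (-η) 1 hn (Or.inl rfl))⟩
  have hb : ∀ (η : Hg), (∀ x, η x = 1 ∨ η x = -1) → ∀ m : ℤ, 1 ≤ m → ∀ x ∈ ebd V, |η x| ≤ m := by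
    intro η hη m hm x _
    rcases hη x with h | h <;> rw [h] <;> simpa using hm
  obtain ⟨l, hl⟩ := exists_least hV (hne 1 le_rfl)
  obtain ⟨l', hl'⟩ := exists_least hV (hne (1 + 2) (by norm_num))
  obtain ⟨l'', hl''⟩ := exists_least hV (hne (3 + 2) (by norm_num))
  obtain ⟨u, hu⟩ := exists_least hV (hne' 1 le_rfl)
  obtain ⟨u', hu'⟩ := exists_least hV (hne' (1 + 2) (by norm_num))
  refine ⟨l, l', l'', -u, -u', ⟨hV, odd_one, zero_le_one, hb η hη 1 le_rfl, hl, hl'⟩,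
    ⟨hV, by decide, by norm_num, hb η hη 3 (by norm_num), by norm_num at hl' ⊢; exact hl', hl''⟩,
    ⟨hV, odd_one, zero_le_one, hb (-η) hn 1 le_rfl, by rw [neg_neg]; exact hu,
      by rw [neg_neg]; exact hu'⟩, fun x hx => ?_, fun x hx => ?_⟩
  · have h1 := IsLeast.ge hl hx
    have h2 := hl.2 (hc η (-1) hη (Or.inr rfl)) x
    dsimp only at h2
    rw [if_pos hx] at h2
    omega
  · have h1 := IsLeast.ge hu hx
    have h2 := hu.2 (hc (-η) (-1) hn (Or.inr rfl)) x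
    dsimp only at h2
    rw [if_pos hx] at h2
    rw [Pi.neg_apply]
    omega

namespace Lvl

variable (L : Lvl V η l l' l'' u u')

include L

theorem ge5 (hη : ∀ x, η x = 1 ∨ η x = -1) : (∀ x, |l x| ≤ 5) ∧ (∀ x, |l' x| ≤ 5) ∧
    (∀ x, |l'' x| ≤ 5) ∧ (∀ x, |u' x| ≤ 5) := by
  have h1 : ∀ x, |η x| ≤ 5 := fun x => by rcases hη x with h | h <;> rw [h] <;> norm_num
  have key : ∀ (g : Hg) (m : ℤ), m ≤ 5 → g ∈ Sm V η m → ∀ x, |g x| ≤ 5 := by
    intro g m hm hg x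
    by_cases hx : x ∈ V
    · exact (hg.2 x hx).trans hm
    · rw [(mem_XC.1 hg.1).2.1 x hx]
      exact h1 x
  exact ⟨key l 1 (by norm_num) L.E1.hl.1, key l' 3 (by norm_num) L.E2.hl.1,
    key l'' (3 + 2) (by norm_num) L.E2.hl'.1, key u' (1 + 2) (by norm_num) (Sm_neg L.U1.hl'.1)⟩

theorem lip (hη : ∀ x, η x = 1 ∨ η x = -1) : (∀ x y, Adj x y → |l x - l y| ≤ 2) ∧
    (∀ x y, Adj x y → |l' x - l' y| ≤ 2) ∧
    (∀ x y, Adj x y → |l'' x - l'' y| ≤ 2) ∧ (∀ x y, Adj x y → |u' x - u' y| ≤ 2) := by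
  have key : ∀ g ∈ XC V η, ∀ x y, Adj x y → |g x - g y| ≤ 2 := by
    intro g hg x y hxy
    have h0 := mem_XC.1 hg
    by_cases h1 : x ∈ V ∨ y ∈ V
    · exact h0.2.2 x y ⟨hxy, h1⟩
    · push Not at h1
      rw [h0.2.1 x h1.1, h0.2.1 y h1.2]
      rcases hη x with h | h <;> rcases hη y with h' | h' <;> rw [h, h'] <;> norm_num
  exact ⟨key l L.E1.hl.1.1, key l' L.E2.hl.1.1, key l'' L.E2.hl'.1.1,
    key u' (Sm_neg L.U1.hl'.1).1⟩

/-- Typical boundary values. -/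
theorem bdy {D₁ D : Set Pt} {g ω : Hg} (hg : ∀ x, x ∉ V → g x = η x) (hDV : D ⊆ V)
    (h1 : D₁ ⊆ D) (hω : ω ∈ XC D g) : Bdy V D₁ η 1 l u ω := by
  have h0 := mem_XC.1 hω
  have hnb : ∀ y ∈ ebd D₁, y ∉ V → ω y = η y := fun y _ hyV => by
    rw [h0.2.1 y fun h => hyV (hDV h), hg y hyV]
  refine ⟨h0.1, h0.2.2.mono h1, hnb, fun y hy => ?_, fun y hy => ?_⟩
  · by_cases hyV : y ∈ V
    · rw [L.lV y hyV]
      exact le_max_right _ _
    · rw [hnb y hy hyV, IsLeast.off L.E1.hl hyV]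
      exact le_max_left _ _
  · by_cases hyV : y ∈ V
    · rw [L.uV y hyV]
      exact min_le_right _ _
    · rw [hnb y hy hyV, (mem_XC.1 (Sm_neg L.U1.hl.1).1).2.1 y hyV]
      exact min_le_left _ _

end Lvl

end Vale.Agent.P153.R2.RINS
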