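import Vale.Agent.P153.R2.RINS.Frz
import Vale.Agent.P153.R2.RINS.Fun
import Vale.Agent.P153.R2.RINS.Refl

/-!
# P153-R2, block RINS: comparison of the moments in a domain and in a smaller domain
-/

namespace Vale.Agent.P153.R2.RINS

open Set Relation
open Vale.Agent.P153
open Vale.Agent.P153.Topo (Conn)

variable {V D D' : Set Pt} {η l l' l'' u u' : Hg} {m s : ℤ} {k : ℕ} {Z : Finset Pt}
  {φ : Fin k → Pt → ℝ}

theorem sub_nb (D : Set Pt) : D ⊆ nb D := fun _ h => Or.inl h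

theorem l_ne (E : Env V η m l l') (hD : D ⊆ V) : (XC D l).Nonempty := ⟨l, IsLeast.mem_XC E.hl hD⟩

theorem l_ne' (E : Env V η m l l') (hD : D ⊆ V) : (XC D l').Nonempty :=
  ⟨l', IsLeast.mem_XC E.hl' hD⟩

/-- The functional with another shift. -/
theorem Yv_shift {S : Set Hg} (hS : S.Finite) (hn : S.Nonempty) (s s' : ℤ) (i : Fin k) :
    Ex S (fun h => Yv s Z φ h i) =
      Ex S (fun h => Yv s' Z φ h i) + ((s' - s : ℤ) : ℝ) * ∑ x ∈ Z, φ i x := by
  have e : ∀ h : Hg, Yv s Z φ h i = Yv s' Z φ h i + ((s' - s : ℤ) : ℝ) * ∑ x ∈ Z, φ i x := by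
    intro h
    unfold Yv
    rw [Finset.mul_sum, ← Finset.sum_add_distrib]
    refine Finset.sum_congr rfl fun x _ => ?_
    push_cast
    ring
  rw [Ex_congr fun h _ => e h, Ex_add, Ex_const hS hn]

/-- LEMMA M, lower: the mean for the data `l` on `D` is above the mean for the lower data `l'` on
the smaller domain `D'`. -/
theorem mean_low (E : Env V η m l l') (hD : D ⊆ V) (hD' : D' ⊆ D) (hZ : ∀ x ∈ Z, x ∈ D')
    (hφ : ∀ i, ∀ x ∈ Z, 0 ≤ φ i x) (i : Fin k) :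
    Ex (XC D' l') (fun h => Yv s Z φ h i) ≤ Ex (XC D l) (fun h => Yv s Z φ h i) := by
  have h1 := E.frz hD (D' := D') (k := 1) (Z := Z) (φ := fun _ => φ i)
    (fun x hx => sub_nb D (hD' (hZ x hx))) (fun _ => hφ i)
  have e : ∀ h : Hg, pm (-(m + 1)) 1 Z (fun _ : Fin 1 => φ i) h = Yv (-(m + 1)) Z φ h i := by
    intro h
    rw [pm_eq]
    simp [Yv]
  rw [Ex_congr fun h _ => e h, Ex_congr (S := XC D l) fun h _ => e h] at h1
  have h2 := E.le_frz hD hD' (F := fun h => Yv (-(m + 1)) Z φ h i)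
    ((Yv_dep_comp fun y => y i).mono fun x hx => hZ x hx) (Yv_mono hφ i)
  have h3 := h2.trans h1
  rw [Yv_shift (XC_finite (E.fin.subset hD) l) (l_ne E hD) s (-(m + 1)),
    Yv_shift (XC_finite (E.fin.subset (hD'.trans hD)) l') (l_ne' E (hD'.trans hD)) s (-(m + 1))]
  linarith

/-- Constant of the moments of the frozen law. -/
noncomputable def Cf (k : ℕ) (C : ℝ) : ℝ := ((k : ℝ) + 1) ^ k * (1 + 2 * k * C)

theorem le_Cf (k : ℕ) {C : ℝ} (hC : 1 ≤ C) : C ≤ Cf k C ∨ k = 0 := by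
  rcases Nat.eq_zero_or_pos k with h | h
  · exact Or.inr h
  · left
    unfold Cf
    have h1 : (1 : ℝ) ≤ k := by exact_mod_cast h
    have h2 : (1 : ℝ) ≤ ((k : ℝ) + 1) ^ k := one_le_pow₀ (by linarith)
    have h3 : C ≤ 1 + 2 * k * C := by nlinarith
    calc C ≤ 1 * (1 + 2 * k * C) := by linarith
      _ ≤ _ := mul_le_mul_of_nonneg_right h2 (by positivity)

theorem Cf_nonneg (k : ℕ) {C : ℝ} (hC : 0 ≤ C) : 0 ≤ Cf k C := by
  unfold Cf
  positivity

/-- Truncation error of the mean of the product. -/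
theorem Ex_tp_err {S : Set Hg} {K C : ℝ} (hK : 1 ≤ K)
    (hC : Ex S (fun h => Wt (Yv s Z φ h) ^ (k + 1)) ≤ C) :
    |Ex S (fun h => ∏ i, Yv s Z φ h i) - Ex S (fun h => tp K (Yv s Z φ h))| ≤ 2 * C / K := by
  have hK0 : 0 < K := by linarith
  rw [← Ex_sub]
  refine (abs_Ex_le _).trans ?_
  refine (Ex_mono fun h _ => tp_err hK (Yv s Z φ h)).trans ?_
  have e : ∀ h : Hg, 2 * Wt (Yv s Z φ h) ^ (k + 1) / K =
      (2 / K) * Wt (Yv s Z φ h) ^ (k + 1) := fun h => by ring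
  rw [Ex_congr fun h _ => e h, Ex_const_mul]
  calc 2 / K * Ex S (fun h => Wt (Yv s Z φ h) ^ (k + 1)) ≤ 2 / K * C :=
        mul_le_mul_of_nonneg_left hC (by positivity)
    _ = 2 * C / K := by ring

/-- LEMMA S: the moment for the data `l` on `D` is above the moment on the smaller domain `D'`, up
to a small error. -/
theorem mom_low (E : Env V η m l l') (hD : D ⊆ V) (hD' : D' ⊆ D) (hZ : ∀ x ∈ Z, x ∈ D')
    (hφ : ∀ i, ∀ x ∈ Z, 0 ≤ φ i x) {K C γ : ℝ} (hK : 1 ≤ K)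
    (hC : Ex (XC D' l) (fun h => Wt (Yv (-(m + 1)) Z φ h) ^ (k + 1)) ≤ C)
    (hC' : Ex (XC D' l') (fun h => Wt (Yv (-(m + 1)) Z φ h) ^ (k + 1)) ≤ C)
    (hγ : ∀ i, Ex (XC D' l) (fun h => Yv (-(m + 1)) Z φ h i) -
      Ex (XC D' l') (fun h => Yv (-(m + 1)) Z φ h i) ≤ γ) :
    Ex (XC D' l) (fun h => ∏ i, Yv (-(m + 1)) Z φ h i) -
      (K ^ k * (k * γ) + 2 * C / K + 2 * Cf k C / K) ≤
      Ex (XC D l) (fun h => ∏ i, Yv (-(m + 1)) Z φ h i) := by
  set S := Cfg D (Jf D D' l m) with hS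
  have hSf : S.Finite := Cfg_finite (E.cmp hD).dI
  have hSn : S.Nonempty := ⟨l, E.l_mem hD⟩
  -- freezing
  have h1 := E.frz hD (D' := D') (k := k) (Z := Z) (φ := φ)
    (fun x hx => sub_nb D (hD' (hZ x hx))) hφ
  rw [Ex_congr fun h _ => pm_eq (s := -(m + 1)) (Z := Z) (φ := φ) h,
    Ex_congr (S := XC D l) fun h _ => pm_eq (s := -(m + 1)) (Z := Z) (φ := φ) h] at h1
  have hlo : ∀ F : Hg → ℝ, Monotone F → DepOn (Z : Set Pt) F → Ex (XC D' l') F ≤ Ex S F :=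
    fun F hF hd => E.le_frz hD hD' (hd.mono fun x hx => hZ x hx) hF
  have hhi : ∀ F : Hg → ℝ, Monotone F → DepOn (Z : Set Pt) F → Ex S F ≤ Ex (XC D' l) F :=
    fun F hF hd => E.frz_le hD hD' (hd.mono fun x hx => hZ x hx) hF
  -- moments of the frozen law
  have hX := Ex_Xi_le hSf hSn hφ (k + 1) hlo hhi hC' hC
  have hW : Ex S (fun h => Wt (Yv (-(m + 1)) Z φ h) ^ (k + 1)) ≤ Cf k C := by
    refine (Ex_mono fun h _ => Wt_pow_le k (Yv (-(m + 1)) Z φ h)).trans ?_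
    rw [Ex_const_mul]
    exact mul_le_mul_of_nonneg_left hX (by positivity)
  have h2 := Ex_close (s := -(m + 1)) hφ hK hhi
  have h3 := Ex_tp_err hK hW
  have h4 := Ex_tp_err hK hC
  have h5 : ∑ i, (Ex (XC D' l) (fun h => Yv (-(m + 1)) Z φ h i) -
      Ex S (fun h => Yv (-(m + 1)) Z φ h i)) ≤ k * γ := by
    calc _ ≤ ∑ _i : Fin k, γ := by
          refine Finset.sum_le_sum fun i _ => ?_
          have := hlo (fun h => Yv (-(m + 1)) Z φ h i) (Yv_mono hφ i) (Yv_dep_comp fun y => y i)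
          linarith [hγ i]
      _ = k * γ := by
          rw [Finset.sum_const, Finset.card_univ, Fintype.card_fin, nsmul_eq_mul]
  have h6 : K ^ k * ∑ i, (Ex (XC D' l) (fun h => Yv (-(m + 1)) Z φ h i) -
      Ex S (fun h => Yv (-(m + 1)) Z φ h i)) ≤ K ^ k * (k * γ) :=
    mul_le_mul_of_nonneg_left h5 (by positivity)
  have a2 := (abs_le.1 h2).1
  have a3 := (abs_le.1 h3).1
  have a4 := (abs_le.1 h4).2
  linarith

/-! ### Mirror images -/

theorem rf_zero (h : Hg) : rf 0 h = -h := by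
  funext x
  unfold rf
  simp

theorem XC_neg (V : Set Pt) (g : Hg) (F : Hg → ℝ) :
    Ex (XC V (-g)) F = Ex (XC V g) (fun h => F (-h)) := by
  have := XC_rf 0 V g F
  rw [rf_zero] at this
  rw [this]
  exact Ex_congr fun h _ => by rw [rf_zero]

theorem Yv_neg (s : ℤ) (h : Hg) (i : Fin k) :
    Yv s Z φ (-h) i = -Yv (-s) Z φ h i := by
  unfold Yv
  rw [← Finset.sum_neg_distrib]
  refine Finset.sum_congr rfl fun x _ => ?_
  rw [Pi.neg_apply]
  push_cast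
  ring

/-- LEMMA M, upper. -/
theorem mean_up (E : Env V (-η) m (-u) (-u')) (hD : D ⊆ V) (hD' : D' ⊆ D) (hZ : ∀ x ∈ Z, x ∈ D')
    (hφ : ∀ i, ∀ x ∈ Z, 0 ≤ φ i x) (i : Fin k) :
    Ex (XC D u) (fun h => Yv s Z φ h i) ≤ Ex (XC D' u') (fun h => Yv s Z φ h i) := by
  have h1 := mean_low (s := -s) E hD hD' hZ hφ i
  rw [XC_neg, XC_neg] at h1
  simp only [Yv_neg, neg_neg, Ex_neg] at h1
  linarith

end Vale.Agent.P153.R2.RINS
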