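import Vale.Agent.P153.R2.RINS.GeoB
import Vale.Agent.P153.R2.SDAR.Strand
import Vale.Agent.P153.R2.SDAR.Geo
import Vale.Agent.P153.R2.GAPS.Wts

/-!
# P153-R2, block RINS: the insertion theorem in the scale `δ`
-/

namespace Vale.Agent.P153.R2.RINS

open Set Relation MeasureTheory
open Vale.Agent.P145.PT (Sm)
open Vale.Agent.P153
open Vale.Agent.P153.Topo (Conn adj_symm)
open Vale.Agent.P153.F.SD (Lf)
open Vale.Agent.P153.F.Top (dp c1 c2)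
open Vale.Agent.P153.R2.PLAN (cn_bx bx_mono)
open Vale.Agent.P153.R2.SDAR (put ts ls sbx ov Dmn OneBad Un NT ts_sub ls_sub ts_dpz ls_dpz uu vv
  cn_sbx dist_le_c ts0 ls0)
open Vale.Agent.P153.R2.Gp (Zf ph ph_nonneg mem_Zf wt_closed yv_eq)

/-! ### Covers by boxes -/

theorem box_nhds {K : Set (ℝ × ℝ)} (hK : IsOpen K) {x : ℝ × ℝ} (hx : x ∈ K) :
    ∃ ρ : ℝ, 0 < ρ ∧ sbx 0 (ts 0 x) (ls 0 x) ρ ⊆ K ∧
      sbx 0 (ts 0 x) (ls 0 x) ρ ∈ nhds x := by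
  obtain ⟨e, he, hb⟩ := Metric.isOpen_iff.1 hK x hx
  refine ⟨e / 3, by positivity, fun z hz => hb ?_, ?_⟩
  · rw [Metric.mem_ball]
    have h1 := dist_le_c z x
    obtain ⟨h2, h3⟩ := hz
    rw [ts0, ts0] at h2
    rw [ls0, ls0] at h3
    linarith
  · have c1' : Continuous fun z => |ts 0 z - ts 0 x| := ((SDAR.cont_ts 0).sub continuous_const).abs
    have c2' : Continuous fun z => |ls 0 z - ls 0 x| := ((SDAR.cont_ls 0).sub continuous_const).abs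
    have h1 : {z | |ts 0 z - ts 0 x| < e / 3} ∈ nhds x :=
      (isOpen_lt c1' continuous_const).mem_nhds (by
        show |ts 0 x - ts 0 x| < e / 3
        rw [sub_self, abs_zero]
        positivity)
    have h2 : {z | |ls 0 z - ls 0 x| < e / 3} ∈ nhds x :=
      (isOpen_lt c2' continuous_const).mem_nhds (by
        show |ls 0 x - ls 0 x| < e / 3
        rw [sub_self, abs_zero]
        positivity)
    filter_upwards [h1, h2] with z hz1 hz2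
    exact ⟨le_of_lt hz1, le_of_lt hz2⟩

/-- A compact subset of an open set is covered by finitely many boxes. -/
theorem exists_boxes {K K' : Set (ℝ × ℝ)} (hK : IsOpen K) (hc : IsCompact K') (hKK : K' ⊆ K) :
    ∃ (n : ℕ) (B : Fin n → ℝ × ℝ × ℝ), (∀ m, sbx 0 (B m).1 (B m).2.1 (B m).2.2 ⊆ K) ∧
      ∀ x ∈ K', ∃ m, x ∈ sbx 0 (B m).1 (B m).2.1 (B m).2.2 := by
  classical
  choose! ρ h0 h1 h2 using fun x (hx : x ∈ K) => box_nhds hK hx
  obtain ⟨T, hT, hTc⟩ := hc.elim_nhds_subcover (fun x => sbx 0 (ts 0 x) (ls 0 x) (ρ x))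
    fun x hx => h2 x (hKK hx)
  set e := T.equivFin with he
  refine ⟨T.card, fun m => (ts 0 (e.symm m : ℝ × ℝ), ls 0 (e.symm m : ℝ × ℝ),
    ρ (e.symm m : ℝ × ℝ)), fun m => h1 _ (hKK (hT _ (e.symm m).2)), fun x hx => ?_⟩
  obtain ⟨y, hy, hxy⟩ := mem_iUnion₂.1 (hTc hx)
  refine ⟨e ⟨y, hy⟩, ?_⟩
  simpa using hxy

/-! ### Lattice boxes and real boxes -/

theorem coord_le (i : Fin 3) {x y : Pt} : |x.1 - y.1| ≤ |uu i x - uu i y| + |vv i x - vv i y| ∧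
    |x.2 - y.2| ≤ |vv i x - vv i y| := by
  have h1 := le_abs_self (uu i x - uu i y)
  have h2 := neg_abs_le (uu i x - uu i y)
  have h3 := le_abs_self (vv i x - vv i y)
  have h4 := neg_abs_le (vv i x - vv i y)
  constructor
  · rw [abs_le]
    unfold uu vv at *
    split_ifs at * <;> constructor <;> omega
  · rw [abs_le]
    unfold vv at *
    split_ifs at * <;> constructor <;> omega

variable {δ r Rr Rb t l₁ : ℝ} {i : Fin 3} {V N : Set Pt} {η : Hg} {x₀ a x y u : Pt}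

theorem box_close (hδ : 0 < δ) (hx : dp δ x ∈ sbx i t l₁ r) (hy : dp δ y ∈ sbx i t l₁ r) :
    y ∈ bx x ⌊4 * r / δ⌋ := by
  obtain ⟨h1, h2⟩ := hx
  obtain ⟨h3, h4⟩ := hy
  have e1 : |ts i (dp δ y) - ts i (dp δ x)| ≤ 2 * r := by
    rw [abs_le] at *
    constructor <;> linarith [h1.1, h1.2, h3.1, h3.2]
  have e2 : |ls i (dp δ y) - ls i (dp δ x)| ≤ 2 * r := by
    rw [abs_le] at *
    constructor <;> linarith [h2.1, h2.2, h4.1, h4.2]
  rw [ts_dpz, ts_dpz, ← mul_sub, abs_mul, abs_of_pos hδ] at e1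
  rw [ls_dpz, ls_dpz, ← mul_sub, abs_mul, abs_of_pos hδ] at e2
  have e3 : |(uu i y : ℝ) - uu i x| + |(vv i y : ℝ) - vv i x| ≤ 4 * r / δ := by
    rw [le_div_iff₀ hδ]
    linarith
  obtain ⟨k1, k2⟩ := coord_le i (x := y) (y := x)
  have k3 : |vv i y - vv i x| ≤ |uu i y - uu i x| + |vv i y - vv i x| := by
    have := abs_nonneg (uu i y - uu i x)
    omega
  have k4 : |uu i y - uu i x| + |vv i y - vv i x| ≤ ⌊4 * r / δ⌋ := by
    rw [Int.le_floor]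
    push_cast
    exact e3
  exact ⟨k1.trans k4, (k2.trans k3).trans k4⟩

/-- **The geometry in the scale `δ`.** -/
theorem exists_geo {n : ℕ} {K : Set (ℝ × ℝ)} {B : Fin n → ℝ × ℝ × ℝ}
    (hB : ∀ m, sbx 0 (B m).1 (B m).2.1 (B m).2.2 ⊆ K) (hδ : 0 < δ) (hr : 0 < r)
    (h64 : 64 * r ≤ Rr) (hD : Dmn δ Rb K V) (hKd : Disjoint K (sbx i t l₁ Rr)) (hy : y ∉ V)
    (hyr : dp δ y ∈ sbx i t l₁ r) (ha : a ∈ V) (har : dp δ a ∈ sbx i t l₁ r)
    (hvis : ∀ x ∈ Cl (V ∩ ov δ (sbx i t l₁ Rr)) {a}, ∀ y, y ∉ V → Adj x y → η y = 1)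
    (hOB : OneBad V η 1 (ebd (Cl (V ∩ ov δ (sbx i t l₁ Rr)) {a}))) :
    ∃ (x₀ : Pt) (X : Fin (n + 1) → Set Pt),
      Geo V η x₀ a X (2 * ⌊4 * r / δ⌋) ⌊Rr / (8 * δ)⌋ ∧
      (∀ m, ∀ x, dp δ x ∈ sbx 0 (B m).1 (B m).2.1 (B m).2.2 → x ∈ A0 V a X) ∧
      Cl (V ∩ ov δ (sbx i t l₁ r)) {a} ⊆ Wr V x₀ a (2 * ⌊4 * r / δ⌋) := by
  obtain ⟨Z, O, hZV, hOV, cZ, cO, dZO, dZA, hb⟩ := hOB
  set q : ℤ := ⌊4 * r / δ⌋ with hq
  set R' : ℤ := ⌊Rr / (8 * δ)⌋ with hR'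
  have hq0 : 0 ≤ q := Int.floor_nonneg.2 (by positivity)
  have hq1 : (q : ℝ) ≤ 4 * r / δ := Int.floor_le _
  have hq2 : δ * q ≤ 4 * r := by
    have := mul_le_mul_of_nonneg_left hq1 hδ.le
    rwa [mul_div_cancel₀ _ hδ.ne'] at this
  have hR1 : (R' : ℝ) ≤ Rr / (8 * δ) := Int.floor_le _
  have hR2 : δ * R' ≤ Rr / 8 := by
    have := mul_le_mul_of_nonneg_left hR1 hδ.le
    have e : δ * (Rr / (8 * δ)) = Rr / 8 := by field_simp
    rwa [e] at this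
  have hrR : 2 * q ≤ R' := by
    rw [hR', Int.le_floor]
    push_cast
    rw [le_div_iff₀ (by positivity)]
    nlinarith
  obtain ⟨x₀, u, hx0, hx0b, hux, hau⟩ := exists_first hq0 ha hy (box_close hδ har hyr)
  have hbb : bx a q ⊆ bx x₀ (2 * q) := by
    intro z hz
    unfold bx at *
    simp only [Set.mem_ofPred_eq, abs_le] at *
    omega
  have hbR : ∀ x ∈ bx x₀ R', dp δ x ∈ sbx i t l₁ Rr := by
    intro x hx
    have h1 : |x.1 - a.1| ≤ R' + q ∧ |x.2 - a.2| ≤ R' + q := by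
      unfold bx at *
      simp only [Set.mem_ofPred_eq, abs_le] at *
      omega
    have h2 := ts_sub hδ.le i h1.1 h1.2
    have h3 := ls_sub hδ.le i h1.2
    push_cast at h2 h3
    obtain ⟨h4, h5⟩ := har
    have h0 : 0 ≤ δ * (q : ℝ) := by positivity
    rw [abs_le] at h2 h3 h4 h5
    constructor <;> rw [abs_le] <;> constructor <;> nlinarith [h2.1, h2.2, h3.1, h3.2, h4.1, h4.2,
      h5.1, h5.2]
  have hWsub : Wr V x₀ a R' ⊆ Cl (V ∩ ov δ (sbx i t l₁ Rr)) {a} :=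
    Cl_mono fun x hx => ⟨hx.1, hbR x hx.2⟩
  have hau' : Conn (V ∩ bx x₀ (2 * q)) a u := hau.mono (inter_subset_inter_right _ hbb)
  refine ⟨x₀, Xt V Z (Wr V x₀ a R') fun m => ov δ (sbx 0 (B m).1 (B m).2.1 (B m).2.2), ?_,
    fun m x hx => ?_, ?_⟩
  · refine mk_geo hD.fin hD.cc hx0 ⟨u, hux, hau'⟩ hrR
      (fun x hx => hvis x (hWsub hx)) hZV hOV cZ cO dZO (fun x hx y hyZ hxy => ?_) hb
      (fun m x hx => hD.sub (hB m hx)) (fun m => cn_sbx hδ 0 _ _ _) fun m => ?_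
    · refine Set.disjoint_left.1 dZA hyZ ⟨fun h => hZV hyZ (Cl_sub h).1, x, hWsub hx, hxy⟩
    · rw [Set.disjoint_left]
      intro x hx hx'
      exact Set.disjoint_left.1 hKd (hB m hx) (hbR x (Wr_sub hx').2)
  · exact Or.inl (mem_iUnion.2 ⟨m.succ, hx⟩)
  · exact Cl_mono fun x hx => ⟨hx.1, hbb (box_close hδ har hx.2)⟩

end Vale.Agent.P153.R2.RINS
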