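import Vale.Agent.P153.R2.RINS.Ttwo

/-!
# P153-R2, block RINS: the one-sided estimates T1 and the comparison theorem
-/

namespace Vale.Agent.P153.R2.RINS

open Set Relation MeasureTheory
open Vale.Agent.P153
open Vale.Agent.P153.Topo (Conn)

variable {V D D' D₁ D₂ D₃ D₄ D₅ : Set Pt} {η g h l l' l'' u u' u'' : Hg} {m ℓ : ℤ} {k : ℕ}
  {Z : Finset Pt} {φ : Fin k → Pt → ℝ} {Q : Measure Hg} {F : Hg → ℝ} {C γ ε K L : ℝ}

/-- Error of T1. -/
noncomputable def er (k : ℕ) (C K L γ ε : ℝ) : ℝ :=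
  K ^ k * (k * (γ + 2 * be C L ε)) + K ^ k * (k * γ) + kS k C K γ + 4 * C / K + (C + K ^ k) * ε

theorem kS_nonneg (hC : 0 ≤ C) (hK : 1 ≤ K) (hγ : 0 ≤ γ) : 0 ≤ kS k C K γ := by
  have h0 : 0 < K := by linarith
  have := Cf_nonneg k hC
  unfold kS
  positivity

namespace Pk

variable (p : Pk V η m l l' l'' u u' D₁ D₂ D₃ Z φ C γ) (q : Qk V η m l u D₁ D₂ Z φ C ε Q)

include p q

/-- T1, lower. -/
theorem T1_low (hγ : 0 ≤ γ) (hK : 1 ≤ K) (hL : 0 < L) :
    Ex (XC D₃ l) (fun h => ∏ i, Yv (-(m + 1)) Z φ h i) - er k C K L γ ε ≤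
      ∫ h, ∏ i, Yv (-(m + 1)) Z φ h i ∂Q := by
  have := q.G.prob
  have hC1 := p.C1
  have hK0 : 0 < K := by linarith
  have hkS := kS_nonneg (k := k) (C := C) (by linarith) hK hγ
  have hKk : 0 ≤ K ^ k := by positivity
  have hε := Pk.eps_nonneg q
  set A := Ex (XC D₃ l) (fun h => ∏ i, Yv (-(m + 1)) Z φ h i) with hA
  have hAC : |A| ≤ C := abs_Ex_P_le (p.ml D₃ subset_rfl p.dsub)
  set B := {h : Hg | h ∉ gd (-(m + 2)) V D₁ D₂} with hB
  have hBm : MeasurableSet B := meas_gd p.E1.fin p.H.s1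
  have dT : DepOn D₁ (fun h => tp K (Yv (-(m + 1)) Z φ h)) :=
    (Yv_dep_comp (tp K)).mono (p.ZD p.dsub)
  have hiT := Av_integrable (Q := Q) (ℓ := -(m + 2)) (D₂ := D₂) (D₃ := D₃) (l := l)
    p.E1.fin p.H.s1 dT (q.intT hK0.le)
  have hCK : 0 ≤ 2 * C / K := by positivity
  have hpt : ∀ h, A - (kS k C K γ + 2 * C / K) - B.indicator (fun _ => C + K ^ k) h ≤
      Av (-(m + 2)) V D₁ D₂ D₃ l (fun h => tp K (Yv (-(m + 1)) Z φ h)) h := by
    intro h
    by_cases hh : h ∈ B
    · rw [indicator_of_mem hh]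
      have hg : h ∉ gd (-(m + 2)) V D₁ D₂ := hh
      unfold Av
      rw [if_neg hg]
      have h1 := (abs_le.1 (abs_tp_le' hK0.le (Yv (-(m + 1)) Z φ h))).1
      linarith [(abs_le.1 hAC).2]
    · rw [indicator_of_notMem hh]
      have hg : h ∈ gd (-(m + 2)) V D₁ D₂ := not_not.1 hh
      unfold Av
      rw [if_pos hg]
      have hD := D3_sub_Dh p.H p.hD3 hg
      have hD1 : Dh (-(m + 2)) V D₁ D₃ h ⊆ D₁ := Dh_sub_D1
      have h1 := p.momS subset_rfl hD hD1 hK
      have h2 := Ex_tp_err hK (Ex_W_mono (by omega) (p.ml _ hD hD1))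
      linarith [(abs_le.1 h2).2]
  have i1 : Integrable (B.indicator (fun _ : Hg => C + K ^ k)) Q :=
    (integrable_const _).indicator hBm
  have i2 : Integrable (fun h => A - (kS k C K γ + 2 * C / K) -
      B.indicator (fun _ => C + K ^ k) h) Q := (integrable_const _).sub i1
  have h1 := integral_mono i2 hiT hpt
  rw [integral_sub (integrable_const _) i1, integral_const,
    integral_indicator_const _ hBm] at h1
  simp only [probReal_univ, smul_eq_mul] at h1
  have h2 : Q.real B * (C + K ^ k) ≤ ε * (C + K ^ k) :=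
    mul_le_mul_of_nonneg_right q.low (by linarith)
  have h3 := p.Av_close q hK hL
  have h4 := q.errP hK
  have h5 : 0 ≤ K ^ k * (k * γ) := by positivity
  have a3 := (abs_le.1 h3).1
  have a4 := (abs_le.1 h4).1
  unfold er
  have e4 : 4 * C / K = 2 * (2 * C / K) := by ring
  rw [e4]
  linarith

/-- T1, upper. -/
theorem T1_up (hγ : 0 ≤ γ) (hK : 1 ≤ K) (hL : 0 < L) :
    ∫ h, ∏ i, Yv (-(m + 1)) Z φ h i ∂Q ≤
      Ex (XC D₁ l) (fun h => ∏ i, Yv (-(m + 1)) Z φ h i) + er k C K L γ ε := by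
  have := q.G.prob
  have hC1 := p.C1
  have hK0 : 0 < K := by linarith
  have hkS := kS_nonneg (k := k) (C := C) (by linarith) hK hγ
  have hKk : 0 ≤ K ^ k := by positivity
  have hε := Pk.eps_nonneg q
  have h5 : 0 ≤ K ^ k * (k * γ) := by positivity
  set A := Ex (XC D₁ l) (fun h => ∏ i, Yv (-(m + 1)) Z φ h i) with hA
  have hAC : |A| ≤ C := abs_Ex_P_le (p.ml D₁ p.dsub subset_rfl)
  set B := {h : Hg | -h ∉ gd (-(m + 2)) V D₁ D₂} with hB
  have hBm : MeasurableSet B := meas_gdU p.E1.fin p.H.s1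
  have dT : DepOn D₁ (fun h => tp K (Yv (-(m + 1)) Z φ h)) :=
    (Yv_dep_comp (tp K)).mono (p.ZD p.dsub)
  have hiT := AvU_integrable (Q := Q) (ℓ := -(m + 2)) (D₂ := D₂) (D₃ := D₃) (u := u)
    p.E1.fin p.H.s1 dT (q.intT hK0.le)
  have hCK : 0 ≤ 2 * C / K := by positivity
  have hpt : ∀ h, AvU (-(m + 2)) V D₁ D₂ D₃ u (fun h => tp K (Yv (-(m + 1)) Z φ h)) h ≤
      A + (kS k C K γ + 2 * C / K + K ^ k * (k * γ)) + B.indicator (fun _ => C + K ^ k) h := by
    intro h
    by_cases hh : h ∈ B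
    · rw [indicator_of_mem hh]
      have hg : -h ∉ gd (-(m + 2)) V D₁ D₂ := hh
      unfold AvU
      rw [if_neg hg]
      have h1 := (abs_le.1 (abs_tp_le' hK0.le (Yv (-(m + 1)) Z φ h))).2
      linarith [(abs_le.1 hAC).1]
    · rw [indicator_of_notMem hh]
      have hg : -h ∈ gd (-(m + 2)) V D₁ D₂ := not_not.1 hh
      unfold AvU
      rw [if_pos hg]
      have hD := D3_sub_Dh p.H p.hD3 hg
      have hD1 : Dh (-(m + 2)) V D₁ D₃ (-h) ⊆ D₁ := Dh_sub_D1
      have hDV := hD1.trans p.H.s1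
      have h1 := p.momS hD hD1 subset_rfl hK
      have h2 := Ex_tp_err hK (Ex_W_mono (by omega) (p.ml _ hD hD1))
      have h3 := Ex_close (s := -(m + 1)) (S := XC (Dh (-(m + 2)) V D₁ D₃ (-h)) l)
        (T := XC (Dh (-(m + 2)) V D₁ D₃ (-h)) u) p.hφ hK
        (fun F hF hd => p.lu_le hDV (hd.mono (p.ZD hD)) hF)
      have h4 : ∑ i, (Ex (XC (Dh (-(m + 2)) V D₁ D₃ (-h)) u) (fun h => Yv (-(m + 1)) Z φ h i) -
          Ex (XC (Dh (-(m + 2)) V D₁ D₃ (-h)) l) (fun h => Yv (-(m + 1)) Z φ h i)) ≤ k * γ := by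
        calc _ ≤ ∑ _i : Fin k, γ := by
              refine Finset.sum_le_sum fun i _ => ?_
              linarith [p.g1 hD hDV i, p.g3 hD hDV i, p.g4 hD hDV i, p.gap i]
          _ = _ := by rw [Finset.sum_const, Finset.card_univ, Fintype.card_fin, nsmul_eq_mul]
      have h6 := h3.trans (mul_le_mul_of_nonneg_left h4 hKk)
      linarith [(abs_le.1 h2).1, (abs_le.1 h6).1]
  have i1 : Integrable (B.indicator (fun _ : Hg => C + K ^ k)) Q :=
    (integrable_const _).indicator hBm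
  have i2 : Integrable (fun h => A + (kS k C K γ + 2 * C / K + K ^ k * (k * γ)) +
      B.indicator (fun _ => C + K ^ k) h) Q := (integrable_const _).add i1
  have h1 := integral_mono hiT i2 hpt
  rw [integral_add (integrable_const _) i1, integral_const,
    integral_indicator_const _ hBm] at h1
  simp only [probReal_univ, smul_eq_mul] at h1
  have h2 : Q.real B * (C + K ^ k) ≤ ε * (C + K ^ k) :=
    mul_le_mul_of_nonneg_right q.up (by linarith)
  have h3 := p.AvU_close q hK hL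
  have h4 := q.errP hK
  have a3 := (abs_le.1 h3).1
  have a4 := (abs_le.1 h4).2
  unfold er
  have e4 : 4 * C / K = 2 * (2 * C / K) := by ring
  rw [e4]
  linarith

end Pk

/-! ### The uniform law as a measure -/

/-- The uniform law on a finite set. -/
theorem exists_ulaw {S : Set Hg} (hS : S.Finite) (hn : S.Nonempty) :
    ∃ Q : Measure Hg, IsProbabilityMeasure Q ∧ (∀ᵐ ω ∂Q, ω ∈ S) ∧
      (∀ F : Hg → ℝ, Integrable F Q ∧ ∫ h, F h ∂Q = Ex S F) ∧
      ∀ B : Set Hg, MeasurableSet B → Q.real B = Pr S B := by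
  classical
  set T := hS.toFinset with hT
  have hTn : T.Nonempty := by rw [hT, Set.Finite.toFinset_nonempty]; exact hn
  have hc : (0 : ℝ) < T.card := by exact_mod_cast hTn.card_pos
  have hmem : ∀ h, h ∈ T ↔ h ∈ S := fun h => by rw [hT, Set.Finite.mem_toFinset]
  set Q : Measure Hg := ∑ h ∈ T, ENNReal.ofReal (1 / (T.card : ℝ)) • Measure.dirac h with hQ
  have hi : ∀ F : Hg → ℝ, ∀ h ∈ T,
      Integrable F (ENNReal.ofReal (1 / (T.card : ℝ)) • Measure.dirac h) := fun F h _ =>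
    (integrable_dirac (by simp)).smul_measure ENNReal.ofReal_ne_top
  have hI : ∀ F : Hg → ℝ, Integrable F Q := fun F => by
    rw [hQ]
    exact integrable_finsetSum_measure.2 (hi F)
  have hint : ∀ F : Hg → ℝ, ∫ h, F h ∂Q = Ex S F := by
    intro F
    rw [hQ, integral_finsetSum_measure (hi F), Ex_eq_ev hS]
    unfold ev
    rw [← hT, Finset.sum_div]
    refine Finset.sum_congr rfl fun h _ => ?_
    rw [integral_smul_measure, integral_dirac, ENNReal.toReal_ofReal (by positivity),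
      smul_eq_mul]
    ring
  have hp : IsProbabilityMeasure Q := by
    constructor
    rw [hQ, Measure.finsetSum_apply]
    simp only [Measure.smul_apply, measure_univ, smul_eq_mul, mul_one, Finset.sum_const,
      nsmul_eq_mul]
    rw [← ENNReal.ofReal_natCast, ← ENNReal.ofReal_mul (by positivity), mul_one_div_cancel hc.ne',
      ENNReal.ofReal_one]
  refine ⟨Q, hp, ?_, fun F => ⟨hI F, hint F⟩, fun B hB => ?_⟩
  · rw [ae_iff, hQ, Measure.finsetSum_apply]
    refine Finset.sum_eq_zero fun h hh => ?_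
    have hm : MeasurableSet {a : Hg | a ∉ S} := hS.measurableSet.compl
    have h2 : h ∉ {a : Hg | a ∉ S} := fun h1 => (show h ∉ S from h1) ((hmem h).1 hh)
    rw [Measure.smul_apply, Measure.dirac_apply' _ hm, indicator_of_notMem h2, smul_zero]
  · have h1 := hint (B.indicator fun _ => 1)
    rw [integral_indicator_const _ hB, smul_eq_mul, mul_one] at h1
    rw [h1, Pr_eq_Ex hS]
    refine Ex_congr fun h _ => ?_
    unfold ind
    by_cases hh : h ∈ B
    · rw [indicator_of_mem hh, if_pos hh]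
    · rw [indicator_of_notMem hh, if_neg hh]

end Vale.Agent.P153.R2.RINS
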