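import Vale.Agent.P153.R2.RINS.Gib

/-!
# P153-R2, block RINS: the one-sided estimates T1

For a law `Q` with the Gibbs property in `D₁`: the mixed moment of `Q` is above the moment on `D₃`
and below the moment on `D₁` (data `l`), up to small errors.
-/

namespace Vale.Agent.P153.R2.RINS

open Set Relation MeasureTheory
open Vale.Agent.P153
open Vale.Agent.P153.Topo (Conn)

/-- Package for the domains `D₁ ⊇ D₂ ⊇ D₃`: extensions with the bounds `m`, `m + 2`, `m + 4`,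
moments bounded by `C`, gap of the means on `D₃` at most `γ`. -/
structure Pk {k : ℕ} (V : Set Pt) (η : Hg) (m : ℤ) (l l' l'' u u' : Hg) (D₁ D₂ D₃ : Set Pt)
    (Z : Finset Pt) (φ : Fin k → Pt → ℝ) (C γ : ℝ) : Prop where
  E1 : Env V η m l l'
  E2 : Env V η (m + 2) l' l''
  U1 : Env V (-η) m (-u) (-u')
  H : Dom3 V D₁ D₂ D₃
  hD3 : D₃ ⊆ V
  hZ : ∀ x ∈ Z, x ∈ D₃
  hφ : ∀ i, ∀ x ∈ Z, 0 ≤ φ i x
  ml : ∀ D, D₃ ⊆ D → D ⊆ D₁ → Ex (XC D l) (fun h => Wt (Yv (-(m + 1)) Z φ h) ^ (k + 2)) ≤ C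
  ml' : ∀ D, D₃ ⊆ D → D ⊆ D₁ → Ex (XC D l') (fun h => Wt (Yv (-(m + 1)) Z φ h) ^ (k + 2)) ≤ C
  ml'' : Ex (XC D₃ l'') (fun h => Wt (Yv (-(m + 1)) Z φ h) ^ (k + 2)) ≤ C
  mu' : Ex (XC D₃ u') (fun h => Wt (Yv (-(m + 1)) Z φ h) ^ (k + 2)) ≤ C
  gap : ∀ i, Ex (XC D₃ u') (fun h => Yv (-(m + 1)) Z φ h i) -
    Ex (XC D₃ l'') (fun h => Yv (-(m + 1)) Z φ h i) ≤ γ

/-- Package for the law `Q`. -/
structure Qk {k : ℕ} (V : Set Pt) (η : Hg) (m : ℤ) (l u : Hg) (D₁ D₂ : Set Pt)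
    (Z : Finset Pt) (φ : Fin k → Pt → ℝ) (C ε : ℝ) (Q : Measure Hg) : Prop where
  G : Gib V D₁ η m l u Q
  int : Integrable (fun h => Wt (Yv (-(m + 1)) Z φ h) ^ (k + 2)) Q
  mom : ∫ h, Wt (Yv (-(m + 1)) Z φ h) ^ (k + 2) ∂Q ≤ C
  low : Q.real {h | h ∉ gd (-(m + 2)) V D₁ D₂} ≤ ε
  up : Q.real {h | -h ∉ gd (-(m + 2)) V D₁ D₂} ≤ ε

/-- Error of the linear terms. -/
noncomputable def be (C L ε : ℝ) : ℝ := (L + C) * ε + C / L

/-- Error of lemma S. -/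
noncomputable def kS (k : ℕ) (C K γ : ℝ) : ℝ := K ^ k * (k * γ) + 2 * C / K + 2 * Cf k C / K

variable {V D D' D₁ D₂ D₃ : Set Pt} {η g h l l' l'' u u' u'' : Hg} {m ℓ : ℤ} {k : ℕ}
  {Z : Finset Pt} {φ : Fin k → Pt → ℝ} {Q : Measure Hg} {F : Hg → ℝ} {C γ ε K L : ℝ}

theorem Wt_le_pow (y : Fin k → ℝ) {a b : ℕ} (hab : a ≤ b) : Wt y ^ a ≤ Wt y ^ b :=
  pow_le_pow_right₀ (one_le_Wt y) hab

theorem Wt_le_pow1 (y : Fin k → ℝ) : Wt y ≤ Wt y ^ (k + 2) := by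
  calc Wt y = Wt y ^ 1 := (pow_one _).symm
    _ ≤ _ := Wt_le_pow y (by omega)

/-- `W ≤ L + W ^ (k + 2) / L`. -/
theorem Wt_split (y : Fin k → ℝ) (hL : 0 < L) : Wt y ≤ L + Wt y ^ (k + 2) / L := by
  have h1 := one_le_Wt y
  have h2 : Wt y ^ 2 ≤ Wt y ^ (k + 2) := Wt_le_pow y (by omega)
  by_cases h : Wt y ≤ L
  · have : 0 ≤ Wt y ^ (k + 2) / L := by positivity
    linarith
  · push Not at h
    have h3 : Wt y ≤ Wt y ^ (k + 2) / L := by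
      rw [le_div_iff₀ hL]
      nlinarith
    linarith

theorem Ex_W_mono {S : Set Hg} {s : ℤ} {a : ℕ} (ha : a ≤ k + 2)
    (hC : Ex S (fun h => Wt (Yv s Z φ h) ^ (k + 2)) ≤ C) :
    Ex S (fun h => Wt (Yv s Z φ h) ^ a) ≤ C :=
  (Ex_mono fun h _ => Wt_le_pow _ ha).trans hC

theorem abs_Ex_Y_le {S : Set Hg} {s : ℤ} (i : Fin k)
    (hC : Ex S (fun h => Wt (Yv s Z φ h) ^ (k + 2)) ≤ C) :
    |Ex S (fun h => Yv s Z φ h i)| ≤ C := by
  refine (abs_Ex_le _).trans ((Ex_mono fun h _ => ?_).trans hC)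
  exact (abs_le_Wt _ i).trans (Wt_le_pow1 _)

theorem abs_Ex_P_le {S : Set Hg} {s : ℤ}
    (hC : Ex S (fun h => Wt (Yv s Z φ h) ^ (k + 2)) ≤ C) :
    |Ex S (fun h => ∏ i, Yv s Z φ h i)| ≤ C := by
  refine (abs_Ex_le _).trans ((Ex_mono fun h _ => ?_).trans hC)
  exact (abs_prod_le _).trans (Wt_le_pow _ (by omega))

namespace Qk

theorem int_of_le (q : Qk V η m l u D₁ D₂ Z φ C ε Q) {G : (Fin k → ℝ) → ℝ} {c : ℝ}
    (hG : ∀ y, |G y| ≤ c * Wt y ^ (k + 2)) :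
    Integrable (fun h => G (Yv (-(m + 1)) Z φ h)) Q := by
  refine Integrable.mono' (q.int.const_mul c)
    ((Yv_dep_comp G).measurable Z.finite_toSet).aestronglyMeasurable ?_
  exact Filter.Eventually.of_forall fun h => hG _

theorem intY (q : Qk V η m l u D₁ D₂ Z φ C ε Q) (i : Fin k) :
    Integrable (fun h => Yv (-(m + 1)) Z φ h i) Q :=
  q.int_of_le (G := fun y => y i) (c := 1) fun y => by
    rw [one_mul]
    exact (abs_le_Wt y i).trans (Wt_le_pow1 y)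

theorem intP (q : Qk V η m l u D₁ D₂ Z φ C ε Q) :
    Integrable (fun h => ∏ i, Yv (-(m + 1)) Z φ h i) Q :=
  q.int_of_le (G := fun y => ∏ i, y i) (c := 1) fun y => by
    rw [one_mul]
    exact (abs_prod_le y).trans (Wt_le_pow y (by omega))

theorem intT (q : Qk V η m l u D₁ D₂ Z φ C ε Q) (hK : 0 ≤ K) :
    Integrable (fun h => tp K (Yv (-(m + 1)) Z φ h)) Q :=
  q.int_of_le (G := fun y => tp K y) (c := 1) fun y => by
    rw [one_mul]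
    exact (abs_tp_le hK y).trans (Wt_le_pow y (by omega))

theorem intF (q : Qk V η m l u D₁ D₂ Z φ C ε Q) (hK : 0 ≤ K) (σ : ℝ) :
    Integrable (fun h => K ^ k * ∑ i, Yv (-(m + 1)) Z φ h i +
      σ * tp K (Yv (-(m + 1)) Z φ h)) Q :=
  ((integrable_finsetSum _ fun i _ => q.intY i).const_mul _).add ((q.intT hK).const_mul σ)

theorem errP (q : Qk V η m l u D₁ D₂ Z φ C ε Q) (hK : 1 ≤ K) :
    |∫ h, ∏ i, Yv (-(m + 1)) Z φ h i ∂Q - ∫ h, tp K (Yv (-(m + 1)) Z φ h) ∂Q| ≤ 2 * C / K := by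
  have hK0 : 0 < K := by linarith
  rw [← integral_sub q.intP (q.intT hK0.le)]
  refine (abs_integral_le_integral_abs).trans ?_
  have h1 : ∫ h, |∏ i, Yv (-(m + 1)) Z φ h i - tp K (Yv (-(m + 1)) Z φ h)| ∂Q ≤
      ∫ h, 2 / K * Wt (Yv (-(m + 1)) Z φ h) ^ (k + 2) ∂Q := by
    refine integral_mono (q.intP.sub (q.intT hK0.le)).abs (q.int.const_mul _) fun h => ?_
    dsimp only
    refine (tp_err hK _).trans ?_
    have : Wt (Yv (-(m + 1)) Z φ h) ^ (k + 1) ≤ Wt (Yv (-(m + 1)) Z φ h) ^ (k + 2) :=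
      Wt_le_pow _ (by omega)
    calc 2 * Wt (Yv (-(m + 1)) Z φ h) ^ (k + 1) / K =
          2 / K * Wt (Yv (-(m + 1)) Z φ h) ^ (k + 1) := by ring
      _ ≤ _ := mul_le_mul_of_nonneg_left this (by positivity)
  rw [integral_const_mul] at h1
  calc _ ≤ 2 / K * ∫ h, Wt (Yv (-(m + 1)) Z φ h) ^ (k + 2) ∂Q := h1
    _ ≤ 2 / K * C := mul_le_mul_of_nonneg_left q.mom (by positivity)
    _ = _ := by ring

end Qk

theorem Av_add (F G : Hg → ℝ) : Av ℓ V D₁ D₂ D₃ l (fun h => F h + G h) =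
    fun h => Av ℓ V D₁ D₂ D₃ l F h + Av ℓ V D₁ D₂ D₃ l G h := by
  funext h
  unfold Av
  split_ifs
  · exact Ex_add F G
  · rfl

theorem Av_const_mul (c : ℝ) (F : Hg → ℝ) : Av ℓ V D₁ D₂ D₃ l (fun h => c * F h) =
    fun h => c * Av ℓ V D₁ D₂ D₃ l F h := by
  funext h
  unfold Av
  split_ifs
  · exact Ex_const_mul c F
  · rfl

theorem Av_sum (F : Fin k → Hg → ℝ) : Av ℓ V D₁ D₂ D₃ l (fun h => ∑ i, F i h) =
    fun h => ∑ i, Av ℓ V D₁ D₂ D₃ l (F i) h := by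
  funext h
  unfold Av
  split_ifs
  · exact Ex_sum Finset.univ F
  · rfl

theorem AvU_add (F G : Hg → ℝ) : AvU ℓ V D₁ D₂ D₃ l (fun h => F h + G h) =
    fun h => AvU ℓ V D₁ D₂ D₃ l F h + AvU ℓ V D₁ D₂ D₃ l G h := by
  funext h
  unfold AvU
  split_ifs
  · exact Ex_add F G
  · rfl

theorem AvU_const_mul (c : ℝ) (F : Hg → ℝ) : AvU ℓ V D₁ D₂ D₃ l (fun h => c * F h) =
    fun h => c * AvU ℓ V D₁ D₂ D₃ l F h := by
  funext h
  unfold AvU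
  split_ifs
  · exact Ex_const_mul c F
  · rfl

theorem AvU_sum (F : Fin k → Hg → ℝ) : AvU ℓ V D₁ D₂ D₃ l (fun h => ∑ i, F i h) =
    fun h => ∑ i, AvU ℓ V D₁ D₂ D₃ l (F i) h := by
  funext h
  unfold AvU
  split_ifs
  · exact Ex_sum Finset.univ F
  · rfl

end Vale.Agent.P153.R2.RINS
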