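import Vale.Agent.P153.R2.RINS.Tone

/-!
# P153-R2, block RINS: proof of the one-sided estimates T1
-/

namespace Vale.Agent.P153.R2.RINS

open Set Relation MeasureTheory
open Vale.Agent.P153
open Vale.Agent.P153.Topo (Conn)

variable {V D D' D₁ D₂ D₃ : Set Pt} {η g h l l' l'' u u' u'' : Hg} {m ℓ : ℤ} {k : ℕ}
  {Z : Finset Pt} {φ : Fin k → Pt → ℝ} {Q : Measure Hg} {F : Hg → ℝ} {C γ ε K L : ℝ}

theorem Sm_neg (hh : -h ∈ Sm V (-η) m) : h ∈ Sm V η m := by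
  obtain ⟨h1, h2⟩ := hh
  rw [mem_XC] at h1
  refine ⟨mem_XC.2 ⟨fun x => ?_, fun x hx => ?_, ?_⟩, fun x hx => ?_⟩
  · have := h1.1 x
    rwa [Pi.neg_apply, odd_neg] at this
  · have := h1.2.1 x hx
    rw [Pi.neg_apply, Pi.neg_apply] at this
    linarith
  · have := h1.2.2.neg
    rwa [neg_neg] at this
  · have := h2 x hx
    rwa [Pi.neg_apply, abs_neg] at this

namespace Pk

theorem dsub (p : Pk V η m l l' l'' u u' D₁ D₂ D₃ Z φ C γ) : D₃ ⊆ D₁ :=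
  (p.H.s3' p.hD3).trans p.H.s2

theorem l_le_u (p : Pk V η m l l' l'' u u' D₁ D₂ D₃ Z φ C γ) : l ≤ u :=
  p.E1.hl.2 (Sm_neg p.U1.hl.1)

theorem u_mem (p : Pk V η m l l' l'' u u' D₁ D₂ D₃ Z φ C γ) (hD : D ⊆ V) : u ∈ XC D u := by
  have h1 := Sm_neg p.U1.hl.1
  have h2 := mem_XC.1 h1.1
  exact mem_XC.2 ⟨h2.1, fun _ _ => rfl, h2.2.2.mono hD⟩

theorem u_odd (p : Pk V η m l l' l'' u u' D₁ D₂ D₃ Z φ C γ) (x : Pt) : Odd (u x) :=
  (mem_XC.1 (Sm_neg p.U1.hl.1).1).1 x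

/-- The laws with the data `l` and `u` are ordered. -/
theorem lu_le (p : Pk V η m l l' l'' u u' D₁ D₂ D₃ Z φ C γ) (hD : D ⊆ V) {F : Hg → ℝ}
    (hF : DepOn D F) (hm : Monotone F) : Ex (XC D l) F ≤ Ex (XC D u) F :=
  XC_le (p.E1.fin.subset hD) (IsLeast.odd p.E1.hl) p.u_odd (fun x _ => p.l_le_u x)
    (l_ne p.E1 hD) ⟨u, p.u_mem hD⟩ hF hm

theorem ZD (p : Pk V η m l l' l'' u u' D₁ D₂ D₃ Z φ C γ) (hD : D₃ ⊆ D) :
    ∀ x ∈ (Z : Set Pt), x ∈ D := fun x hx => hD (p.hZ x hx)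

theorem depY (p : Pk V η m l l' l'' u u' D₁ D₂ D₃ Z φ C γ) (hD : D₃ ⊆ D) (i : Fin k) :
    DepOn D (fun h => Yv (-(m + 1)) Z φ h i) :=
  (Yv_dep_comp fun y => y i).mono (p.ZD hD)

theorem g1 (p : Pk V η m l l' l'' u u' D₁ D₂ D₃ Z φ C γ) (hD : D₃ ⊆ D) (hV : D ⊆ V)
    (i : Fin k) : Ex (XC D u) (fun h => Yv (-(m + 1)) Z φ h i) ≤
      Ex (XC D₃ u') (fun h => Yv (-(m + 1)) Z φ h i) := mean_up p.U1 hV hD p.hZ p.hφ i

theorem g2 (p : Pk V η m l l' l'' u u' D₁ D₂ D₃ Z φ C γ) (hD : D₃ ⊆ D) (hV : D ⊆ V)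
    (i : Fin k) : Ex (XC D l) (fun h => Yv (-(m + 1)) Z φ h i) ≤
      Ex (XC D u) (fun h => Yv (-(m + 1)) Z φ h i) :=
  p.lu_le hV (p.depY hD i) (Yv_mono p.hφ i)

theorem g3 (p : Pk V η m l l' l'' u u' D₁ D₂ D₃ Z φ C γ) (hD : D₃ ⊆ D) (hV : D ⊆ V)
    (i : Fin k) : Ex (XC D₃ l'') (fun h => Yv (-(m + 1)) Z φ h i) ≤
      Ex (XC D l') (fun h => Yv (-(m + 1)) Z φ h i) := mean_low p.E2 hV hD p.hZ p.hφ i

theorem g4 (p : Pk V η m l l' l'' u u' D₁ D₂ D₃ Z φ C γ) (hD : D₃ ⊆ D) (hV : D ⊆ V)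
    (i : Fin k) : Ex (XC D l') (fun h => Yv (-(m + 1)) Z φ h i) ≤
      Ex (XC D l) (fun h => Yv (-(m + 1)) Z φ h i) :=
  p.E1.XC_l_le hV (p.depY hD i) (Yv_mono p.hφ i)

/-- Lemma S between two domains. -/
theorem momS (p : Pk V η m l l' l'' u u' D₁ D₂ D₃ Z φ C γ) (hD' : D₃ ⊆ D') (hDD : D' ⊆ D)
    (hD : D ⊆ D₁) (hK : 1 ≤ K) :
    Ex (XC D' l) (fun h => ∏ i, Yv (-(m + 1)) Z φ h i) - kS k C K γ ≤
      Ex (XC D l) (fun h => ∏ i, Yv (-(m + 1)) Z φ h i) := by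
  have hV : D' ⊆ V := hDD.trans (hD.trans p.H.s1)
  refine mom_low p.E1 (hD.trans p.H.s1) hDD (p.ZD hD') p.hφ hK
    (Ex_W_mono (by omega) (p.ml D' hD' (hDD.trans hD)))
    (Ex_W_mono (by omega) (p.ml' D' hD' (hDD.trans hD))) fun i => ?_
  linarith [p.g1 hD' hV i, p.g2 hD' hV i, p.g3 hD' hV i, p.g4 hD' hV i, p.gap i]

theorem C1 (p : Pk V η m l l' l'' u u' D₁ D₂ D₃ Z φ C γ) : 1 ≤ C := by
  have h1 := p.ml D₃ subset_rfl p.dsub
  have h2 := Ex_mono (S := XC D₃ l) (F := fun _ => (1 : ℝ))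
    (G := fun h => Wt (Yv (-(m + 1)) Z φ h) ^ (k + 2)) fun h _ => one_le_pow₀ (one_le_Wt _)
  rw [Ex_const (XC_finite (p.E1.fin.subset p.hD3) l) (l_ne p.E1 p.hD3)] at h2
  linarith

variable (p : Pk V η m l l' l'' u u' D₁ D₂ D₃ Z φ C γ) (q : Qk V η m l u D₁ D₂ Z φ C ε Q)

include p q

/-- Bound of an integral through a bound off the event `B` and a bound on `B`. -/
theorem int_bound {B : Set Hg} (hB : MeasurableSet B) (hBQ : Q.real B ≤ ε) (hL : 0 < L)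
    {G : Hg → ℝ} (hG : Integrable G Q) {a : ℝ} (ha : |a| ≤ C) (h1 : ∀ h, h ∉ B → G h ≤ a)
    (h2 : ∀ h ∈ B, G h ≤ Wt (Yv (-(m + 1)) Z φ h)) : ∫ h, G h ∂Q ≤ a + be C L ε := by
  classical
  have := q.G.prob
  have hC1 := p.C1
  have hpt : ∀ h, G h ≤ a + (B.indicator (fun _ => L + C) h +
      Wt (Yv (-(m + 1)) Z φ h) ^ (k + 2) / L) := by
    intro h
    have hw : 0 ≤ Wt (Yv (-(m + 1)) Z φ h) ^ (k + 2) / L := by
      have := one_le_Wt (Yv (-(m + 1)) Z φ h)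
      positivity
    by_cases h3 : h ∈ B
    · rw [indicator_of_mem h3]
      have := Wt_split (Yv (-(m + 1)) Z φ h) hL
      linarith [h2 h h3, (abs_le.1 ha).1]
    · rw [indicator_of_notMem h3]
      linarith [h1 h h3]
  have i1 : Integrable (B.indicator (fun _ : Hg => L + C)) Q := (integrable_const _).indicator hB
  have i2 : Integrable (fun h => Wt (Yv (-(m + 1)) Z φ h) ^ (k + 2) / L) Q := q.int.div_const L
  have i3 : Integrable (fun h => B.indicator (fun _ => L + C) h +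
      Wt (Yv (-(m + 1)) Z φ h) ^ (k + 2) / L) Q := i1.add i2
  have i4 : Integrable (fun h => a + (B.indicator (fun _ => L + C) h +
      Wt (Yv (-(m + 1)) Z φ h) ^ (k + 2) / L)) Q := (integrable_const a).add i3
  refine (integral_mono hG i4 hpt).trans ?_
  rw [integral_add (integrable_const a) i3, integral_add i1 i2, integral_const,
    integral_indicator_const _ hB, integral_div]
  simp only [probReal_univ, smul_eq_mul]
  have h5 : Q.real B * (L + C) ≤ ε * (L + C) := mul_le_mul_of_nonneg_right hBQ (by linarith)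
  have h6 : (∫ h, Wt (Yv (-(m + 1)) Z φ h) ^ (k + 2) ∂Q) / L ≤ C / L :=
    div_le_div_of_nonneg_right q.mom hL.le
  unfold be
  linarith

omit p q in
theorem meas_gd (hV : V.Finite) (hD : D₁ ⊆ V) : MeasurableSet {h | h ∉ gd ℓ V D₁ D₂} := by
  have h1 : DepOn D₁ (fun h => h ∈ gd ℓ V D₁ D₂) := by
    intro h g hh
    have e := Kc_dep (ℓ := ℓ) (V := V) h g hh
    unfold gd
    simp only [Set.mem_ofPred_eq, e]
  exact ((h1.measurable (hV.subset hD)).setOf).compl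

omit p q in
theorem meas_gdU (hV : V.Finite) (hD : D₁ ⊆ V) : MeasurableSet {h | -h ∉ gd ℓ V D₁ D₂} :=
  measurable_negHg (meas_gd hV hD)

omit p in
theorem eps_nonneg : 0 ≤ ε := le_trans measureReal_nonneg q.low

/-- The mean of the average is bounded above by the mean of the smallest domain. -/
theorem AvU_Y_le (hL : 0 < L) (i : Fin k) :
    ∫ h, AvU (-(m + 2)) V D₁ D₂ D₃ u (fun h => Yv (-(m + 1)) Z φ h i) h ∂Q ≤
      Ex (XC D₃ u') (fun h => Yv (-(m + 1)) Z φ h i) + be C L ε := by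
  have := q.G.prob
  refine p.int_bound q (meas_gdU p.E1.fin p.H.s1) q.up hL
    (AvU_integrable p.E1.fin p.H.s1 (p.depY p.dsub i) (q.intY i)) (abs_Ex_Y_le i p.mu')
    (fun h hh => ?_) fun h hh => ?_
  · have hg : -h ∈ gd (-(m + 2)) V D₁ D₂ := not_not.1 hh
    unfold AvU
    rw [if_pos hg]
    exact p.g1 (D3_sub_Dh p.H p.hD3 hg) (Dh_sub_D1.trans p.H.s1) i
  · have hg : -h ∉ gd (-(m + 2)) V D₁ D₂ := hh
    unfold AvU
    rw [if_neg hg]
    exact (le_abs_self _).trans (abs_le_Wt _ i)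

/-- The mean of the average is bounded below. -/
theorem le_Av_Y (hL : 0 < L) (i : Fin k) :
    Ex (XC D₃ l'') (fun h => Yv (-(m + 1)) Z φ h i) - be C L ε ≤
      ∫ h, Av (-(m + 2)) V D₁ D₂ D₃ l (fun h => Yv (-(m + 1)) Z φ h i) h ∂Q := by
  have := q.G.prob
  have hi := Av_integrable (Q := Q) (ℓ := -(m + 2)) (D₂ := D₂) (D₃ := D₃) (l := l) p.E1.fin p.H.s1
    (p.depY p.dsub i) (q.intY i)
  have key := p.int_bound q (meas_gd p.E1.fin p.H.s1) q.low hL hi.neg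
    (a := -Ex (XC D₃ l'') (fun h => Yv (-(m + 1)) Z φ h i))
    (by rw [abs_neg]; exact abs_Ex_Y_le i p.ml'')
    (fun h hh => ?_) fun h hh => ?_
  · simp only [Pi.neg_apply] at key
    rw [integral_neg] at key
    linarith
  · have hg : h ∈ gd (-(m + 2)) V D₁ D₂ := not_not.1 hh
    rw [Pi.neg_apply]
    unfold Av
    rw [if_pos hg]
    have h1 := D3_sub_Dh p.H p.hD3 hg
    have h2 : Dh (-(m + 2)) V D₁ D₃ h ⊆ V := Dh_sub_D1.trans p.H.s1
    linarith [p.g3 h1 h2 i, p.g4 h1 h2 i]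
  · have hg : h ∉ gd (-(m + 2)) V D₁ D₂ := hh
    rw [Pi.neg_apply]
    unfold Av
    rw [if_neg hg]
    exact (neg_le_abs _).trans (abs_le_Wt _ i)

/-- Difference of the means. -/
theorem dY (hL : 0 < L) (i : Fin k) :
    (∫ h, Yv (-(m + 1)) Z φ h i ∂Q ≤
      ∫ h, AvU (-(m + 2)) V D₁ D₂ D₃ u (fun h => Yv (-(m + 1)) Z φ h i) h ∂Q) ∧
    (∫ h, Av (-(m + 2)) V D₁ D₂ D₃ l (fun h => Yv (-(m + 1)) Z φ h i) h ∂Q ≤
      ∫ h, Yv (-(m + 1)) Z φ h i ∂Q) ∧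
    ∫ h, AvU (-(m + 2)) V D₁ D₂ D₃ u (fun h => Yv (-(m + 1)) Z φ h i) h ∂Q -
      ∫ h, Av (-(m + 2)) V D₁ D₂ D₃ l (fun h => Yv (-(m + 1)) Z φ h i) h ∂Q ≤
      γ + 2 * be C L ε := by
  refine ⟨up_dom p.U1 p.H p.hD3 q.G (p.depY subset_rfl i) (Yv_mono p.hφ i) (q.intY i),
    low_dom p.E1 p.H p.hD3 q.G (p.depY subset_rfl i) (Yv_mono p.hφ i) (q.intY i), ?_⟩
  linarith [p.AvU_Y_le q hL i, p.le_Av_Y q hL i, p.gap i]

/-- Closeness of the truncated product and its lower average. -/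
theorem Av_close (hK : 1 ≤ K) (hL : 0 < L) :
    |∫ h, tp K (Yv (-(m + 1)) Z φ h) ∂Q -
      ∫ h, Av (-(m + 2)) V D₁ D₂ D₃ l (fun h => tp K (Yv (-(m + 1)) Z φ h)) h ∂Q| ≤
      K ^ k * (k * (γ + 2 * be C L ε)) := by
  have := q.G.prob
  have hK0 : 0 ≤ K := by linarith
  have hiY := fun i => Av_integrable (Q := Q) (ℓ := -(m + 2)) (D₂ := D₂) (D₃ := D₃) (l := l)
    p.E1.fin p.H.s1 (p.depY p.dsub i) (q.intY i)
  have dT : DepOn D₁ (fun h => tp K (Yv (-(m + 1)) Z φ h)) :=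
    (Yv_dep_comp (tp K)).mono (p.ZD p.dsub)
  have hiT := Av_integrable (Q := Q) (ℓ := -(m + 2)) (D₂ := D₂) (D₃ := D₃) (l := l)
    p.E1.fin p.H.s1 dT (q.intT hK0)
  have key : ∀ σ : ℝ, |σ| ≤ 1 →
      K ^ k * ∑ i, ∫ h, Av (-(m + 2)) V D₁ D₂ D₃ l (fun h => Yv (-(m + 1)) Z φ h i) h ∂Q +
        σ * ∫ h, Av (-(m + 2)) V D₁ D₂ D₃ l (fun h => tp K (Yv (-(m + 1)) Z φ h)) h ∂Q ≤
      K ^ k * ∑ i, ∫ h, Yv (-(m + 1)) Z φ h i ∂Q +
        σ * ∫ h, tp K (Yv (-(m + 1)) Z φ h) ∂Q := by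
    intro σ hσ
    have h1 := low_dom p.E1 p.H p.hD3 q.G
      (((Yv_dep_comp fun y => K ^ k * ∑ i, y i + σ * tp K y)).mono (p.ZD subset_rfl))
      (tp_mono (s := -(m + 1)) p.hφ hK hσ) (q.intF hK0 σ)
    rw [Av_add (fun h => K ^ k * ∑ i, Yv (-(m + 1)) Z φ h i) (fun h =>
      σ * tp K (Yv (-(m + 1)) Z φ h)), Av_const_mul, Av_const_mul, Av_sum] at h1
    rw [integral_add ((integrable_finsetSum _ fun i _ => hiY i).const_mul _)
      (hiT.const_mul σ), integral_add ((integrable_finsetSum _ fun i _ => q.intY i).const_mul _)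
      ((q.intT hK0).const_mul σ), integral_const_mul, integral_const_mul, integral_const_mul,
      integral_const_mul, integral_finsetSum _ fun i _ => hiY i,
      integral_finsetSum _ fun i _ => q.intY i] at h1
    exact h1
  have k1 := key 1 (by simp)
  have k2 := key (-1) (by simp)
  have hs : ∑ i, ∫ h, Yv (-(m + 1)) Z φ h i ∂Q -
      ∑ i, ∫ h, Av (-(m + 2)) V D₁ D₂ D₃ l (fun h => Yv (-(m + 1)) Z φ h i) h ∂Q ≤
      k * (γ + 2 * be C L ε) := by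
    rw [← Finset.sum_sub_distrib]
    calc _ ≤ ∑ _i : Fin k, (γ + 2 * be C L ε) := by
          refine Finset.sum_le_sum fun i _ => ?_
          obtain ⟨h1, _, h3⟩ := p.dY q hL i
          linarith
      _ = _ := by rw [Finset.sum_const, Finset.card_univ, Fintype.card_fin, nsmul_eq_mul]
  have hs2 := mul_le_mul_of_nonneg_left hs (show 0 ≤ K ^ k by positivity)
  rw [mul_sub] at hs2
  rw [abs_le]
  constructor <;> linarith

/-- Closeness of the truncated product and its upper average. -/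
theorem AvU_close (hK : 1 ≤ K) (hL : 0 < L) :
    |∫ h, AvU (-(m + 2)) V D₁ D₂ D₃ u (fun h => tp K (Yv (-(m + 1)) Z φ h)) h ∂Q -
      ∫ h, tp K (Yv (-(m + 1)) Z φ h) ∂Q| ≤ K ^ k * (k * (γ + 2 * be C L ε)) := by
  have := q.G.prob
  have hK0 : 0 ≤ K := by linarith
  have hiY := fun i => AvU_integrable (Q := Q) (ℓ := -(m + 2)) (D₂ := D₂) (D₃ := D₃) (u := u)
    p.E1.fin p.H.s1 (p.depY p.dsub i) (q.intY i)
  have dT : DepOn D₁ (fun h => tp K (Yv (-(m + 1)) Z φ h)) :=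
    (Yv_dep_comp (tp K)).mono (p.ZD p.dsub)
  have hiT := AvU_integrable (Q := Q) (ℓ := -(m + 2)) (D₂ := D₂) (D₃ := D₃) (u := u)
    p.E1.fin p.H.s1 dT (q.intT hK0)
  have key : ∀ σ : ℝ, |σ| ≤ 1 →
      K ^ k * ∑ i, ∫ h, Yv (-(m + 1)) Z φ h i ∂Q +
        σ * ∫ h, tp K (Yv (-(m + 1)) Z φ h) ∂Q ≤
      K ^ k * ∑ i, ∫ h, AvU (-(m + 2)) V D₁ D₂ D₃ u (fun h => Yv (-(m + 1)) Z φ h i) h ∂Q +
        σ * ∫ h, AvU (-(m + 2)) V D₁ D₂ D₃ u (fun h => tp K (Yv (-(m + 1)) Z φ h)) h ∂Q := by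
    intro σ hσ
    have h1 := up_dom p.U1 p.H p.hD3 q.G
      (((Yv_dep_comp fun y => K ^ k * ∑ i, y i + σ * tp K y)).mono (p.ZD subset_rfl))
      (tp_mono (s := -(m + 1)) p.hφ hK hσ) (q.intF hK0 σ)
    rw [AvU_add (fun h => K ^ k * ∑ i, Yv (-(m + 1)) Z φ h i) (fun h =>
      σ * tp K (Yv (-(m + 1)) Z φ h)), AvU_const_mul, AvU_const_mul, AvU_sum] at h1
    rw [integral_add ((integrable_finsetSum _ fun i _ => hiY i).const_mul _)
      (hiT.const_mul σ), integral_add ((integrable_finsetSum _ fun i _ => q.intY i).const_mul _)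
      ((q.intT hK0).const_mul σ), integral_const_mul, integral_const_mul, integral_const_mul,
      integral_const_mul, integral_finsetSum _ fun i _ => hiY i,
      integral_finsetSum _ fun i _ => q.intY i] at h1
    exact h1
  have k1 := key 1 (by simp)
  have k2 := key (-1) (by simp)
  have hs : ∑ i, ∫ h, AvU (-(m + 2)) V D₁ D₂ D₃ u (fun h => Yv (-(m + 1)) Z φ h i) h ∂Q -
      ∑ i, ∫ h, Yv (-(m + 1)) Z φ h i ∂Q ≤ k * (γ + 2 * be C L ε) := by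
    rw [← Finset.sum_sub_distrib]
    calc _ ≤ ∑ _i : Fin k, (γ + 2 * be C L ε) := by
          refine Finset.sum_le_sum fun i _ => ?_
          obtain ⟨_, h1, h3⟩ := p.dY q hL i
          linarith
      _ = _ := by rw [Finset.sum_const, Finset.card_univ, Fintype.card_fin, nsmul_eq_mul]
  have hs2 := mul_le_mul_of_nonneg_left hs (show 0 ≤ K ^ k by positivity)
  rw [mul_sub] at hs2
  rw [abs_le]
  constructor <;> linarith

end Pk

end Vale.Agent.P153.R2.RINS
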